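import Vale.Agent.P042.H945.State9
set_option autoImplicit false

/-!
P042 [D], the extremal state, part 10 (target S): the cell inequality for the core law.
-/

namespace Vale.Agent.P042.H945

open Finset Vale.Agent.P042.H599

variable {W : Finset ℕ} {lam : ℕ → ℕ} {k : ℕ} {c0 xi eta D0 E1 : ℝ} {Mm : ℕ} {N d M : ℕ}
  {A0 : Finset ℤ} {a : ℤ} {x : ℕ → ℝ} {L Pm K0 r0 tt : ℝ}

/-- the cell: class `w` modulo `D`, interval `[u, v]` -/
def cl (D w u v : ℕ) (n : ℕ) : Prop := u ≤ n ∧ n ≤ v ∧ n % D = w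

theorem sum_log_dvd (hW : ∀ p ∈ W, p.Prime) {D : ℕ} (hD : 1 ≤ D) :
    ∑ p ∈ W with p ∣ D, Real.log p ≤ Real.log D := by
  have h1 : ∏ p ∈ W with p ∣ D, p ∣ D := by
    refine Finset.prod_primes_dvd D (fun p hp => ?_) (fun p hp => (Finset.mem_filter.1 hp).2)
    exact (hW p (Finset.mem_filter.1 hp).1).prime
  have h2 := Nat.le_of_dvd hD h1
  have h3 : ∀ p ∈ W.filter (fun p => p ∣ D), ((p : ℕ) : ℝ) ≠ 0 := by
    intro p hp
    exact_mod_cast (hW p (Finset.mem_filter.1 hp).1).ne_zero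
  rw [← Real.log_prod h3]
  have h4 : (0 : ℝ) < ∏ p ∈ W with p ∣ D, (p : ℝ) :=
    Finset.prod_pos fun p hp => by
      exact_mod_cast (hW p (Finset.mem_filter.1 hp).1).pos
  refine Real.log_le_log h4 ?_
  have h5 : ((∏ p ∈ W with p ∣ D, p : ℕ) : ℝ) ≤ D := Nat.cast_le.2 h2
  rwa [Nat.cast_prod] at h5

theorem log_low {t β : ℝ} (ht : 0 ≤ t) (ht2 : t ≤ 1 / 2) (h : 1 - t ≤ β) :
    -(2 * t) ≤ Real.log β := by
  have h0 : 0 < β := by linarith
  have h1 := Real.one_sub_inv_le_log_of_pos h0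
  have h2 : β⁻¹ ≤ 1 + 2 * t := by
    rw [inv_le_iff_one_le_mul₀ h0]
    nlinarith
  linarith

/-- the tiny part of the cell inequality -/
noncomputable def TT (W : Finset ℕ) (c0 xi D0 Pm tt : ℝ) : ℝ :=
  W.card * t2 D0 Pm tt + tt + 2 * Real.exp (-(D0 / 4)) +
    c0 * (W.card * (4 * Pm * Real.exp (-(D0 / 4)) / xi))

/-- **the cell inequality for cells which are not thin** -/
theorem SS0.fat (h : SS0 W lam k c0 xi eta D0 E1 Mm N A0 d a M x L Pm K0 r0 tt)
    {D w u v : ℕ} (hD : 1 ≤ D) (hu : 1 ≤ u) (hv : v ≤ M) (huv : 2 * Mm * lam D ≤ v + 1 - u)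
    (hpos : 0 < ms (core x M D0) M (cl D w u v))
    (hfat : 2 * Real.exp (-(D0 / 4)) * ((v + 1 - u : ℕ) : ℝ) ≤
      D * ms (core x M D0) M (cl D w u v) * M)
    (hK : 2 / ms (core x M D0) M (cl D w u v) ≤ K0)
    (hr : (lam D : ℝ) / ((v + 1 - u : ℕ) : ℝ) ≤ r0) :
    Real.log (D * ms (core x M D0) M (cl D w u v) * M / ((v + 1 - u : ℕ) : ℝ)) +
      c0 * ∑ p ∈ W with ¬ p ∣ D, klc (rst (core x M D0) M (cl D w u v)) (core x M D0) M p ≤
    2 * (eta * (k * Real.log D)) + eta * (Real.log M - Real.log ((v + 1 - u : ℕ) : ℝ)) +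
      TT W c0 xi D0 Pm tt := by
  classical
  have hx := h.law
  have hQ := h.mx.ok
  have hE0 := Real.exp_pos (-(D0 / 4))
  obtain ⟨he1, he2⟩ := h.e0small
  obtain ⟨hβ1, hβ2, hβ3⟩ := h.beta
  have hη : 0 < eta := hQ.eta0
  have hxi := h.hxi
  have hc0 := h.hc0
  have hcx := h.hcx
  obtain ⟨m, hm⟩ : ∃ m, m = ms (core x M D0) M (cl D w u v) := ⟨_, rfl⟩
  obtain ⟨β, hβ⟩ : ∃ β, β = ms x M (fun n => M * x n ≤ Real.exp (D0 / 2)) := ⟨_, rfl⟩
  rw [← hβ] at hβ1 hβ2 hβ3
  rw [← hm] at hpos hfat hK ⊢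
  have hMpos : (0 : ℝ) < M := by exact_mod_cast hx.pos
  have hD' : (0 : ℝ) < D := by exact_mod_cast hD
  have hVpos : 0 < v + 1 - u := by
    have h1 := hQ.Mm1
    have h1' : 2 ≤ Mm := h1
    have h2 := h.hl.pos hD
    nlinarith
  have hV' : (0 : ℝ) < ((v + 1 - u : ℕ) : ℝ) := by exact_mod_cast hVpos
  set S' : ℕ → Prop := fun n => cl D w u v n ∧ M * x n ≤ Real.exp (D0 / 2) with hS'
  have hmS : ms x M S' = m * β := by
    have h1 := ms_rst (x := x) (M := M) (fun n => M * x n ≤ Real.exp (D0 / 2)) (cl D w u v)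
    have h2 : m = ms x M S' / β := by rw [hm, hβ, ← h1]; rfl
    rw [h2, div_mul_cancel₀ _ hβ3.ne']
  have hSpos : 0 < ms x M S' := by rw [hmS]; positivity
  have hfun : rst (core x M D0) M (cl D w u v) = rst x M S' := by
    funext n
    exact rst_rst (by rw [← hβ]; exact hβ3) n
  have hβh : 1 / 2 ≤ β := by linarith
  have hev := event_ineq (S := S') h.hW h.hxi.le h.mx (D := D) (w := w) (u := u) (v := v) hD hu hv
    huv (fun n hn _ => ⟨hn.2, hn.1.1, hn.1.2.1, hn.1.2.2⟩) hSpos (by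
      rw [hmS]
      have h1 : (D : ℝ) * (m * β) * M = β * (D * m * M) := by ring
      rw [h1]
      have h2 : 1 / 2 * (D * m * M) ≤ β * (D * m * M) :=
        mul_le_mul_of_nonneg_right hβh (by positivity)
      linarith)
  rw [← hfun] at hev
  have hylaw : Law (rst (core x M D0) M (cl D w u v)) 1 M := by
    rw [hfun]; exact rst_law hx hSpos
  have hac : AC (rst (core x M D0) M (cl D w u v)) x M := fun i _ h0 => by
    by_contra h1
    rw [hfun] at h1
    exact (rst_ne h1).2 h0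
  -- relative entropies
  have hk1 : ∑ p ∈ W with ¬ p ∣ D, klc (rst (core x M D0) M (cl D w u v)) (core x M D0) M p ≤
      ∑ p ∈ W with ¬ p ∣ D, klc (rst (core x M D0) M (cl D w u v)) x M p +
        W.card * (4 * Pm * Real.exp (-(D0 / 4)) / xi) := by
    have h1 : ∑ p ∈ W with ¬ p ∣ D,
        klc (rst (core x M D0) M (cl D w u v)) (core x M D0) M p ≤
        ∑ p ∈ W with ¬ p ∣ D, (klc (rst (core x M D0) M (cl D w u v)) x M p +
          4 * Pm * Real.exp (-(D0 / 4)) / xi) :=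
      Finset.sum_le_sum fun p hp => h.klc_core (Finset.mem_filter.1 hp).1 hylaw hac
    rw [Finset.sum_add_distrib, Finset.sum_const, nsmul_eq_mul] at h1
    have h2 : (((W.filter (fun p => ¬ p ∣ D)).card : ℕ) : ℝ) ≤ W.card := by
      exact_mod_cast Finset.card_filter_le _ _
    have h3 : 0 ≤ 4 * Pm * Real.exp (-(D0 / 4)) / xi := by have := h.hPm1; positivity
    have h4 := mul_le_mul_of_nonneg_right h2 h3
    linarith
  -- support terms
  have hom : xi * ∑ q ∈ W, zc x M q - ∑ q ∈ W with ¬ q ∣ D, omS xi q (rs (sp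
      (rst (core x M D0) M (cl D w u v)) M) q) ≤ xi * ∑ q ∈ W with q ∣ D, zc x M q := by
    have h1 : ∑ q ∈ W with ¬ q ∣ D, xi * zc x M q ≤ ∑ q ∈ W with ¬ q ∣ D, omS xi q (rs (sp
      (rst (core x M D0) M (cl D w u v)) M) q) := by
      refine Finset.sum_le_sum fun q _ => ?_
      rw [← omS_sp hx]
      refine omS_mono h.hxi.le (rs_sub (fun n hn => ?_) q)
      rw [hfun] at hn
      exact (rst_ne hn).2
    rw [← Finset.mul_sum] at h1
    rw [← Finset.sum_filter_add_sum_filter_not W (fun q => q ∣ D), mul_add]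
    linarith
  -- the primes dividing D
  have hdens : ∀ p ∈ W.filter (fun p => p ∣ D), Real.log (p * cm x 1 M p (w % p)) ≤
      2 * (eta * (k * Real.log p)) + t2 D0 Pm tt ∧
      zc x M p ≤ 2 * (eta * (k * Real.log p)) + t2 D0 Pm tt := by
    intro p hp
    obtain ⟨hp1, hp2⟩ := Finset.mem_filter.1 hp
    have hpp := h.hW p hp1
    have hp0 : (0 : ℝ) < p := by exact_mod_cast hpp.pos
    have h0 : 0 < cm x 1 M p (w % p) := by
      rw [← ms_class]
      refine lt_of_lt_of_le hSpos (ms_le_of hx fun n hn => ?_)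
      rw [← hn.1.2.2, Nat.mod_mod_of_dvd _ hp2]
    have h1 := h.dens hp1 (w % p)
    refine ⟨?_, zc_le hpp.pos hx (fun b => h.dens hp1 b)⟩
    have h2 := Real.log_le_log (by positivity) h1
    rwa [Real.log_exp] at h2
  have hsl := sum_log_dvd h.hW hD
  have hcard : (((W.filter (fun p => p ∣ D)).card : ℕ) : ℝ) ≤ W.card := by
    exact_mod_cast Finset.card_filter_le _ _
  have ht2 : 0 ≤ t2 D0 Pm tt := by
    unfold t2
    have := h.tt0
    have := h.hPm1
    positivity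
  have hB : ∑ p ∈ W with p ∣ D, (2 * (eta * (k * Real.log p)) + t2 D0 Pm tt) ≤
      2 * (eta * (k * Real.log D)) + W.card * t2 D0 Pm tt := by
    rw [Finset.sum_add_distrib, Finset.sum_const, nsmul_eq_mul]
    have h1 : ∑ p ∈ W with p ∣ D, 2 * (eta * (k * Real.log p)) =
        2 * (eta * (k * ∑ p ∈ W with p ∣ D, Real.log p)) := by
      simp only [Finset.mul_sum]
    rw [h1]
    have h2 : 2 * (eta * (k * ∑ p ∈ W with p ∣ D, Real.log p)) ≤
        2 * (eta * (k * Real.log D)) := by gcongr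
    have h3 := mul_le_mul_of_nonneg_right hcard ht2
    linarith
  have hB0 : 0 ≤ 2 * (eta * (k * Real.log D)) + W.card * t2 D0 Pm tt := by
    have := Real.log_nonneg (show (1 : ℝ) ≤ D by exact_mod_cast hD)
    positivity
  have hc1 : c0 * ∑ p ∈ W with p ∣ D, Real.log (p * cm x 1 M p (w % p)) ≤
      c0 * (2 * (eta * (k * Real.log D)) + W.card * t2 D0 Pm tt) :=
    mul_le_mul_of_nonneg_left ((Finset.sum_le_sum fun p hp => (hdens p hp).1).trans hB) hc0
  have hx1 : xi * ∑ p ∈ W with p ∣ D, zc x M p ≤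
      xi * (2 * (eta * (k * Real.log D)) + W.card * t2 D0 Pm tt) :=
    mul_le_mul_of_nonneg_left ((Finset.sum_le_sum fun p hp => (hdens p hp).2).trans hB) hxi.le
  have hErr := (Err_mono hQ L (xi * W.card) (K := 1 / ms x M S') (K' := K0)
    (r := (lam D : ℝ) / ((v + 1 - u : ℕ) : ℝ)) (r' := r0) (M := M) (by positivity) (by
      refine le_trans ?_ hK
      rw [hmS, div_le_div_iff₀ (by positivity) hpos]
      have h1 : m * (1 / 2) ≤ m * β := mul_le_mul_of_nonneg_left hβh hpos.le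
      linarith) hr).trans h.hE
  have hlog : Real.log (D * m * M / ((v + 1 - u : ℕ) : ℝ)) - 2 * Real.exp (-(D0 / 4)) ≤
      Real.log (D * ms x M S' * M / ((v + 1 - u : ℕ) : ℝ)) := by
    have h1 : (D : ℝ) * ms x M S' * M / ((v + 1 - u : ℕ) : ℝ) =
        (D * m * M / ((v + 1 - u : ℕ) : ℝ)) * β := by rw [hmS]; ring
    rw [h1, Real.log_mul (by positivity) hβ3.ne']
    have h2 := log_low hE0.le (by linarith) hβ1
    linarith
  have hlam : eta * Real.log (lam D) ≤ eta * (k * Real.log D) :=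
    mul_le_mul_of_nonneg_left (log_lam_le h.hl hD) hη.le
  have hck := mul_le_mul_of_nonneg_left hk1 hc0
  have hhalf : (c0 + xi) * (2 * (eta * (k * Real.log D)) + W.card * t2 D0 Pm tt) ≤
      1 / 2 * (2 * (eta * (k * Real.log D)) + W.card * t2 D0 Pm tt) :=
    mul_le_mul_of_nonneg_right hcx hB0
  have hWt : 0 ≤ W.card * t2 D0 Pm tt := by positivity
  unfold TT
  rw [mul_add] at hck
  linarith

end Vale.Agent.P042.H945
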