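import Vale.Agent.P042.H858.EIPush
import Vale.Agent.P042.H438.DC
import Vale.Agent.P042.H92.PDef
set_option autoImplicit false
set_option linter.unusedSectionVars false

/-!
P042, power regime, law side, part 1: one cell of the state, its image on the product space, and
the fields `ref`, `usum`, `u1`, `up`, `lo`, `out`, `sup`, `eic` of `H92.PLaw`.
-/

namespace Vale.Agent.P042.H945

open Finset
open Vale.Agent.P042.H599 (cm Law)
open Vale.Agent.P042.H779 (marg m1 phi)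
open Vale.Agent.P042.H779.Ab (ce gdw Ref)
open Vale.Agent.P042.H779.Ab.Ll (len)
open Vale.Agent.P042.H858 (pf MFe CellHyp ei_core)
open Vale.Agent.P042.H438 (Rs uw)
open Vale.Agent.P042.H742 (lw)
open Vale.Agent.P042.H92 (Prm lamP costP)

section

variable {ι : Type*} [Fintype ι] [DecidableEq ι] {V : ι → Type*} [∀ i, Fintype (V i)]
  [∀ i, DecidableEq (V i)] {q : ι → ℕ} {r : ∀ i, ℕ → V i}

theorem rs_surj (H : Rs q r) (i : ι) (a : V i) : ∃ b < q i, r i b = a := by
  have hinj : Function.Injective (fun j : Fin (q i) => r i j) := by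
    intro j k h
    have h1 := (H.r_iff i _ _).1 h
    unfold Nat.ModEq at h1
    rw [Nat.mod_eq_of_lt j.2, Nat.mod_eq_of_lt k.2] at h1
    exact Fin.ext h1
  have hbij : Function.Bijective (fun j : Fin (q i) => r i j) := by
    rw [Fintype.bijective_iff_injective_and_card]
    exact ⟨hinj, by rw [Fintype.card_fin, H.card]⟩
  obtain ⟨j, hj⟩ := hbij.2 a
  exact ⟨j, j.2, hj⟩

theorem m1_pf (H : Rs q r) (nu : ℕ → ℝ) (N : ℕ) (i : ι) {b : ℕ} (hb : b < q i) :
    m1 (pf r nu 1 N) i (r i b) = cm nu 1 N (q i) b := by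
  classical
  unfold m1
  have h1 : ∀ y : ∀ i, V i, (if y i = r i b then pf r nu 1 N y else 0) =
      pf r nu 1 N y * (if y i = r i b then 1 else 0) := fun y => by split_ifs <;> simp
  rw [Finset.sum_congr rfl fun y _ => h1 y, H858.sum_pf]
  unfold SM cm
  refine Finset.sum_congr rfl fun k _ => ?_
  have h2 : r i (1 + k) = r i b ↔ (1 + k) % q i = b := by
    rw [H.r_iff]
    unfold Nat.ModEq
    rw [Nat.mod_eq_of_lt hb]
  beta_reduce
  by_cases h3 : (1 + k) % q i = b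
  · rw [if_pos (h2.2 h3), if_pos h3, mul_one]
  · rw [if_neg fun h => h3 (h2.1 h), if_neg h3, mul_zero]

/-- the reference: marginals of the state on the ordinary sites, uniform on the others -/
noncomputable def lamR (S : Finset ι) (q : ι → ℕ) (r : ∀ i, ℕ → V i) (mu : ℕ → ℝ) (N : ℕ) (i : ι)
    (a : V i) : ℝ := if i ∈ S then m1 (pf r mu 1 N) i a else uw q i a

/-- the cost of a cell -/
noncomputable def cstP (W : Finset ℕ) (ga be : ℝ) (N : ℕ) (Vv : ℝ) (D : ℕ) : ℝ :=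
  be * (Real.log D + (Real.log N - Real.log Vv) + 1) + ∑ p ∈ W with p ∣ D, (p : ℝ) ^ (-ga)

/-- **one cell of the state, and the sites** -/
structure CellIn (S : Finset ι) (q : ι → ℕ) (r : ∀ i, ℕ → V i) (W : Finset ℕ) (g ga b be : ℝ)
    (mu : ℕ → ℝ) (N : ℕ) (DM Dm : ℝ) (D0 w0 u v : ℕ) : Prop where
  rs : Rs q r
  law : Law mu 1 N
  nn : ∀ n, 0 ≤ mu n
  mf : MFe mu N W (fun p => (p : ℝ) ^ (-g)) (cstP W ga be N ((v + 1 - u : ℕ) : ℝ)) DM Dm
    ((v + 1 - u : ℕ) : ℝ) u v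
  atom : ∀ p ∈ W, ∀ a, cm mu 1 N p a = 0 ∨ (p : ℝ) ^ (-g) / (4 * p) ≤ cm mu 1 N p a
  sup : ∀ p ∈ W, ∀ a, p * cm mu 1 N p a ≤ (p : ℝ) ^ b
  prime : ∀ p ∈ W, p.Prime
  inS : ∀ i ∈ S, q i ∈ W
  outS : ∀ i, i ∉ S → ∀ p ∈ W, ¬ p ∣ q i
  cop : ∀ i, (q i).Coprime D0
  copW : ∀ p ∈ W, ¬ p ∣ D0
  D1 : 1 ≤ D0
  m0 : 0 < ms mu N (cl D0 w0 u v)
  Vpos : 0 < v + 1 - u
  be0 : 0 ≤ be

variable {S : Finset ι} {W : Finset ℕ} {g ga b be : ℝ} {mu : ℕ → ℝ} {N : ℕ} {DM Dm : ℝ}
  {D0 w0 u v : ℕ}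

theorem CellIn.Np (H : CellIn S q r W g ga b be mu N DM Dm D0 w0 u v) : (0 : ℝ) < N := by
  exact_mod_cast H.law.pos

theorem CellIn.Vp (H : CellIn S q r W g ga b be mu N DM Dm D0 w0 u v) :
    (0 : ℝ) < ((v + 1 - u : ℕ) : ℝ) := by exact_mod_cast H.Vpos

theorem CellIn.qp (H : CellIn S q r W g ga b be mu N DM Dm D0 w0 u v) (i : ι) :
    (2 : ℝ) ≤ q i := by exact_mod_cast H.rs.two i

/-- the rates of 92 -/
theorem CellIn.hyp (H : CellIn S q r W g ga b be mu N DM Dm D0 w0 u v) {Q : Prm}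
    (hg : g ≤ Q.γ) :
    CellHyp q r mu N W (fun p => (p : ℝ) ^ (-g)) (cstP W ga be N ((v + 1 - u : ℕ) : ℝ)) DM Dm
      ((v + 1 - u : ℕ) : ℝ) D0 w0 u v (lamP Q S fun i => Real.log (q i)) where
  MF := H.mf
  law := H.law
  nn := H.nn
  q2 := H.rs.two
  pc := H.rs.cop
  Wpos := fun p hp => (H.prime p hp).pos
  c0 := fun p hp => by positivity
  lam0 := fun i => by
    unfold lamP
    split_ifs
    · exact (Real.exp_pos _).le
    · exact le_rfl
  lamc := fun i => by
    unfold lamP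
    by_cases hi : i ∈ S
    · right
      rw [if_pos hi]
      refine ⟨H.inS i hi, ?_⟩
      have h1 := H.qp i
      have h2 : (0 : ℝ) < q i := by linarith
      rw [Real.rpow_def_of_pos h2]
      refine Real.exp_le_exp.2 ?_
      have h3 : 0 ≤ Real.log (q i) := Real.log_nonneg (by linarith)
      nlinarith
    · left
      rw [if_neg hi]
  res := H.rs.r_iff
  cop := H.cop
  D1 := H.D1
  m0 := H.m0
  Vpos := H.Vp

theorem CellIn.cst (H : CellIn S q r W g ga b be mu N DM Dm D0 w0 u v) (A : Finset ι) :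
    cstP W ga be N ((v + 1 - u : ℕ) : ℝ) (D0 * ∏ i ∈ A, q i) ≤
      be * (Real.log D0 + (Real.log N - Real.log ((v + 1 - u : ℕ) : ℝ)) + 1) +
        ∑ i ∈ A, (be * Real.log (q i) + if i ∈ S then (q i : ℝ) ^ (-ga) else 0) := by
  have hD : (0 : ℝ) < D0 := by exact_mod_cast H.D1
  have hP : (0 : ℝ) < ∏ i ∈ A, (q i : ℝ) := Finset.prod_pos fun i _ => by
    have := H.qp i; linarith
  have h1 : Real.log ((D0 * ∏ i ∈ A, q i : ℕ) : ℝ) = Real.log D0 + ∑ i ∈ A, Real.log (q i) := by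
    push_cast
    rw [Real.log_mul hD.ne' hP.ne', Real.log_prod]
    intro i _
    have := H.qp i
    exact (by linarith : (0 : ℝ) < q i).ne'
  have h2 : ∑ p ∈ W with p ∣ D0 * ∏ i ∈ A, q i, (p : ℝ) ^ (-ga) ≤
      ∑ i ∈ A, if i ∈ S then (q i : ℝ) ^ (-ga) else 0 := by
    rw [← Finset.sum_filter]
    have hsub : W.filter (fun p => p ∣ D0 * ∏ i ∈ A, q i) ⊆ (A.filter (· ∈ S)).image q := by
      intro p hp
      obtain ⟨hp1, hp2⟩ := Finset.mem_filter.1 hp
      have hpp := H.prime p hp1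
      rcases (Nat.Prime.dvd_mul hpp).1 hp2 with h3 | h3
      · exact absurd h3 (H.copW p hp1)
      · obtain ⟨i, hi, h4⟩ := (Nat.Prime.prime hpp).exists_mem_finset_dvd h3
        by_cases hiS : i ∈ S
        · refine Finset.mem_image.2 ⟨i, Finset.mem_filter.2 ⟨hi, hiS⟩, ?_⟩
          exact ((Nat.prime_dvd_prime_iff_eq hpp (H.prime _ (H.inS i hiS))).1 h4).symm
        · exact absurd h4 (H.outS i hiS p hp1)
    have hinj : Set.InjOn q (A.filter (· ∈ S) : Set ι) := by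
      intro i _ j _ hij
      by_contra hne
      have h1 : (q i).Coprime (q j) := H.rs.cop hne
      rw [← hij, Nat.coprime_self] at h1
      have := H.rs.two i
      omega
    refine (Finset.sum_le_sum_of_subset_of_nonneg hsub fun p _ _ => by positivity).trans ?_
    rw [Finset.sum_image hinj]
  unfold cstP
  rw [h1, Finset.sum_add_distrib, ← Finset.mul_sum]
  linarith

/-- the numbers of one cell -/
structure CellNum (Q : Prm) (S : Finset ι) (q : ι → ℕ) (g ga b be : ℝ) (mu : ℕ → ℝ) (N : ℕ)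
    (DM Dm : ℝ) (D0 w0 u v : ℕ) : Prop where
  γ1 : ∀ i ∈ S, be * Real.log (q i) + (q i : ℝ) ^ (-ga) + (g * Real.log (q i) + Real.log 4) ≤
    Q.γ * Real.log (q i)
  gγ : g ≤ Q.γ
  bγ : b ≤ Q.γ
  beγ : be ≤ Q.γ
  a0 : be * (Real.log D0 + (Real.log N - Real.log ((v + 1 - u : ℕ) : ℝ)) + 1) -
    Real.log (D0 * ms mu N (cl D0 w0 u v) * N / ((v + 1 - u : ℕ) : ℝ)) ≤ Q.a0
  a00 : 0 ≤ Q.a0
  hDM : D0 * Real.exp Q.Λ ≤ DM
  hDm : Q.c0 * Real.exp Q.p ≤ Dm
  thick : Real.exp (-Dm) * ((v + 1 - u : ℕ) : ℝ) ≤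
    D0 * (ms mu N (cl D0 w0 u v) * Real.exp (-(Q.c0 * Real.exp Q.p))) * N

variable {Q : Prm}

theorem atom_log (H : CellIn S q r W g ga b be mu N DM Dm D0 w0 u v) {i : ι} (hi : i ∈ S)
    {a : V i} (ha : m1 (pf r mu 1 N) i a ≠ 0) :
    -(g * Real.log (q i) + Real.log 4) ≤ Real.log (q i) + Real.log (m1 (pf r mu 1 N) i a) := by
  obtain ⟨c, hc, rfl⟩ := rs_surj H.rs i a
  rw [m1_pf H.rs mu N i hc] at ha ⊢
  have h1 := H.qp i
  have h2 : (0 : ℝ) < q i := by linarith
  rcases H.atom (q i) (H.inS i hi) c with h3 | h3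
  · exact absurd h3 ha
  · have h4 := Real.log_le_log (by positivity) h3
    rw [Real.log_div (by positivity) (by positivity), Real.log_mul (by norm_num) h2.ne',
      Real.log_rpow h2] at h4
    linarith

theorem lamR_S {i : ι} (hi : i ∈ S) (a : V i) : lamR S q r mu N i a = m1 (pf r mu 1 N) i a := by
  unfold lamR; rw [if_pos hi]

theorem lamR_out {i : ι} (hi : i ∉ S) (a : V i) : lamR S q r mu N i a = uw q i a := by
  unfold lamR; rw [if_neg hi]

theorem CellIn.ref (H : CellIn S q r W g ga b be mu N DM Dm D0 w0 u v) :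
    Ref (lamR S q r mu N) (pf r (rst mu N (cl D0 w0 u v)) 1 N) := by
  have hR := H858.ref_push (r := r) H.law H.m0
  refine ⟨hR.prob, fun i a => ?_, fun i => ?_, fun i a h => ?_⟩
  · unfold lamR
    split_ifs
    · exact hR.w_nonneg i a
    · exact H.rs.wt.nonneg i a
  · by_cases hi : i ∈ S
    · simp only [lamR_S hi]
      exact hR.w_sum i
    · simp only [lamR_out hi]
      exact H.rs.wt.sum i
  · by_cases hi : i ∈ S
    · rw [lamR_S hi] at h
      exact hR.ac i a h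
    · rw [lamR_out hi] at h
      have h1 : (0 : ℝ) < uw q i a := by
        unfold uw
        have := H.qp i
        have h2 : (0 : ℝ) < q i := by linarith
        positivity
      exact absurd h h1.ne'

/-- the logarithm of the reference against uniform -/
theorem lamR_log (H : CellIn S q r W g ga b be mu N DM Dm D0 w0 u v)
    (K : CellNum Q S q g ga b be mu N DM Dm D0 w0 u v) {i : ι} {a : V i}
    (ha : lamR S q r mu N i a ≠ 0) :
    be * Real.log (q i) + (if i ∈ S then (q i : ℝ) ^ (-ga) else 0) -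
      (Real.log (q i) + Real.log (lamR S q r mu N i a)) ≤ Q.γ * Real.log (q i) := by
  have h1 := H.qp i
  have h2 : (0 : ℝ) < q i := by linarith
  have h3 : 0 ≤ Real.log (q i) := Real.log_nonneg (by linarith)
  by_cases hi : i ∈ S
  · rw [lamR_S hi] at ha ⊢
    rw [if_pos hi]
    have h4 := atom_log H hi ha
    have h5 := K.γ1 i hi
    linarith
  · rw [lamR_out hi, if_neg hi]
    unfold uw
    rw [one_div, Real.log_inv]
    have h5 := mul_le_mul_of_nonneg_right K.beγ h3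
    linarith

/-- the total cost -/
theorem CellIn.cost (H : CellIn S q r W g ga b be mu N DM Dm D0 w0 u v)
    (K : CellNum Q S q g ga b be mu N DM Dm D0 w0 u v) {A : Finset ι} {x : ∀ i, V i}
    (hx : ∀ i ∈ A, lamR S q r mu N i (x i) ≠ 0) :
    cstP W ga be N ((v + 1 - u : ℕ) : ℝ) (D0 * ∏ i ∈ A, q i) -
      Real.log (D0 * ms mu N (cl D0 w0 u v) * N / ((v + 1 - u : ℕ) : ℝ)) -
      ∑ i ∈ A, (Real.log (q i) + Real.log (lamR S q r mu N i (x i))) ≤
      costP Q (fun i => Real.log (q i)) A := by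
  have h1 := H.cst A
  have h2 : ∑ i ∈ A, (be * Real.log (q i) + (if i ∈ S then (q i : ℝ) ^ (-ga) else 0) -
      (Real.log (q i) + Real.log (lamR S q r mu N i (x i)))) ≤
      ∑ i ∈ A, Q.γ * Real.log (q i) :=
    Finset.sum_le_sum fun i hi => lamR_log H K (hx i hi)
  rw [Finset.sum_sub_distrib, ← Finset.mul_sum] at h2
  have h3 := K.a0
  unfold costP len
  linarith

/-- sizes: the moduli of the pins -/
theorem CellIn.size (H : CellIn S q r W g ga b be mu N DM Dm D0 w0 u v)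
    (K : CellNum Q S q g ga b be mu N DM Dm D0 w0 u v) {A : Finset ι}
    (hA : len (fun i => Real.log (q i)) A ≤ Q.Λ) : (D0 : ℝ) * ∏ i ∈ A, (q i : ℝ) ≤ DM := by
  refine le_trans ?_ K.hDM
  refine mul_le_mul_of_nonneg_left ?_ (Nat.cast_nonneg _)
  have hP : (0 : ℝ) < ∏ i ∈ A, (q i : ℝ) := Finset.prod_pos fun i _ => by
    have := H.qp i; linarith
  rw [← Real.exp_log hP]
  refine Real.exp_le_exp.2 ?_
  rw [Real.log_prod]
  · exact hA
  · intro i _
    have := H.qp i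
    exact (by linarith : (0 : ℝ) < q i).ne'

/-- the density of the pins -/
theorem CellIn.gdw_log (H : CellIn S q r W g ga b be mu N DM Dm D0 w0 u v) {A : Finset ι}
    {x : ∀ i, V i} (hx : 0 < marg (pf r (rst mu N (cl D0 w0 u v)) 1 N) A x) :
    (∀ i ∈ A, lamR S q r mu N i (x i) ≠ 0) ∧
      Real.log (gdw (lamR S q r mu N) (pf r (rst mu N (cl D0 w0 u v)) 1 N) A x) =
        Real.log (marg (pf r (rst mu N (cl D0 w0 u v)) 1 N) A x) -
          ∑ i ∈ A, Real.log (lamR S q r mu N i (x i)) := by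
  have hR := H.ref
  have h1 := H779.Ab.prod_w_pos_of_marg hR.prob hR.w_nonneg hR.ac hx
  have h2 : ∀ i ∈ A, lamR S q r mu N i (x i) ≠ 0 := fun i hi h0 => by
    rw [Finset.prod_eq_zero hi h0] at h1
    exact lt_irrefl _ h1
  refine ⟨h2, ?_⟩
  unfold gdw
  rw [Real.log_div hx.ne' h1.ne', Real.log_prod]
  exact h2

theorem CellIn.eic (H : CellIn S q r W g ga b be mu N DM Dm D0 w0 u v)
    (K : CellNum Q S q g ga b be mu N DM Dm D0 w0 u v) :
    H104.EIc (lamR S q r mu N) (pf r (rst mu N (cl D0 w0 u v)) 1 N)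
      (fun A => len (fun i => Real.log (q i)) A ≤ Q.Λ) (lamP Q S fun i => Real.log (q i))
      (costP Q fun i => Real.log (q i)) (Real.exp (-(Q.c0 * Real.exp Q.p))) := by
  intro A hA x hx f hf hf' hce
  have hδ := Real.exp_pos (-(Q.c0 * Real.exp Q.p))
  have hx0 : 0 < marg (pf r (rst mu N (cl D0 w0 u v)) 1 N) A x := lt_of_lt_of_le hδ hx
  have hD : (0 : ℝ) < D0 := by exact_mod_cast H.D1
  have hN := H.Np
  have hP1 : (1 : ℝ) ≤ ∏ i ∈ A, (q i : ℝ) := by
    have h1 : ∏ i ∈ A, (1 : ℝ) ≤ ∏ i ∈ A, (q i : ℝ) :=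
      Finset.prod_le_prod (fun _ _ => zero_le_one) fun i _ => by
        have := H.qp i; linarith
    simpa using h1
  have hHyp := H.hyp (Q := Q) K.gγ
  have h := ei_core hHyp A (H.size K hA) x hx0 (by
    refine K.thick.trans (mul_le_mul_of_nonneg_right ?_ hN.le)
    have h1 : ms mu N (cl D0 w0 u v) * Real.exp (-(Q.c0 * Real.exp Q.p)) ≤
        ms mu N (cl D0 w0 u v) * marg (pf r (rst mu N (cl D0 w0 u v)) 1 N) A x :=
      mul_le_mul_of_nonneg_left hx H.m0.le
    refine mul_le_mul ?_ h1 (mul_pos H.m0 hδ).le (by positivity)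
    nlinarith) f hf (fun y => (hf' y).trans (by
      rw [one_div, ← Real.exp_neg, neg_neg]
      exact Real.exp_le_exp.2 K.hDm)) hce
  rw [hHyp.toT.logs hx0] at h
  obtain ⟨hw, hgd⟩ := H.gdw_log hx0
  have hc := H.cost K hw
  rw [Finset.sum_add_distrib] at hc
  have hsum : ∑ i ∈ univ \ A, lamP Q S (fun i => Real.log (q i)) i *
      ∑ b, lamR S q r mu N i b * phi (H482.mi (pf r (rst mu N (cl D0 w0 u v)) 1 N) A f i x b /
        lamR S q r mu N i b) =
      ∑ i ∈ univ \ A, lamP Q S (fun i => Real.log (q i)) i * ∑ b, m1 (pf r mu 1 N) i b *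
        phi (H482.mi (pf r (rst mu N (cl D0 w0 u v)) 1 N) A f i x b / m1 (pf r mu 1 N) i b) := by
    refine Finset.sum_congr rfl fun i _ => ?_
    by_cases hi : i ∈ S
    · simp only [lamR_S hi]
    · unfold lamP
      rw [if_neg hi, zero_mul, zero_mul]
  rw [hsum, hgd]
  linarith

theorem CellIn.supL (H : CellIn S q r W g ga b be mu N DM Dm D0 w0 u v)
    (K : CellNum Q S q g ga b be mu N DM Dm D0 w0 u v) {A : Finset ι}
    (hA : len (fun i => Real.log (q i)) A ≤ Q.Λ) (hDm0 : 0 ≤ Dm)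
    (hga : 0 ≤ Real.log N - Real.log ((v + 1 - u : ℕ) : ℝ)) (x : ∀ i, V i) :
    marg (pf r (rst mu N (cl D0 w0 u v)) 1 N) A x ≤
      Real.exp (costP Q (fun i => Real.log (q i)) A) * lw (lamR S q r mu N) A x := by
  have hR := H.ref
  rcases (H779.marg_nonneg hR.prob A x).eq_or_lt with h0 | hx0
  · rw [← h0]
    exact mul_nonneg (Real.exp_pos _).le (Finset.prod_nonneg fun i _ => hR.w_nonneg i _)
  obtain ⟨hw, hgd⟩ := H.gdw_log hx0
  have hc := H.cost K hw
  rw [Finset.sum_add_distrib] at hc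
  have hlw : 0 < lw (lamR S q r mu N) A x :=
    H779.Ab.prod_w_pos_of_marg hR.prob hR.w_nonneg hR.ac hx0
  have hgdw : gdw (lamR S q r mu N) (pf r (rst mu N (cl D0 w0 u v)) 1 N) A x =
      marg (pf r (rst mu N (cl D0 w0 u v)) 1 N) A x / lw (lamR S q r mu N) A x := rfl
  rw [← div_le_iff₀ hlw, ← hgdw]
  have hg0 : 0 < gdw (lamR S q r mu N) (pf r (rst mu N (cl D0 w0 u v)) 1 N) A x := by
    rw [hgdw]; positivity
  rw [← Real.log_le_iff_le_exp hg0, hgd]
  have hHyp := H.hyp (Q := Q) K.gγ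
  have hlg := hHyp.toT.logs (Q := A) hx0
  have hcst0 : 0 ≤ cstP W ga be N ((v + 1 - u : ℕ) : ℝ) (D0 * ∏ i ∈ A, q i) := by
    unfold cstP
    have h1 : 0 ≤ Real.log ((D0 * ∏ i ∈ A, q i : ℕ) : ℝ) := Real.log_natCast_nonneg _
    have h2 : 0 ≤ ∑ p ∈ W with p ∣ D0 * ∏ i ∈ A, q i, (p : ℝ) ^ (-ga) :=
      Finset.sum_nonneg fun p _ => by positivity
    have h3 := mul_nonneg H.be0 (by linarith : 0 ≤ Real.log ((D0 * ∏ i ∈ A, q i : ℕ) : ℝ) +
      (Real.log N - Real.log ((v + 1 - u : ℕ) : ℝ)) + 1)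
    linarith
  by_cases hth : Real.exp (-Dm) * ((v + 1 - u : ℕ) : ℝ) ≤ D0 * (∏ i ∈ A, (q i : ℝ)) *
      (ms mu N (cl D0 w0 u v) * marg (pf r (rst mu N (cl D0 w0 u v)) 1 N) A x) * N
  · have h := ei_core hHyp A (H.size K hA) x hx0 hth (fun _ => 1) (fun _ => zero_le_one)
      (fun _ => Real.one_le_exp hDm0) (H482.ce_one hx0)
    have h5 : ce (pf r (rst mu N (cl D0 w0 u v)) 1 N) A (fun _ => (1 : ℝ) * Real.log 1) x =
        0 := by
      unfold ce
      simp
    rw [h5, hlg] at h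
    have h6 : 0 ≤ ∑ i ∈ univ \ A, lamP Q S (fun i => Real.log (q i)) i *
        ∑ b, m1 (pf r mu 1 N) i b *
        phi (H482.mi (pf r (rst mu N (cl D0 w0 u v)) 1 N) A (fun _ => 1) i x b /
          m1 (pf r mu 1 N) i b) :=
      Finset.sum_nonneg fun i _ => mul_nonneg (hHyp.lam0 i)
        (H104.Dphi_nonneg (H858.ref_push (r := r) H.law H.m0) A (fun _ => zero_le_one) i x)
    linarith
  · rw [not_le] at hth
    have h1 : Real.log (D0 * (∏ i ∈ A, (q i : ℝ)) *
        (ms mu N (cl D0 w0 u v) * marg (pf r (rst mu N (cl D0 w0 u v)) 1 N) A x) * N /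
          ((v + 1 - u : ℕ) : ℝ)) ≤ 0 := by
      have hD : (0 : ℝ) < D0 := by exact_mod_cast H.D1
      have hN := H.Np
      have hP : (0 : ℝ) < ∏ i ∈ A, (q i : ℝ) := Finset.prod_pos fun i _ => by
        have := H.qp i; linarith
      have hm := H.m0
      refine Real.log_nonpos (by positivity) ?_
      rw [div_le_one H.Vp]
      refine hth.le.trans ?_
      have h2 : Real.exp (-Dm) ≤ 1 := Real.exp_le_one_iff.2 (by linarith)
      have h3 := H.Vp
      nlinarith
    rw [hlg] at h1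
    linarith

theorem CellIn.upL (H : CellIn S q r W g ga b be mu N DM Dm D0 w0 u v)
    (K : CellNum Q S q g ga b be mu N DM Dm D0 w0 u v) (i : ι) (a : V i) :
    lamR S q r mu N i a ≤ Real.exp (Q.γ * Real.log (q i)) * uw q i a := by
  have h1 := H.qp i
  have h2 : (0 : ℝ) < q i := by linarith
  have h3 : 0 ≤ Real.log (q i) := Real.log_nonneg (by linarith)
  by_cases hi : i ∈ S
  · rw [lamR_S hi]
    obtain ⟨c, hc, rfl⟩ := rs_surj H.rs i a
    rw [m1_pf H.rs mu N i hc]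
    have h4 := H.sup (q i) (H.inS i hi) c
    have h5 : (q i : ℝ) ^ b ≤ Real.exp (Q.γ * Real.log (q i)) := by
      rw [Real.rpow_def_of_pos h2]
      refine Real.exp_le_exp.2 ?_
      have := mul_le_mul_of_nonneg_right K.bγ h3
      linarith
    unfold uw
    rw [mul_one_div, le_div_iff₀ h2]
    linarith
  · rw [lamR_out hi]
    have h4 : 0 ≤ uw (V := V) q i a := H.rs.wt.nonneg i a
    have h5 : 1 ≤ Real.exp (Q.γ * Real.log (q i)) := by
      refine Real.one_le_exp (mul_nonneg ?_ h3)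
      exact H.be0.trans K.beγ
    nlinarith

theorem CellIn.loL (H : CellIn S q r W g ga b be mu N DM Dm D0 w0 u v)
    (K : CellNum Q S q g ga b be mu N DM Dm D0 w0 u v) (i : ι) (a : V i) :
    lamR S q r mu N i a = 0 ∨
      Real.exp (-(Q.γ * Real.log (q i))) * uw q i a ≤ lamR S q r mu N i a := by
  have h1 := H.qp i
  have h2 : (0 : ℝ) < q i := by linarith
  have h3 : 0 ≤ Real.log (q i) := Real.log_nonneg (by linarith)
  by_cases h0 : lamR S q r mu N i a = 0
  · exact Or.inl h0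
  · right
    by_cases hi : i ∈ S
    · rw [lamR_S hi] at h0 ⊢
      have h4 := atom_log H hi h0
      have h5 := K.γ1 i hi
      have h6 : 0 ≤ be * Real.log (q i) := mul_nonneg H.be0 h3
      have h7 : 0 ≤ (q i : ℝ) ^ (-ga) := by positivity
      have hpos : 0 < m1 (pf r mu 1 N) i a :=
        lt_of_le_of_ne ((H858.ref_push (r := r) H.law H.m0).w_nonneg i a) (Ne.symm h0)
      unfold uw
      rw [mul_one_div, div_le_iff₀ h2, ← Real.exp_log (mul_pos hpos h2)]
      refine Real.exp_le_exp.2 ?_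
      rw [Real.log_mul hpos.ne' h2.ne']
      linarith
    · rw [lamR_out hi]
      have h4 : 0 ≤ uw (V := V) q i a := H.rs.wt.nonneg i a
      have h5 : Real.exp (-(Q.γ * Real.log (q i))) ≤ 1 := by
        refine Real.exp_le_one_iff.2 ?_
        have := mul_nonneg (H.be0.trans K.beγ) h3
        linarith
      nlinarith

theorem uw_exp (H : Rs q r) (i : ι) (a : V i) : uw q i a = Real.exp (-Real.log (q i)) := by
  have h1 : (0 : ℝ) < q i := by exact_mod_cast H.pos i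
  unfold uw
  rw [Real.exp_neg, Real.exp_log h1, one_div]

/-- **`H92.PLaw` for the image of a cell of the state** -/
theorem plaw_of_cell (H : CellIn S q r W g ga b be mu N DM Dm D0 w0 u v)
    (K : CellNum Q S q g ga b be mu N DM Dm D0 w0 u v) (hDm0 : 0 ≤ Dm)
    (hNV : 0 ≤ Real.log N - Real.log ((v + 1 - u : ℕ) : ℝ)) {es : ι → ℝ}
    (hmei : ∀ m n : ℕ, 1 ≤ m → (m : ℝ) ≤ Real.exp (2 * Q.d1 * Q.p) → 1 ≤ n →
      n * Real.log 2 ≤ Q.C1 * Q.p + 1 →
      H742.MEIK (H92.tF Q S es m n) (1 / (704 * H92.LF m n)) (1 / H92.LF m n)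
        (Real.exp (6 * H92.LF m n)) (pf r (rst mu N (cl D0 w0 u v)) 1 N))
    (hdc : H92.DCl S (uw q) (pf r (rst mu N (cl D0 w0 u v)) 1 N) (fun i => Real.log (q i)) Q.Λ
      (Q.cD * Real.exp Q.p))
    (hlev : ∀ x : ℝ, Q.p / 2 ≤ x →
      ∑ i ∈ S with x ≤ es i ∧ es i ≤ x + 1, H565.rho (lamR S q r mu N) (uw q) i ≤
        Real.exp ((1 + Q.γ) * Q.p)) :
    H92.PLaw Q S (fun i => Real.log (q i)) es (lamR S q r mu N) (uw q)
      (pf r (rst mu N (cl D0 w0 u v)) 1 N) where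
  ref := H.ref
  usum := H.rs.wt.sum
  u1 := fun i a => uw_exp H.rs i a
  up := H.upL K
  lo := H.loL K
  out := fun i hi => funext fun a => lamR_out hi a
  sup := fun A hA x => H.supL K hA hDm0 hNV x
  eic := H.eic K
  mei := hmei
  dc := hdc
  lev1 := hlev

end

end Vale.Agent.P042.H945
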