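import Vale.Agent.P042.H945.PLawA
import Vale.Agent.P042.H540.Lev1P
import Vale.Agent.P042.H103.MeiF
import Vale.Agent.P042.H438.DCl
set_option autoImplicit false
set_option linter.unusedSectionVars false

/-!
P042, power regime, law side, part 2: `H92.PLaw` for the image of a window cell of the state
`H362.StF1`.
-/

namespace Vale.Agent.P042.H945

open Finset Polynomial
open Vale.Agent.P042.H599 (cm Law bwt FamOk)
open Vale.Agent.P042.H779 (marg m1 phi)
open Vale.Agent.P042.H779.Ab.Ll (len)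
open Vale.Agent.P042.H858 (pf MFe)
open Vale.Agent.P042.H438 (Rs uw)
open Vale.Agent.P042.H92 (Prm PLaw LF DCl)
open Vale.Agent.P042.H362 (FP StF1 AtF QL costF)

section

variable {ι : Type*} [Fintype ι] [DecidableEq ι] {V : ι → Type*} [∀ i, Fintype (V i)]
  [∀ i, DecidableEq (V i)] {q : ι → ℕ} {r : ∀ i, ℕ → V i}

/-- a window cell of a law: the sites, the modulus, the window -/
structure WCell (S : Finset ι) (q : ι → ℕ) (r : ∀ i, ℕ → V i) (W : Finset ℕ) (mu : ℕ → ℝ)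
    (M : ℕ) (D0 w0 u v : ℕ) : Prop where
  rs : Rs q r
  prime : ∀ p ∈ W, p.Prime
  inS : ∀ i ∈ S, q i ∈ W
  outS : ∀ i, i ∉ S → ∀ p ∈ W, ¬ p ∣ q i
  cop : ∀ i, (q i).Coprime D0
  copW : ∀ p ∈ W, ¬ p ∣ D0
  D1 : 1 ≤ D0
  w : w0 < D0
  u1 : 1 ≤ u
  vM : v ≤ M
  big : (M : ℝ) ≤ 100 * ((v + 1 - u : ℕ) : ℝ)
  dens : ((v + 1 - u : ℕ) : ℝ) / 2 ≤ D0 * ms mu M (cl D0 w0 u v) * M

/-- the numbers of the law side at one state -/
structure WNum (Q : Prm) (W : Finset ℕ) (qp : FP) (D0 M : ℕ) (Dm Lq : ℝ) : Prop where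
  γ1 : ∀ p ∈ W, qp.be * Real.log p + (p : ℝ) ^ (-qp.ga) + (qp.g * Real.log p + Real.log 4) ≤
    Q.γ * Real.log p
  gγ : qp.g ≤ Q.γ
  bγ : qp.b ≤ Q.γ
  beγ : qp.be ≤ Q.γ
  be0 : 0 ≤ qp.be
  b0 : 0 ≤ qp.b
  a0 : qp.be * (Real.log D0 + Real.log 100 + 1) + Real.log 2 ≤ Q.a0
  hDM : Real.log D0 + Q.Λ ≤ Lq
  hDm : Q.c0 * Real.exp Q.p + Real.log 2 ≤ Dm
  Dm100 : Real.log 100 ≤ Dm
  C1 : 1 ≤ Q.C1
  top : ∀ p ∈ W, (p : ℝ) ≤ Real.exp Q.p ^ Q.C1
  kp0 : 0 ≤ qp.kp
  DmP : Dm ≤ qp.kp / 64 * Real.exp Q.p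
  logM : Real.exp Q.p / 2 ≤ Real.log M
  p8 : 8 ≤ Q.p
  p16 : 16 * Q.C1 * Q.p ≤ Real.exp Q.p
  γ2 : Q.C1 * qp.b + 1056 * Q.C1 * (qp.kp / 64) ≤ Q.γ
  cD : Real.log 1600 + 32 * Dm ≤ Q.cD * Real.exp Q.p
  lenN : Real.log 200 + Real.log D0 + 4 * Q.Λ ≤ Real.log M
  D0s : Real.log D0 ≤ Dm
  Λ0 : 0 ≤ Q.Λ

variable {S : Finset ι} {W : Finset ℕ} {mu : ℕ → ℝ} {M D0 w0 u v : ℕ} {κ' : Type} {qp : FP}
  {fm : Vale.Agent.P042.H599.Fam κ'} {f : ℤ[X]} {Dm Lq : ℝ} {Q : Prm}

theorem WCell.Mp (_ : WCell S q r W mu M D0 w0 u v) (hl : Law mu 1 M) : (0 : ℝ) < M := by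
  exact_mod_cast hl.pos

theorem WCell.Vp (C : WCell S q r W mu M D0 w0 u v) (hl : Law mu 1 M) :
    (0 : ℝ) < ((v + 1 - u : ℕ) : ℝ) := by
  have h1 := C.Mp hl
  have h2 := C.big
  linarith

theorem WCell.D0p (C : WCell S q r W mu M D0 w0 u v) : (0 : ℝ) < D0 := by
  exact_mod_cast C.D1

theorem WCell.m0 (C : WCell S q r W mu M D0 w0 u v) (hl : Law mu 1 M) :
    0 < ms mu M (cl D0 w0 u v) := by
  have h1 := C.Mp hl
  have h2 := C.Vp hl
  have h3 := C.D0p
  have h4 := C.dens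
  by_contra hcon
  rw [not_lt] at hcon
  have h5 : (D0 : ℝ) * ms mu M (cl D0 w0 u v) * M ≤ 0 :=
    mul_nonpos_of_nonpos_of_nonneg (mul_nonpos_of_nonneg_of_nonpos h3.le hcon) h1.le
  linarith

theorem WCell.logV (C : WCell S q r W mu M D0 w0 u v) (hl : Law mu 1 M) :
    Real.log M - Real.log ((v + 1 - u : ℕ) : ℝ) ≤ Real.log 100 := by
  have h1 := Real.log_le_log (C.Mp hl) C.big
  rw [Real.log_mul (by norm_num) (C.Vp hl).ne'] at h1
  linarith

theorem WCell.logV0 (C : WCell S q r W mu M D0 w0 u v) (hl : Law mu 1 M) :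
    0 ≤ Real.log M - Real.log ((v + 1 - u : ℕ) : ℝ) := by
  have h1 : ((v + 1 - u : ℕ) : ℝ) ≤ M := by
    have h2 : v + 1 - u ≤ M := by
      have := C.u1
      have := C.vM
      omega
    exact_mod_cast h2
  have := Real.log_le_log (C.Vp hl) h1
  linarith

theorem cell_of_St (st : AtF W qp f M mu Dm) (ql : QL W qp M mu Dm Lq)
    (C : WCell S q r W mu M D0 w0 u v) (K : WNum Q W qp D0 M Dm Lq) :
    CellIn S q r W qp.g qp.ga qp.b qp.be mu M (Real.exp Lq) Dm D0 w0 u v where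
  rs := C.rs
  law := st.law
  nn := st.nn
  mf := by
    intro D w y hD hDM _ hm hth hy hy0 hyK
    have hDp : (0 : ℝ) < D := by exact_mod_cast hD
    refine (ql D w u v y hD ((Real.log_le_iff_le_exp hDp).2 hDM) C.u1 C.vM ?_ hm hth hy hy0
      hyK) |>.trans' ?_
    · refine C.big.trans (mul_le_mul_of_nonneg_right ?_ (Nat.cast_nonneg _))
      rw [← Real.log_le_iff_le_exp (by norm_num)]
      exact K.Dm100
    · refine add_le_add le_rfl (le_of_eq ?_)
      refine Finset.sum_congr (Finset.filter_congr fun p hp => ?_) fun _ _ => rfl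
      exact ((C.prime p hp).coprime_iff_not_dvd).symm
  atom := st.atom
  sup := st.sup
  prime := C.prime
  inS := C.inS
  outS := C.outS
  cop := C.cop
  copW := C.copW
  D1 := C.D1
  m0 := C.m0 st.law
  Vpos := by
    have := C.Vp st.law
    exact_mod_cast this
  be0 := K.be0

theorem num_of_St (st : AtF W qp f M mu Dm) (C : WCell S q r W mu M D0 w0 u v)
    (K : WNum Q W qp D0 M Dm Lq) :
    CellNum Q S q qp.g qp.ga qp.b qp.be mu M (Real.exp Lq) Dm D0 w0 u v := by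
  have hM := C.Mp st.law
  have hV := C.Vp st.law
  have hD := C.D0p
  have hm := C.m0 st.law
  have hlV := C.logV st.law
  have hlV0 := C.logV0 st.law
  have hden : Real.log (1 / 2) ≤
      Real.log (D0 * ms mu M (cl D0 w0 u v) * M / ((v + 1 - u : ℕ) : ℝ)) := by
    refine Real.log_le_log (by norm_num) ?_
    rw [le_div_iff₀ hV]
    linarith [C.dens]
  rw [one_div, Real.log_inv] at hden
  have hlD : 0 ≤ Real.log (D0 : ℝ) := Real.log_natCast_nonneg _
  refine ⟨fun i hi => K.γ1 _ (C.inS i hi), K.gγ, K.bγ, K.beγ, ?_, ?_, ?_, ?_, ?_⟩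
  · have h1 : qp.be * (Real.log D0 + (Real.log M - Real.log ((v + 1 - u : ℕ) : ℝ)) + 1) ≤
        qp.be * (Real.log D0 + Real.log 100 + 1) :=
      mul_le_mul_of_nonneg_left (by linarith) K.be0
    have h2 := K.a0
    linarith
  · have h1 : 0 ≤ qp.be * (Real.log D0 + Real.log 100 + 1) :=
      mul_nonneg K.be0 (by
        have : 0 ≤ Real.log (100 : ℝ) := Real.log_nonneg (by norm_num)
        linarith)
    have h2 := K.a0
    have h3 : 0 ≤ Real.log (2 : ℝ) := Real.log_nonneg (by norm_num)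
    linarith
  · rw [← Real.exp_log hD, ← Real.exp_add]
    exact Real.exp_le_exp.2 K.hDM
  · have h3 : 0 ≤ Real.log (2 : ℝ) := Real.log_nonneg (by norm_num)
    linarith [K.hDm]
  · have h1 : Real.exp (-Dm) ≤ Real.exp (-(Q.c0 * Real.exp Q.p)) / 2 := by
      have h2 : Real.exp (-(Q.c0 * Real.exp Q.p)) / 2 =
          Real.exp (-(Q.c0 * Real.exp Q.p) - Real.log 2) := by
        rw [Real.exp_sub, Real.exp_log (by norm_num)]
      rw [h2]
      exact Real.exp_le_exp.2 (by linarith [K.hDm])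
    have h3 := C.dens
    have h4 := Real.exp_pos (-(Q.c0 * Real.exp Q.p))
    calc Real.exp (-Dm) * ((v + 1 - u : ℕ) : ℝ)
        ≤ Real.exp (-(Q.c0 * Real.exp Q.p)) / 2 * ((v + 1 - u : ℕ) : ℝ) :=
          mul_le_mul_of_nonneg_right h1 hV.le
      _ = Real.exp (-(Q.c0 * Real.exp Q.p)) * (((v + 1 - u : ℕ) : ℝ) / 2) := by ring
      _ ≤ Real.exp (-(Q.c0 * Real.exp Q.p)) * (D0 * ms mu M (cl D0 w0 u v) * M) :=
          mul_le_mul_of_nonneg_left h3 h4.le
      _ = _ := by ring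

/-- density caps for the moments -/
theorem dc_of_St (st : AtF W qp f M mu Dm) (C : WCell S q r W mu M D0 w0 u v)
    (K : WNum Q W qp D0 M Dm Lq) :
    DCl S (uw q) (pf r (rst mu M (cl D0 w0 u v)) 1 M) (fun i => Real.log (q i)) Q.Λ
      (Q.cD * Real.exp Q.p) := by
  have hM := C.Mp st.law
  have hV := C.Vp st.law
  have hD := C.D0p
  have hm := C.m0 st.law
  have hV0 : 0 < v + 1 - u := by exact_mod_cast hV
  -- the size of the class
  have hVM : Real.log M ≤ Real.log 100 + Real.log ((v + 1 - u : ℕ) : ℝ) := by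
    linarith [C.logV st.law]
  have hΛ := K.lenN
  have h200 : Real.log (200 : ℝ) = Real.log 2 + Real.log 100 := by
    rw [← Real.log_mul (by norm_num) (by norm_num)]
    norm_num
  have hNlow : 2 * Real.exp Q.Λ ^ 4 ≤ ((v + 1 - u : ℕ) : ℝ) / D0 := by
    rw [← Real.exp_nat_mul, le_div_iff₀ hD]
    have h1 : 2 * Real.exp (((4 : ℕ) : ℝ) * Q.Λ) * D0 =
        Real.exp (Real.log 2 + 4 * Q.Λ + Real.log D0) := by
      rw [Real.exp_add, Real.exp_add, Real.exp_log (by norm_num), Real.exp_log hD]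
      norm_num
    rw [h1, ← Real.le_log_iff_exp_le hV]
    linarith
  -- the class and its elements
  intro A U _ hAU b T hT hTd e k hk hE
  have hsupp : ∀ i < M, rst mu M (cl D0 w0 u v) (1 + i) ≠ 0 →
      ∃ j < (v + 1 - u) / D0 + 1, 1 + i = (u + (D0 + w0 - u % D0) % D0) + D0 * j := by
    intro i _ hne
    have hcl : cl D0 w0 u v (1 + i) := by
      by_contra hcon
      unfold rst at hne
      rw [if_neg hcon] at hne
      exact hne rfl
    obtain ⟨h1, h2, h3⟩ := hcl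
    have hD1 := C.D1
    have hlt : (D0 + w0 - u % D0) % D0 < D0 := Nat.mod_lt _ (by omega)
    have hum : u % D0 < D0 := Nat.mod_lt _ (by omega)
    -- the difference is a multiple of D0
    obtain ⟨s, hs⟩ : ∃ s, s = (D0 + w0 - u % D0) % D0 := ⟨_, rfl⟩
    have hmod : (u + s) % D0 = w0 := by
      rw [hs, Nat.add_mod, Nat.mod_mod, ← Nat.add_mod]
      have h4 : u + (D0 + w0 - u % D0) = w0 + D0 * (u / D0 + 1) := by
        have h5 := Nat.div_add_mod u D0
        have h6 : D0 * (u / D0 + 1) = D0 * (u / D0) + D0 := by ring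
        omega
      rw [h4, Nat.add_mul_mod_self_left, Nat.mod_eq_of_lt C.w]
    have hge : u + s ≤ 1 + i := by
      by_contra hcon
      rw [not_le] at hcon
      have h7 : (1 + i) ≡ u + s [MOD D0] := by
        unfold Nat.ModEq
        rw [h3, hmod]
      have h8 : D0 ∣ (u + s) - (1 + i) := (Nat.modEq_iff_dvd' hcon.le).1 h7
      have h9 : (u + s) - (1 + i) < D0 := by rw [hs]; omega
      have h10 := Nat.eq_zero_of_dvd_of_lt h8 h9
      omega
    have h7 : u + s ≡ (1 + i) [MOD D0] := by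
      unfold Nat.ModEq
      rw [h3, hmod]
    obtain ⟨j, hj⟩ := (Nat.modEq_iff_dvd' hge).1 h7
    refine ⟨j, ?_, ?_⟩
    · have h8 : D0 * j ≤ v + 1 - u := by omega
      have h9 : j ≤ (v + 1 - u) / D0 := by
        rw [Nat.le_div_iff_mul_le (by omega)]
        linarith [mul_comm D0 j]
      omega
    · rw [← hs]
      omega
  have hκ0 : (0 : ℝ) ≤ 4 * Real.exp (32 * Dm) * D0 / ((v + 1 - u : ℕ) : ℝ) := by positivity
  have hcap : ∀ i < M, rst mu M (cl D0 w0 u v) (1 + i) ≤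
      4 * Real.exp (32 * Dm) * D0 / ((v + 1 - u : ℕ) : ℝ) := by
    intro i _
    unfold rst
    split_ifs with h
    · have h1 := st.cap (1 + i)
      change mu (1 + i) / ms mu M (cl D0 w0 u v) ≤ _
      rw [div_le_div_iff₀ hm hV]
      have h2 : mu (1 + i) ≤ 2 * Real.exp (32 * Dm) / M := by
        rw [le_div_iff₀ hM]; linarith
      have h3 : ((v + 1 - u : ℕ) : ℝ) ≤ 2 * (D0 * ms mu M (cl D0 w0 u v) * M) := by
        linarith [C.dens]
      calc mu (1 + i) * ((v + 1 - u : ℕ) : ℝ)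
          ≤ 2 * Real.exp (32 * Dm) / M * (2 * (D0 * ms mu M (cl D0 w0 u v) * M)) :=
            mul_le_mul h2 h3 hV.le (by positivity)
        _ = 4 * Real.exp (32 * Dm) * D0 * ms mu M (cl D0 w0 u v) := by
            field_simp
            ring
    · exact hκ0
  have hfl : (((v + 1 - u) / D0 : ℕ) : ℝ) ≤ ((v + 1 - u : ℕ) : ℝ) / D0 := Nat.cast_div_le
  have hN : 2 * Real.exp Q.Λ ^ 4 ≤ (((v + 1 - u) / D0 + 1 : ℕ) : ℝ) := by
    refine hNlow.trans ?_
    have h1 := Nat.lt_floor_add_one (((v + 1 - u : ℕ) : ℝ) / D0)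
    rw [Nat.floor_div_natCast, Nat.floor_natCast] at h1
    push_cast
    exact h1.le
  have h1V : 1 ≤ ((v + 1 - u : ℕ) : ℝ) / D0 := by
    refine le_trans ?_ hNlow
    have h1 : 1 ≤ Real.exp Q.Λ ^ 4 := one_le_pow₀ (Real.one_le_exp K.Λ0)
    linarith
  have hDD : 2 * (4 * Real.exp (32 * Dm) * D0 / ((v + 1 - u : ℕ) : ℝ)) *
      (((v + 1 - u) / D0 + 1 : ℕ) : ℝ) ≤ Real.exp (Q.cD * Real.exp Q.p) := by
    have h1 : (((v + 1 - u) / D0 + 1 : ℕ) : ℝ) ≤ 2 * (((v + 1 - u : ℕ) : ℝ) / D0) := by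
      push_cast at hfl ⊢
      linarith
    calc 2 * (4 * Real.exp (32 * Dm) * D0 / ((v + 1 - u : ℕ) : ℝ)) *
        (((v + 1 - u) / D0 + 1 : ℕ) : ℝ)
        ≤ 2 * (4 * Real.exp (32 * Dm) * D0 / ((v + 1 - u : ℕ) : ℝ)) *
          (2 * (((v + 1 - u : ℕ) : ℝ) / D0)) := mul_le_mul_of_nonneg_left h1 (by positivity)
      _ = 16 * Real.exp (32 * Dm) := by field_simp; ring
      _ = Real.exp (Real.log 16 + 32 * Dm) := by
          rw [Real.exp_add, Real.exp_log (by norm_num)]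
      _ ≤ Real.exp (Q.cD * Real.exp Q.p) := by
          refine Real.exp_le_exp.2 ?_
          have h2 : Real.log (16 : ℝ) ≤ Real.log 1600 :=
            Real.log_le_log (by norm_num) (by norm_num)
          linarith [K.cD]
  refine H438.dcl0 C.rs (by have := C.D1; omega) hκ0 (fun i => (C.cop i).symm) hsupp hcap
    (fun i => rfl) hN hDD hAU b (fun E x y h => hT E fun i hi => h i (by exact_mod_cast hi))
    (Or.inl hk) fun E h1 h2 => ?_
  refine le_trans ?_ (hE E h1 h2)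
  have h3 : 0 ≤ k * len (fun i => Real.log (q i)) E :=
    mul_nonneg (Nat.cast_nonneg _) (sum_nonneg fun i _ => Real.log_natCast_nonneg _)
  linarith

/-- **`H92.PLaw` from the state at a window cell**; `hfam` : the families of the state -/
theorem plaw_St (st : StF1 W qp fm f M mu Dm Lq) {Mm : ℕ} (hf : FamOk fm Mm)
    (C : WCell S q r W mu M D0 w0 u v) (K : WNum Q W qp D0 M Dm Lq) (es : ι → ℝ)
    (hfam : ∀ m n : ℕ, 1 ≤ m → (m : ℝ) ≤ Real.exp (2 * Q.d1 * Q.p) → 1 ≤ n →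
      n * Real.log 2 ≤ Q.C1 * Q.p + 1 → (∃ i ∈ S, es i ≤ n * Real.log 2) →
      ∃ k ∈ fm.F, (∀ p ∈ fm.W k, p.Coprime D0 ∧ ∃ i, q i = p) ∧
        10 ≤ LF m n ∧ 40000 * LF m n ^ 2 ≤ fm.ω k * fm.K k ∧
        72 * Q.a0 * LF m n ^ 2 ≤ fm.ω k * fm.K k ∧ 6 * LF m n ≤ Dm ∧
        (∃ q0, ∑ R ∈ (fm.W k).powerset with ¬ ∏ p ∈ R, p ≤ fm.B k, bwt (fm.t k) (fm.W k) R ≤ q0 ∧
          1408 * q0 * LF m n ≤ 1) ∧
        ∀ i ∈ S, es i ≤ n * Real.log 2 → q i ∈ fm.W k ∧
          H365.rate ((1 - Q.G) * Q.p) (es i) / ((m : ℝ) * n) ^ Q.CK ≤ fm.t k (q i)) :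
    PLaw Q S (fun i => Real.log (q i)) es (lamR S q r mu M) (uw q)
      (pf r (rst mu M (cl D0 w0 u v)) 1 M) := by
  have hat := st.toAtF
  have hM := C.Mp st.law
  have hV := C.Vp st.law
  have hm := C.m0 st.law
  have hcell := cell_of_St hat st.ql C K
  have hnum := num_of_St hat C K
  have hDm0 : 0 ≤ Dm := by
    have : 0 ≤ Real.log (100 : ℝ) := Real.log_nonneg (by norm_num)
    linarith [K.Dm100]
  have hl2 : Real.log (2 : ℝ) ≤ Real.log 100 := Real.log_le_log (by norm_num) (by norm_num)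
  have h100 : 1 ≤ Real.log (100 : ℝ) := by
    rw [Real.le_log_iff_exp_le (by norm_num)]
    have := Real.exp_one_lt_d9
    linarith
  refine plaw_of_cell hcell hnum hDm0 (C.logV0 st.law) ?_ (dc_of_St hat C K) ?_
  · refine H103.mei_StF st hf (fun p hp => (C.prime p hp).pos) K.be0 C.rs.pos C.rs.cop ?_
      C.rs.r_iff C.D1 K.D0s C.u1 C.vM ?_ C.cop (a0 := Real.log 2) (a1 := Q.a0)
      (Real.log_nonneg (by norm_num)) (hl2.trans K.Dm100) ?_ ?_ Q S es hfam
    · intro i j hij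
      by_contra hne
      have h1 : (q i).Coprime (q j) := C.rs.cop hne
      rw [← hij, Nat.coprime_self] at h1
      have := C.rs.two i
      omega
    · refine C.big.trans (mul_le_mul_of_nonneg_right ?_ (Nat.cast_nonneg _))
      rw [← Real.log_le_iff_le_exp (by norm_num)]
      exact K.Dm100
    · have h1 : H103.coF W qp M D0 u v ≤ qp.be * (Real.log D0 + Real.log 100 + 1) := by
        unfold H103.coF costF
        have h2 : ∑ p ∈ W with p ∣ D0, (p : ℝ) ^ (-qp.ga) = 0 := by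
          rw [Finset.filter_false_of_mem fun p hp => C.copW p hp, Finset.sum_empty]
        rw [h2, add_zero]
        exact mul_le_mul_of_nonneg_left (by linarith [C.logV st.law]) K.be0
      linarith [K.a0]
    · rw [Real.exp_neg, Real.exp_log (by norm_num)]
      linarith [C.dens]
  · refine H540.hlev_of es hcell (P := Real.exp Q.p) (κ := qp.kp / 64) (by rw [Real.log_exp])
      st.cap K.C1 K.b0 (fun i hi => K.top _ (C.inS i hi)) (h100.trans K.Dm100) K.DmP K.logM ?_ ?_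
      K.γ2
    · rw [Real.log_exp]; exact K.p8
    · rw [Real.log_exp]; exact K.p16

end

end Vale.Agent.P042.H945
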