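import Vale.Agent.P042.H945.State10
import Vale.Agent.P042.H739.FinalS
set_option autoImplicit false

/-!
P042, target S: the predicate `StS` = list of the properties of the extremal state.

`l = log P`; the law `mu` on `{1, ..., N'}`; `G n = N' * mu n`.
-/

namespace Vale.Agent.P042.H945

open Finset Polynomial Vale.Agent.P042.H599 Vale.Agent.P042.H739

/-- the primes `p ≤ P ^ 2` -/
noncomputable def WS (P : ℝ) : Finset ℕ := (range (⌊P ^ 2⌋₊ + 1)).filter Nat.Prime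

/-- coefficient of the relative entropies -/
noncomputable def lamS : ℝ := 1 / 2500000

/-- coefficient of the missing classes -/
noncomputable def xiS : ℝ := 1 / 160000

/-- slope -/
noncomputable def etaS (κ : ℝ) (C : ℕ) (P : ℝ) : ℝ := 6 / (κ * Real.log P ^ C)

/-- **(Q)**: the cell inequality. `V = v + 1 - u`, `m` = mass of the cell. -/
def QS (k : ℕ) (κ : ℝ) (C : ℕ) (P : ℝ) (N' : ℕ) (mu : ℕ → ℝ) : Prop :=
  ∀ D w u v : ℕ, 1 ≤ D → (D : ℝ) ≤ Real.exp (P / (4 * k)) → w < D → 1 ≤ u → v ≤ N' →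
    N' ≤ 1000 * (v + 1 - u) → 0 < ms mu N' (cl D w u v) →
    Real.exp (-(P / (100 * Real.log P))) * ((v + 1 - u : ℕ) : ℝ) ≤
      D * ms mu N' (cl D w u v) * N' →
    Real.log (D * ms mu N' (cl D w u v) * N' / ((v + 1 - u : ℕ) : ℝ)) +
      lamS / Real.log P * ∑ p ∈ WS P with ¬ p ∣ D, klc (rst mu N' (cl D w u v)) mu N' p ≤
    etaS κ C P * (2 * k * Real.log D + 7)

/-- the properties of the state of target S -/
structure StS1 (k : ℕ) (κ : ℝ) (C : ℕ) (P : ℝ) (N' : ℕ) (mu : ℕ → ℝ) : Prop where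
  law : Law mu 1 N'
  out : ∀ n, mu n ≠ 0 → 1 ≤ n ∧ n ≤ N'
  cap : ∀ n, mu n ≤ Real.exp (50 * (P / Real.log P ^ C) + 1) / N'
  atom : ∀ p ∈ WS P, ∀ b < p, cm mu 1 N' p b = 0 ∨ xiS / 4 / p ≤ cm mu 1 N' p b
  Q : QS k κ C P N' mu

/-- the predicate `St` of target S (in the shape of `StTyS`) -/
def StS (k _R : ℕ) (_f : ℤ[X]) (κ : ℝ) (C : ℕ) (P : ℝ) (N' : ℕ) (G : ℤ → ℝ) : Prop :=
  2 ≤ C → ∃ mu : ℕ → ℝ, StS1 k κ C P N' mu ∧
    ∀ n : ℤ, G n = if 1 ≤ n then (N' : ℝ) * mu n.toNat else 0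

end Vale.Agent.P042.H945
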