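import Vale.Agent.P042.H945.State1
import Mathlib.Analysis.SpecialFunctions.Log.NegMulLog
set_option autoImplicit false

/-!
P042 [D], the extremal state, part 2: the functional and the existence of a maximiser.
-/

namespace Vale.Agent.P042.H945

open Finset Vale.Agent.P042.H599

open Classical in
/-- the support on `{1, ..., M}` -/
noncomputable def sp (x : ℕ → ℝ) (M : ℕ) : Finset ℕ := (Icc 1 M).filter (fun n => x n ≠ 0)

/-- the residues modulo `p` of a set -/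
def rs (S : Finset ℕ) (p : ℕ) : Finset ℕ := S.image (fun n => n % p)

/-- the parameters of the functional: `I, m, c` = the moduli and their coefficients; `W, om` = the
local support terms; `lam` = the affine modulus; `eta` the slope; `D0` the cap; `E1` the error;
`Mm` the smallest length -/
structure Par (ι : Type) where
  I : Finset ι
  m : ι → ℕ
  c : ι → ℝ
  W : Finset ℕ
  om : ℕ → ℕ → Finset ℕ → ℝ
  lam : ℕ → ℕ
  eta : ℝ
  D0 : ℝ
  E1 : ℝ
  Mm : ℕ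

/-- sum of the support terms -/
noncomputable def Om {ι : Type} (Q : Par ι) (d : ℕ) (S : Finset ℕ) : ℝ :=
  ∑ p ∈ Q.W, Q.om p d (rs S p)

/-- the hypotheses on the parameters -/
structure Ok {ι : Type} (Q : Par ι) : Prop where
  hm : ∀ i ∈ Q.I, 0 < Q.m i
  hc : ∀ i ∈ Q.I, 0 ≤ Q.c i
  hW : ∀ p ∈ Q.W, 0 < p
  om0 : ∀ p ∈ Q.W, ∀ d S, 0 ≤ Q.om p d S
  omt : ∀ p ∈ Q.W, ∀ d D b S S', 1 ≤ d → 1 ≤ D → Nat.Coprime p D →
    (∀ y ∈ S', (b + Q.lam D * y) % p ∈ S) → Q.om p d S ≤ Q.om p (d * D) S'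
  lam1 : Q.lam 1 = 1
  lamm : ∀ d D, 1 ≤ d → 1 ≤ D → Q.lam (d * D) = Q.lam d * Q.lam D
  lamd : ∀ d, 1 ≤ d → d ∣ Q.lam d
  lamc : ∀ d p, 1 ≤ d → Nat.Coprime p d → Nat.Coprime p (Q.lam d)
  lam0 : ∀ d, 1 ≤ d → 0 < Q.lam d
  eta0 : 0 < Q.eta
  eta1 : Q.eta ≤ 1
  Mm1 : 2 ≤ Q.Mm
  D00 : 0 < Q.D0
  E10 : 0 ≤ Q.E1
  HB : ∀ (d M : ℕ) (x : ℕ → ℝ), 1 ≤ d → Q.Mm ≤ M → Law x 1 M →
    (∀ i < M, x (1 + i) ≤ Real.exp (2 * Q.D0) / M) →
    ∑ i ∈ Q.I, Q.c i * klu x 1 M (Q.m i) + Om Q d (sp x M) ≤ kl0 x 1 M / 2 + Q.E1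

/-- the smooth part of the functional -/
noncomputable def g0 {ι : Type} (Q : Par ι) (M : ℕ) (x : ℕ → ℝ) : ℝ :=
  -kl0 x 1 M + ∑ i ∈ Q.I, Q.c i * klu x 1 M (Q.m i)

/-- the functional -/
noncomputable def FF {ι : Type} (Q : Par ι) (d M : ℕ) (x : ℕ → ℝ) : ℝ :=
  g0 Q M x + Om Q d (sp x M) + Q.eta * Real.log M

/-- admissible states: the progression `a + lam d * n`, `1 ≤ n ≤ M`, with a law on the set -/
structure Adm {ι : Type} (Q : Par ι) (N : ℕ) (A0 : Finset ℤ) (d : ℕ) (a : ℤ) (M : ℕ)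
    (x : ℕ → ℝ) : Prop where
  hd : 1 ≤ d
  hM : Q.Mm ≤ M
  lo : 0 < a + Q.lam d
  hi : a + Q.lam d * M ≤ N
  law : Law x 1 M
  cap : ∀ n, x n ≤ Real.exp Q.D0 / M
  supp : ∀ n, x n ≠ 0 → 1 ≤ n ∧ n ≤ M ∧ a + Q.lam d * n ∈ A0

theorem continuous_tlog {c : ℝ} (hc : 0 < c) : Continuous (fun t : ℝ => t * Real.log (c * t)) := by
  have h : (fun t : ℝ => t * Real.log (c * t)) =
      fun t : ℝ => c⁻¹ * ((fun s : ℝ => s * Real.log s) (c * t)) := by
    funext t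
    field_simp
  rw [h]
  exact continuous_const.mul (Real.continuous_mul_log.comp (continuous_const.mul continuous_id))

theorem continuous_cm (M m a : ℕ) : Continuous (fun x : ℕ → ℝ => cm x 1 M m a) := by
  unfold cm
  refine continuous_finset_sum _ fun i _ => ?_
  split_ifs
  · exact continuous_apply _
  · exact continuous_const

theorem continuous_klu (M : ℕ) {m : ℕ} (hm : 0 < m) : Continuous (fun x : ℕ → ℝ => klu x 1 M m) := by
  unfold klu
  refine continuous_finset_sum _ fun a _ => ?_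
  have h := (continuous_tlog (c := (m : ℝ)) (by exact_mod_cast hm)).comp (continuous_cm M m a)
  exact h

theorem continuous_kl0 {M : ℕ} (hM : 0 < M) : Continuous (fun x : ℕ → ℝ => kl0 x 1 M) := by
  unfold kl0
  refine continuous_finset_sum _ fun a _ => ?_
  have h := (continuous_tlog (c := (M : ℝ)) (by exact_mod_cast hM)).comp
    (continuous_apply (A := fun _ : ℕ => ℝ) (1 + a))
  exact h

theorem continuous_g0 {ι : Type} (Q : Par ι) (hQ : Ok Q) {M : ℕ} (hM : 0 < M) :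
    Continuous (g0 Q M) := by
  unfold g0
  refine (continuous_kl0 hM).neg.add (continuous_finset_sum _ fun i hi => ?_)
  exact continuous_const.mul (continuous_klu M (hQ.hm i hi))

/-- laws with support in `T` and cap `κ` -/
def KT (M : ℕ) (κ : ℝ) (T : Finset ℕ) : Set (ℕ → ℝ) :=
  {x | (∀ n, x n ∈ Set.Icc 0 (if n ∈ T then κ else 0)) ∧ SM M x = 1}

theorem isCompact_KT (M : ℕ) (κ : ℝ) (T : Finset ℕ) : IsCompact (KT M κ T) := by
  have h1 : IsCompact (Set.univ.pi (fun n : ℕ => Set.Icc (0 : ℝ) (if n ∈ T then κ else 0))) :=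
    isCompact_univ_pi fun n => isCompact_Icc
  have h2 : IsClosed {x : ℕ → ℝ | SM M x = 1} := by
    refine isClosed_eq ?_ continuous_const
    unfold SM
    exact continuous_finset_sum _ fun i _ => continuous_apply _
  have h3 : KT M κ T = Set.univ.pi (fun n : ℕ => Set.Icc (0 : ℝ) (if n ∈ T then κ else 0)) ∩
      {x : ℕ → ℝ | SM M x = 1} := by
    ext x
    simp only [KT, Set.mem_setOf_eq, Set.mem_inter_iff, Set.mem_pi, Set.mem_univ, true_implies]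
  rw [h3]
  exact h1.inter_right h2

theorem Om_anti {ι : Type} {Q : Par ι} (hQ : Ok Q) {d : ℕ} (hd : 1 ≤ d) {S S' : Finset ℕ}
    (h : S' ⊆ S) : Om Q d S ≤ Om Q d S' := by
  unfold Om
  refine Finset.sum_le_sum fun p hp => ?_
  have h1 := hQ.omt p hp d 1 0 (rs S p) (rs S' p) hd le_rfl (Nat.coprime_one_right p) (by
    intro y hy
    unfold rs at hy ⊢
    obtain ⟨n, hn, rfl⟩ := Finset.mem_image.1 hy
    rw [hQ.lam1, one_mul, zero_add, Nat.mod_mod]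
    exact Finset.mem_image.2 ⟨n, h hn, rfl⟩)
  rwa [mul_one] at h1

theorem Om_nonneg {ι : Type} {Q : Par ι} (hQ : Ok Q) (d : ℕ) (S : Finset ℕ) : 0 ≤ Om Q d S :=
  Finset.sum_nonneg fun p hp => hQ.om0 p hp d _

open Classical in
/-- a maximiser exists -/
theorem exists_max {ι : Type} {Q : Par ι} (hQ : Ok Q) (N : ℕ) (A0 : Finset ℤ)
    (hne : ∃ d a M x, Adm Q N A0 d a M x) :
    ∃ (d : ℕ) (a : ℤ) (M : ℕ) (x : ℕ → ℝ), Adm Q N A0 d a M x ∧
      ∀ d' a' M' x', Adm Q N A0 d' a' M' x' → FF Q d' M' x' ≤ FF Q d M x := by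
  classical
  -- the index set
  set J : Finset (ℕ × ℤ × ℕ × Finset ℕ) :=
    ((Icc 1 N) ×ˢ (Icc (-(N : ℤ)) N) ×ˢ (Icc 1 N) ×ˢ (Icc 1 N).powerset).filter
      (fun j => Q.Mm ≤ j.2.2.1 ∧ 0 < j.2.1 + Q.lam j.1 ∧ j.2.1 + Q.lam j.1 * j.2.2.1 ≤ N ∧
        (∀ n ∈ j.2.2.2, 1 ≤ n ∧ n ≤ j.2.2.1 ∧ j.2.1 + Q.lam j.1 * n ∈ A0) ∧
        (KT j.2.2.1 (Real.exp Q.D0 / j.2.2.1) j.2.2.2).Nonempty) with hJ
  have hcov : ∀ d a M x, Adm Q N A0 d a M x →
      (d, a, M, sp x M) ∈ J ∧ x ∈ KT M (Real.exp Q.D0 / M) (sp x M) := by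
    intro d a M x h
    have hM2 : 2 ≤ M := hQ.Mm1.trans h.hM
    have hl : (1 : ℤ) ≤ Q.lam d := by exact_mod_cast hQ.lam0 d h.hd
    have hdl : (d : ℤ) ≤ Q.lam d := by
      exact_mod_cast Nat.le_of_dvd (hQ.lam0 d h.hd) (hQ.lamd d h.hd)
    have hlo := h.lo
    have hhi := h.hi
    have hM2' : (2 : ℤ) ≤ M := by exact_mod_cast hM2
    have hlN : (Q.lam d : ℤ) ≤ N := by nlinarith
    have hMN : (M : ℤ) ≤ N := by nlinarith
    have hK : x ∈ KT M (Real.exp Q.D0 / M) (sp x M) := by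
      refine ⟨fun n => ?_, h.law.sum⟩
      by_cases h0 : x n = 0
      · rw [h0]
        refine ⟨le_rfl, ?_⟩
        split_ifs
        · positivity
        · exact le_rfl
      · obtain ⟨h1, h2, _⟩ := h.supp n h0
        have h3 : n ∈ sp x M := by
          unfold sp
          exact Finset.mem_filter.2 ⟨Finset.mem_Icc.2 ⟨h1, h2⟩, h0⟩
        rw [if_pos h3]
        refine ⟨?_, h.cap n⟩
        have := h.law.nonneg (n - 1) (by omega)
        rwa [show 1 + (n - 1) = n by omega] at this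
    refine ⟨?_, hK⟩
    rw [hJ]
    simp only [Finset.mem_filter, Finset.mem_product, Finset.mem_Icc, Finset.mem_powerset]
    refine ⟨⟨⟨h.hd, by exact_mod_cast hdl.trans hlN⟩, ⟨by linarith, by nlinarith⟩,
      ⟨by omega, by exact_mod_cast hMN⟩, ?_⟩, h.hM, h.lo, h.hi, ?_, ⟨x, hK⟩⟩
    · intro n hn
      unfold sp at hn
      have h5 := Finset.mem_Icc.1 (Finset.mem_filter.1 hn).1
      have : M ≤ N := by exact_mod_cast hMN
      exact Finset.mem_Icc.2 ⟨h5.1, h5.2.trans this⟩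
    · intro n hn
      unfold sp at hn
      have h5 := Finset.mem_filter.1 hn
      exact h.supp n h5.2
  have hmax : ∀ j ∈ J, ∃ x ∈ KT j.2.2.1 (Real.exp Q.D0 / j.2.2.1) j.2.2.2,
      ∀ x' ∈ KT j.2.2.1 (Real.exp Q.D0 / j.2.2.1) j.2.2.2, g0 Q j.2.2.1 x' ≤ g0 Q j.2.2.1 x := by
    intro j hj
    rw [hJ, Finset.mem_filter] at hj
    have hM : 0 < j.2.2.1 := lt_of_lt_of_le (by have := hQ.Mm1; omega) hj.2.1
    obtain ⟨x, hx, h⟩ := (isCompact_KT j.2.2.1 (Real.exp Q.D0 / j.2.2.1) j.2.2.2).exists_isMaxOn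
      hj.2.2.2.2.2 (continuous_g0 Q hQ hM).continuousOn
    exact ⟨x, hx, fun x' hx' => h hx'⟩
  choose! X hX1 hX2 using hmax
  obtain ⟨d1, a1, M1, x1, h1⟩ := hne
  obtain ⟨j, hj, hjmax⟩ := Finset.exists_max_image J
    (fun j => g0 Q j.2.2.1 (X j) + Om Q j.1 j.2.2.2 + Q.eta * Real.log j.2.2.1)
    ⟨_, (hcov _ _ _ _ h1).1⟩
  have hj' := hj
  rw [hJ, Finset.mem_filter] at hj'
  obtain ⟨hj0, hj1, hj2, hj3, hj4, hj5⟩ := hj'
  have hd1 : 1 ≤ j.1 := (Finset.mem_Icc.1 (Finset.mem_product.1 hj0).1).1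
  have hMpos : 0 < j.2.2.1 := lt_of_lt_of_le (by have := hQ.Mm1; omega) hj1
  have hXj := hX1 j hj
  have hadm : Adm Q N A0 j.1 j.2.1 j.2.2.1 (X j) := by
    refine ⟨hd1, hj1, hj2, hj3, ⟨hMpos, fun i _ => (hXj.1 _).1, hXj.2⟩, fun n => ?_, fun n hn => ?_⟩
    · refine (hXj.1 n).2.trans ?_
      split_ifs
      · exact le_rfl
      · positivity
    · have h5 : n ∈ j.2.2.2 := by
        by_contra h6
        have h7 := hXj.1 n
        rw [if_neg h6] at h7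
        exact hn (le_antisymm h7.2 h7.1)
      exact hj4 n h5
  refine ⟨j.1, j.2.1, j.2.2.1, X j, hadm, fun d' a' M' x' h' => ?_⟩
  obtain ⟨c1, c2⟩ := hcov _ _ _ _ h'
  have e1 := hX2 _ c1 x' c2
  have e2 := hjmax _ c1
  have e3 : Om Q j.1 j.2.2.2 ≤ Om Q j.1 (sp (X j) j.2.2.1) := by
    refine Om_anti hQ hd1 fun n hn => ?_
    unfold sp at hn
    have h5 := (Finset.mem_filter.1 hn).2
    by_contra h6
    have h7 := hXj.1 n
    rw [if_neg h6] at h7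
    exact h5 (le_antisymm h7.2 h7.1)
  unfold FF
  simp only at e1 e2
  linarith

end Vale.Agent.P042.H945
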