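import Vale.Agent.P042.H945.State5
set_option autoImplicit false

/-!
P042 [D], the extremal state, part 6: the master inequality (average over the classes modulo
`lam D` above one class modulo `D`).
-/

namespace Vale.Agent.P042.H945

open Finset Vale.Agent.P042.H599

variable {ι : Type} {Q : Par ι} {N d M : ℕ} {A0 : Finset ℤ} {a : ℤ} {x y : ℕ → ℝ}

/-- the conditional law on the class `b` modulo `Λ` -/
noncomputable def Yb (y : ℕ → ℝ) (M Λ b n : ℕ) : ℝ := if n % Λ = b then y n / cm y 1 M Λ b else 0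

theorem le_cm (hy : Law y 1 M) (Λ : ℕ) {n : ℕ} (h1 : 1 ≤ n) (h2 : n ≤ M) :
    y n ≤ cm y 1 M Λ (n % Λ) := by
  unfold cm
  have h := Finset.single_le_sum (s := range M)
    (f := fun i => if (1 + i) % Λ = n % Λ then y (1 + i) else 0) (fun i hi => by
      show 0 ≤ if (1 + i) % Λ = n % Λ then y (1 + i) else 0
      split_ifs
      · exact hy.nonneg i (mem_range.1 hi)
      · exact le_rfl) (mem_range.2 (show n - 1 < M by omega))
  rw [show 1 + (n - 1) = n by omega, if_pos rfl] at h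
  exact h

theorem Yb_law (hy : Law y 1 M) {Λ b : ℕ} (hb : cm y 1 M Λ b ≠ 0) : Law (Yb y M Λ b) 1 M := by
  have h0 : 0 < cm y 1 M Λ b := lt_of_le_of_ne (cm_nonneg hy.nonneg _ _) hb.symm
  refine ⟨hy.pos, fun i hi => ?_, ?_⟩
  · unfold Yb
    split_ifs
    · exact div_nonneg (hy.nonneg i hi) h0.le
    · exact le_rfl
  · have h1 : ∀ i, Yb y M Λ b (1 + i) = (if (1 + i) % Λ = b then y (1 + i) else 0) *
        (cm y 1 M Λ b)⁻¹ := by
      intro i
      unfold Yb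
      split_ifs
      · rw [div_eq_mul_inv]
      · rw [zero_mul]
    simp only [h1]
    rw [← Finset.sum_mul]
    exact mul_inv_cancel₀ h0.ne'

theorem mix_eq (hy : Law y 1 M) {Λ : ℕ} (hΛ : 0 < Λ) {i : ℕ} (hi : i < M) :
    y (1 + i) = ∑ b ∈ range Λ, cm y 1 M Λ b * Yb y M Λ b (1 + i) := by
  rw [Finset.sum_eq_single ((1 + i) % Λ)]
  · unfold Yb
    rw [if_pos rfl]
    rcases eq_or_ne (cm y 1 M Λ ((1 + i) % Λ)) 0 with h | h
    · have h1 := le_cm hy Λ (n := 1 + i) (by omega) (by omega)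
      rw [h] at h1
      rw [h, zero_mul]
      exact le_antisymm h1 (hy.nonneg i hi)
    · field_simp
  · intro b _ hb
    unfold Yb
    rw [if_neg (fun h => hb h.symm), mul_zero]
  · intro h
    exact absurd (mem_range.2 (Nat.mod_lt _ hΛ)) h

theorem mix_SM (hy : Law y 1 M) {Λ : ℕ} (hΛ : 0 < Λ) (F : ℕ → ℕ → ℝ) :
    ∑ b ∈ range Λ, cm y 1 M Λ b * SM M (fun n => Yb y M Λ b n * F b n) =
      SM M (fun n => y n * F (n % Λ) n) := by
  unfold SM
  simp only [Finset.mul_sum]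
  rw [Finset.sum_comm]
  refine Finset.sum_congr rfl fun i hi => ?_
  rw [Finset.sum_eq_single ((1 + i) % Λ)]
  · unfold Yb
    rw [if_pos rfl]
    rcases eq_or_ne (cm y 1 M Λ ((1 + i) % Λ)) 0 with h | h
    · have h1 := le_cm hy Λ (n := 1 + i) (by omega) (by have := mem_range.1 hi; omega)
      rw [h] at h1
      rw [h, zero_mul]
      have h2 := le_antisymm h1 (hy.nonneg i (mem_range.1 hi))
      rw [h2, zero_mul]
    · field_simp
  · intro b _ hb
    unfold Yb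
    rw [if_neg (fun h => hb h.symm), zero_mul, mul_zero]
  · intro h
    exact absurd (mem_range.2 (Nat.mod_lt _ hΛ)) h

theorem Yb_kl2 {Λ b : ℕ} (hb : cm y 1 M Λ b ≠ 0) :
    kl2 (Yb y M Λ b) x M = SM M (fun n => Yb y M Λ b n *
      (Real.log (y n) - Real.log (cm y 1 M Λ b) - Real.log (x n))) := by
  unfold kl2
  refine SM_congr fun i hi => ?_
  by_cases h : (1 + i) % Λ = b
  · rcases eq_or_ne (y (1 + i)) 0 with h1 | h1
    · have h2 : Yb y M Λ b (1 + i) = 0 := by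
        unfold Yb; rw [if_pos h, h1, zero_div]
      rw [h2, zero_mul, zero_mul]
    · have h2 : Yb y M Λ b (1 + i) = y (1 + i) / cm y 1 M Λ b := by
        unfold Yb; rw [if_pos h]
      rw [h2, Real.log_div h1 hb]
  · have h2 : Yb y M Λ b (1 + i) = 0 := by
      unfold Yb; rw [if_neg h]
    rw [h2, zero_mul, zero_mul]

/-- mean of the conditional relative entropies -/
theorem mix_kl2 (hy : Law y 1 M) {Λ : ℕ} (hΛ : 0 < Λ) :
    ∑ b ∈ range Λ, cm y 1 M Λ b * kl2 (Yb y M Λ b) x M =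
      kl2 y x M - ∑ b ∈ range Λ, cm y 1 M Λ b * Real.log (cm y 1 M Λ b) := by
  have h1 : ∑ b ∈ range Λ, cm y 1 M Λ b * kl2 (Yb y M Λ b) x M =
      ∑ b ∈ range Λ, cm y 1 M Λ b * SM M (fun n => Yb y M Λ b n *
        (Real.log (y n) - Real.log (cm y 1 M Λ b) - Real.log (x n))) := by
    refine Finset.sum_congr rfl fun b _ => ?_
    rcases eq_or_ne (cm y 1 M Λ b) 0 with h | h
    · rw [h, zero_mul, zero_mul]
    · rw [Yb_kl2 h]
  rw [h1, mix_SM hy hΛ
    (fun b n => Real.log (y n) - Real.log (cm y 1 M Λ b) - Real.log (x n)),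
    cm_SM hΛ (fun b => Real.log (cm y 1 M Λ b))]
  unfold kl2
  rw [← SM_sub]
  refine SM_congr fun i _ => by ring

theorem card_class {Λ D w : ℕ} (hD : 0 < D) (hDΛ : D ∣ Λ) :
    (((range Λ).filter (fun b => b % D = w)).card : ℝ) ≤ Λ / D := by
  obtain ⟨q, rfl⟩ := hDΛ
  have h1 : ((range (D * q)).filter (fun b => b % D = w)).card ≤ (range q).card := by
    refine Finset.card_le_card_of_injOn (fun b => b / D) (fun b hb => ?_) ?_
    · have hb' := (Finset.mem_filter.1 hb).1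
      simp only [Finset.coe_range, Set.mem_Iio]
      exact Nat.div_lt_of_lt_mul (mem_range.1 hb')
    · intro b hb c hc h
      have hb' := (Finset.mem_filter.1 hb).2
      have hc' := (Finset.mem_filter.1 hc).2
      have h1 := Nat.div_add_mod b D
      have h2 := Nat.div_add_mod c D
      simp only at h
      rw [h, hb'] at h1
      rw [hc'] at h2
      omega
  rw [card_range] at h1
  rw [le_div_iff₀ (by exact_mod_cast hD)]
  have : (((range (D * q)).filter (fun b => b % D = w)).card : ℝ) ≤ q := by exact_mod_cast h1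
  push_cast
  nlinarith [show (0 : ℝ) < D by exact_mod_cast hD]

theorem cn_lower {Λ b u v : ℕ} (hΛ : 0 < Λ) (hb : b < Λ) (hu : 1 ≤ u) (huv : u ≤ v + 1) :
    v + 1 - u < (cn Λ b u v + 1) * Λ := by
  unfold cn k0
  have h1 : v + Λ - b < ((v + Λ - b) / Λ + 1) * Λ := by
    have := Nat.lt_succ_self ((v + Λ - b) / Λ)
    rw [Nat.div_lt_iff_lt_mul hΛ] at this
    exact this
  have h2 : (u - 1 + Λ - b) / Λ * Λ ≤ u - 1 + Λ - b := Nat.div_mul_le_self _ _
  have h3 : (u - 1 + Λ - b) / Λ ≤ (v + Λ - b) / Λ := Nat.div_le_div_right (by omega)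
  have h4 : ((v + Λ - b) / Λ - (u - 1 + Λ - b) / Λ + 1) * Λ =
      ((v + Λ - b) / Λ + 1) * Λ - (u - 1 + Λ - b) / Λ * Λ := by
    rw [← Nat.sub_mul]
    congr 1
    omega
  rw [h4]
  omega

theorem cn_upper {Λ b u v : ℕ} (hΛ : 0 < Λ) (hb : b < Λ) (hu : 1 ≤ u) (huv : u ≤ v + 1) :
    cn Λ b u v * Λ < v + 1 - u + Λ := by
  unfold cn k0
  have h1 : u - 1 + Λ - b < ((u - 1 + Λ - b) / Λ + 1) * Λ := by
    have := Nat.lt_succ_self ((u - 1 + Λ - b) / Λ)
    rw [Nat.div_lt_iff_lt_mul hΛ] at this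
    exact this
  have h2 : (v + Λ - b) / Λ * Λ ≤ v + Λ - b := Nat.div_mul_le_self _ _
  rw [Nat.sub_mul]
  have h3 : ((u - 1 + Λ - b) / Λ + 1) * Λ = (u - 1 + Λ - b) / Λ * Λ + Λ := by ring
  omega

theorem om_anti {p : ℕ} (hQ : Ok Q) (hd : 1 ≤ d) (hp : p ∈ Q.W) {S S' : Finset ℕ} (h : S' ⊆ S) :
    Q.om p d (rs S p) ≤ Q.om p d (rs S' p) := by
  have h1 := hQ.omt p hp d 1 0 (rs S p) (rs S' p) hd le_rfl (Nat.coprime_one_right p) (by
    intro y hy
    unfold rs at hy ⊢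
    obtain ⟨n, hn, rfl⟩ := Finset.mem_image.1 hy
    rw [hQ.lam1, one_mul, zero_add, Nat.mod_mod]
    exact Finset.mem_image.2 ⟨n, h hn, rfl⟩)
  rwa [mul_one] at h1

theorem neg_mul_log_le {β δ : ℝ} (hβ : 0 < β) (hδ : 0 < δ) :
    -(β * Real.log β) ≤ δ + β * Real.log (1 / δ) := by
  have h1 := Real.log_le_sub_one_of_pos (div_pos hδ hβ)
  rw [Real.log_div hδ.ne' hβ.ne'] at h1
  have h2 := mul_le_mul_of_nonneg_left h1 hβ.le
  have h3 : β * (δ / β - 1) = δ - β := by field_simp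
  rw [one_div, Real.log_inv]
  nlinarith

/-- hypotheses on the maximiser -/
structure Mx (Q : Par ι) (N : ℕ) (A0 : Finset ℤ) (d : ℕ) (a : ℤ) (M : ℕ) (x : ℕ → ℝ)
    (L : ℝ) : Prop where
  ok : Ok Q
  mx : IsMx Q N A0 d a M x
  L0 : 0 ≤ L
  base : -L + Q.eta * Real.log N ≤ FF Q d M x
  hD0 : 2 * L + 3 * Q.E1 < Q.D0 / 8
  hD2 : Real.exp (-(Q.D0 / 4)) ≤ 1 / 2

/-- a competitor: a law in the class `w` modulo `D` and in the interval `[u, v]` -/
structure Comp (Q : Par ι) (M : ℕ) (x : ℕ → ℝ) (D w u v : ℕ) (y : ℕ → ℝ) : Prop where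
  hD : 1 ≤ D
  hu : 1 ≤ u
  hv : v ≤ M
  huv : 2 * Q.Mm * Q.lam D ≤ v + 1 - u
  law : Law y 1 M
  supp : ∀ n, y n ≠ 0 → x n ≠ 0 ∧ u ≤ n ∧ n ≤ v ∧ n % D = w
  cap : ∀ n, y n ≤ Real.exp (3 / 4 * Q.D0) * D / ((v + 1 - u : ℕ) : ℝ)

theorem Comp.ac {D w u v : ℕ} (h : Comp Q M x D w u v y) : AC y x M := fun i _ h0 => by
  by_contra h1; exact (h.supp _ h1).1 h0

theorem Comp.nn {D w u v : ℕ} (h : Comp Q M x D w u v y) (n : ℕ) : 0 ≤ y n := by
  by_cases h0 : y n = 0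
  · exact h0.ge
  · have h1 := h.supp n h0
    have h2 := h.hu
    have h3 := h.hv
    have := h.law.nonneg (n - 1) (by omega)
    rwa [show 1 + (n - 1) = n by omega] at this

theorem Yb_supp {Λ b n : ℕ} (h : Yb y M Λ b n ≠ 0) : y n ≠ 0 ∧ n % Λ = b := by
  unfold Yb at h
  by_cases h1 : n % Λ = b
  · rw [if_pos h1] at h
    exact ⟨fun h2 => h (by rw [h2, zero_div]), h1⟩
  · rw [if_neg h1] at h
    exact absurd rfl h

theorem Comp.acb {D w u v : ℕ} (h : Comp Q M x D w u v y) (Λ b : ℕ) :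
    AC (Yb y M Λ b) x M := fun i _ h0 => by
  by_contra h1; exact (h.supp _ (Yb_supp h1).1).1 h0

/-- the support terms at primes not dividing `D` -/
noncomputable def Omc (Q : Par ι) (d D M : ℕ) (y : ℕ → ℝ) : ℝ :=
  ∑ p ∈ Q.W with Nat.Coprime p D, Q.om p d (rs (sp y M) p)

/-- the correction term -/
noncomputable def SC (Q : Par ι) (M : ℕ) (x : ℕ → ℝ) (mp : ι → ℕ) (y : ℕ → ℝ) : ℝ :=
  ∑ i ∈ Q.I, Q.c i * SM M (fun n => y n * (lc x M (Q.m i) n - lc x M (mp i) n))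

/-- the relative entropies of the classes -/
noncomputable def KC (Q : Par ι) (M : ℕ) (x : ℕ → ℝ) (mp : ι → ℕ) (y : ℕ → ℝ) : ℝ :=
  ∑ i ∈ Q.I, Q.c i * klc y x M (mp i)

/-- first error term -/
noncomputable def t1 (Q : Par ι) (L : ℝ) : ℝ :=
  2 * Real.exp (-(Q.D0 / 4)) * (Cs Q + 2 * L + 2 * Q.E1)

theorem t1_nonneg (hQ : Ok Q) {L : ℝ} (hL : 0 ≤ L) : 0 ≤ t1 Q L := by
  have := Cs_nonneg hQ
  have := hQ.E10
  unfold t1
  positivity

/-- the cap for a good class -/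
theorem good_cap {D w u v b : ℕ} (hQ : Ok Q) (h : Comp Q M x D w u v y) (hb : b < Q.lam D)
    (hδ : 2 * Real.exp (-(Q.D0 / 4)) * D / Q.lam D ≤ cm y 1 M (Q.lam D) b) (n : ℕ) :
    Yb y M (Q.lam D) b n ≤ Real.exp Q.D0 / cn (Q.lam D) b u v := by
  have hD := h.hD
  have hΛ : 0 < Q.lam D := hQ.lam0 D hD
  have hMm := hQ.Mm1
  have huv := h.huv
  have hVΛ : 4 * Q.lam D ≤ v + 1 - u := by nlinarith
  have hVpos : 0 < v + 1 - u := by omega
  have hV' : (0 : ℝ) < ((v + 1 - u : ℕ) : ℝ) := by exact_mod_cast hVpos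
  have hΛ' : (0 : ℝ) < (Q.lam D : ℝ) := by exact_mod_cast hΛ
  have hD' : (0 : ℝ) < D := by exact_mod_cast hD
  have hlo := cn_lower (v := v) hΛ hb h.hu (by omega)
  have hup := cn_upper (v := v) hΛ hb h.hu (by omega)
  have hcnpos0 : 0 < cn (Q.lam D) b u v := by
    by_contra h1
    have h2 : cn (Q.lam D) b u v = 0 := by omega
    rw [h2] at hlo
    omega
  have hcnpos : (0 : ℝ) < cn (Q.lam D) b u v := by exact_mod_cast hcnpos0
  have hup' : (cn (Q.lam D) b u v : ℝ) * Q.lam D ≤ ((v + 1 - u : ℕ) : ℝ) + Q.lam D := by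
    exact_mod_cast hup.le
  have h2V : (cn (Q.lam D) b u v : ℝ) * Q.lam D ≤ 2 * ((v + 1 - u : ℕ) : ℝ) := by
    have : (4 : ℝ) * Q.lam D ≤ ((v + 1 - u : ℕ) : ℝ) := by exact_mod_cast hVΛ
    linarith
  by_cases h0 : Yb y M (Q.lam D) b n = 0
  · rw [h0]; positivity
  · have h1 := (Yb_supp h0).2
    have h2 : Yb y M (Q.lam D) b n = y n / cm y 1 M (Q.lam D) b := by unfold Yb; rw [if_pos h1]
    have hβ : 0 < cm y 1 M (Q.lam D) b := lt_of_lt_of_le (by positivity) hδ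
    rw [h2, div_le_div_iff₀ hβ hcnpos]
    have h3 := h.cap n
    rw [le_div_iff₀ hV'] at h3
    have h5 : y n * cn (Q.lam D) b u v * (((v + 1 - u : ℕ) : ℝ) * Q.lam D) ≤
        (Real.exp (3 / 4 * Q.D0) * D) * (2 * ((v + 1 - u : ℕ) : ℝ)) := by
      have e1 : y n * cn (Q.lam D) b u v * (((v + 1 - u : ℕ) : ℝ) * Q.lam D) =
        (y n * ((v + 1 - u : ℕ) : ℝ)) * (cn (Q.lam D) b u v * Q.lam D) := by ring
      rw [e1]
      have e2 : 0 ≤ (cn (Q.lam D) b u v : ℝ) * Q.lam D := by positivity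
      exact mul_le_mul h3 h2V e2 (by positivity)
    have h6 : Real.exp Q.D0 * (2 * Real.exp (-(Q.D0 / 4)) * D / Q.lam D) *
        (((v + 1 - u : ℕ) : ℝ) * Q.lam D) ≤
        Real.exp Q.D0 * cm y 1 M (Q.lam D) b * (((v + 1 - u : ℕ) : ℝ) * Q.lam D) :=
      mul_le_mul_of_nonneg_right (mul_le_mul_of_nonneg_left hδ (Real.exp_pos _).le)
        (by positivity)
    have h7 : Real.exp Q.D0 * (2 * Real.exp (-(Q.D0 / 4)) * D / Q.lam D) *
        (((v + 1 - u : ℕ) : ℝ) * Q.lam D) =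
        (Real.exp Q.D0 * Real.exp (-(Q.D0 / 4))) * (2 * D * ((v + 1 - u : ℕ) : ℝ)) := by
      field_simp
    have h8 : Real.exp Q.D0 * Real.exp (-(Q.D0 / 4)) = Real.exp (3 / 4 * Q.D0) := by
      rw [← Real.exp_add]; congr 1; ring
    rw [h7, h8] at h6
    have h9 : y n * cn (Q.lam D) b u v * (((v + 1 - u : ℕ) : ℝ) * Q.lam D) ≤
        Real.exp Q.D0 * cm y 1 M (Q.lam D) b * (((v + 1 - u : ℕ) : ℝ) * Q.lam D) := by
      refine h5.trans (le_trans (le_of_eq ?_) h6)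
      ring
    exact le_of_mul_le_mul_right h9 (by positivity)

/-- good classes -/
theorem mi_good {L : ℝ} (hm : Mx Q N A0 d a M x L) {D w u v b : ℕ} (h : Comp Q M x D w u v y)
    (mp : ι → ℕ) (hmp : ∀ i ∈ Q.I, 0 < mp i ∧ mp i ∣ Q.m i ∧ Nat.Coprime (mp i) D)
    (hb : b < Q.lam D)
    (hδ : 2 * Real.exp (-(Q.D0 / 4)) * D / Q.lam D ≤ cm y 1 M (Q.lam D) b) :
    (1 - Q.eta) * (Real.log M - Real.log ((v + 1 - u : ℕ) : ℝ) + Real.log (Q.lam D)) +
      KC Q M x mp (Yb y M (Q.lam D) b) + Omc Q d D M y ≤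
    kl2 (Yb y M (Q.lam D) b) x M + SC Q M x mp (Yb y M (Q.lam D) b) + Om Q d (sp x M) +
      t1 Q L + Q.lam D / ((v + 1 - u : ℕ) : ℝ) := by
  have hQ := hm.ok
  have hD := h.hD
  have hΛ : 0 < Q.lam D := hQ.lam0 D hD
  have hMm := hQ.Mm1
  have huv := h.huv
  have hVΛ : 4 * Q.lam D ≤ v + 1 - u := by nlinarith
  have hVpos : 0 < v + 1 - u := by omega
  have hV' : (0 : ℝ) < ((v + 1 - u : ℕ) : ℝ) := by exact_mod_cast hVpos
  have hΛ' : (0 : ℝ) < (Q.lam D : ℝ) := by exact_mod_cast hΛ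
  have hD' : (0 : ℝ) < D := by exact_mod_cast hD
  have hβ : 0 < cm y 1 M (Q.lam D) b := lt_of_lt_of_le (by positivity) hδ
  have hYl : Law (Yb y M (Q.lam D) b) 1 M := Yb_law h.law hβ.ne'
  have hcell : Cell M (Q.lam D) b u v (Yb y M (Q.lam D) b) := by
    refine ⟨hΛ, hb, h.hu, h.hv, fun n hn => ?_⟩
    obtain ⟨h1, h2⟩ := Yb_supp hn
    exact ⟨(h.supp n h1).2.1, (h.supp n h1).2.2.1, h2⟩
  have hlo := cn_lower (v := v) hΛ hb h.hu (by omega)
  have hup := cn_upper (v := v) hΛ hb h.hu (by omega)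
  have hcnMm : Q.Mm ≤ cn (Q.lam D) b u v := by
    by_contra h1
    have h2 : cn (Q.lam D) b u v + 1 ≤ Q.Mm := by omega
    have h3 := Nat.mul_le_mul_right (Q.lam D) h2
    have h4 : 2 * Q.Mm * Q.lam D = 2 * (Q.Mm * Q.lam D) := by ring
    omega
  have hcnpos : (0 : ℝ) < cn (Q.lam D) b u v := by
    exact_mod_cast (show 0 < cn (Q.lam D) b u v by omega)
  have hup' : (cn (Q.lam D) b u v : ℝ) * Q.lam D ≤ ((v + 1 - u : ℕ) : ℝ) + Q.lam D := by
    exact_mod_cast hup.le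
  have h1 := mi_cell hQ hm.mx hm.L0 hm.base hm.hD0 hm.hD2 hD hcell hYl
    (fun n hn => (h.supp n (Yb_supp hn).1).1) hcnMm (good_cap hQ h hb hδ) mp hmp
  have h2 : Omc Q d D M y ≤ Omc Q d D M (Yb y M (Q.lam D) b) := by
    unfold Omc
    refine Finset.sum_le_sum fun p hp =>
      om_anti hQ hm.mx.1.hd (Finset.mem_filter.1 hp).1 ?_
    intro n hn
    unfold sp at hn ⊢
    obtain ⟨h3, h4⟩ := Finset.mem_filter.1 hn
    exact Finset.mem_filter.2 ⟨h3, (Yb_supp h4).1⟩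
  have h3 : Real.log (cn (Q.lam D) b u v) ≤ Real.log ((v + 1 - u : ℕ) : ℝ) -
      Real.log (Q.lam D) + Q.lam D / ((v + 1 - u : ℕ) : ℝ) := by
    have e1 : (cn (Q.lam D) b u v : ℝ) ≤ ((v + 1 - u : ℕ) : ℝ) / Q.lam D *
        (1 + Q.lam D / ((v + 1 - u : ℕ) : ℝ)) := by
      have : ((v + 1 - u : ℕ) : ℝ) / Q.lam D * (1 + Q.lam D / ((v + 1 - u : ℕ) : ℝ)) =
          (((v + 1 - u : ℕ) : ℝ) + Q.lam D) / (Q.lam D : ℝ) := by field_simp
      rw [this, le_div_iff₀ hΛ']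
      exact hup'
    have e2 := Real.log_le_log hcnpos e1
    rw [Real.log_mul (by positivity) (by positivity), Real.log_div hV'.ne' hΛ'.ne'] at e2
    have e3 := Real.log_le_sub_one_of_pos
      (show (0 : ℝ) < 1 + Q.lam D / ((v + 1 - u : ℕ) : ℝ) by positivity)
    linarith
  have h4 : (1 - Q.eta) * (Real.log M - Real.log ((v + 1 - u : ℕ) : ℝ) + Real.log (Q.lam D)) -
      Q.lam D / ((v + 1 - u : ℕ) : ℝ) ≤
      (1 - Q.eta) * (Real.log M - Real.log (cn (Q.lam D) b u v)) := by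
    have e1 : 0 ≤ (Q.lam D : ℝ) / ((v + 1 - u : ℕ) : ℝ) := by positivity
    have hη0 := hQ.eta0
    have hη1 := hQ.eta1
    nlinarith
  unfold Omc at h2 ⊢
  unfold KC SC t1
  linarith

/-- all classes of positive mass -/
theorem mi_bad {L : ℝ} (hm : Mx Q N A0 d a M x L) {D w u v b : ℕ} (h : Comp Q M x D w u v y)
    {K : ℝ} (hK1 : 1 ≤ K) (hK : ∀ n, y n ≤ K * x n) {OB : ℝ} (hOB : ∀ S, Om Q d S ≤ OB)
    (mp : ι → ℕ) (hmp : ∀ i ∈ Q.I, 0 < mp i ∧ mp i ∣ Q.m i ∧ Nat.Coprime (mp i) D)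
    (hβ : 0 < cm y 1 M (Q.lam D) b) :
    (1 - Q.eta) * (Real.log M - Real.log ((v + 1 - u : ℕ) : ℝ) + Real.log (Q.lam D)) +
      KC Q M x mp (Yb y M (Q.lam D) b) + Omc Q d D M y ≤
    kl2 (Yb y M (Q.lam D) b) x M + SC Q M x mp (Yb y M (Q.lam D) b) + Om Q d (sp x M) +
      (2 * Real.log M + OB + 2 * C1 Q * (Real.log K - Real.log (cm y 1 M (Q.lam D) b))) := by
  have hQ := hm.ok
  have hA := hm.mx.1
  have hD := h.hD
  have hΛ : 0 < Q.lam D := hQ.lam0 D hD
  have hMm := hQ.Mm1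
  have huv := h.huv
  have hv := h.hv
  have hu := h.hu
  have hVΛ : 4 * Q.lam D ≤ v + 1 - u := by nlinarith
  have hVpos : 0 < v + 1 - u := by omega
  have hV' : (0 : ℝ) < ((v + 1 - u : ℕ) : ℝ) := by exact_mod_cast hVpos
  have hΛ' : (0 : ℝ) < (Q.lam D : ℝ) := by exact_mod_cast hΛ
  have hYl : Law (Yb y M (Q.lam D) b) 1 M := Yb_law h.law hβ.ne'
  have hYac := h.acb (Q.lam D) b
  have hxn := law_nonneg hA
  have hkl : kl2 (Yb y M (Q.lam D) b) x M ≤
      Real.log K - Real.log (cm y 1 M (Q.lam D) b) := by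
    rw [Yb_kl2 hβ.ne']
    have h1 : SM M (fun n => Yb y M (Q.lam D) b n *
        (Real.log (y n) - Real.log (cm y 1 M (Q.lam D) b) - Real.log (x n))) ≤
        SM M (fun n => Yb y M (Q.lam D) b n *
          (Real.log K - Real.log (cm y 1 M (Q.lam D) b))) := by
      refine SM_le fun i hi => ?_
      rcases eq_or_ne (Yb y M (Q.lam D) b (1 + i)) 0 with h0 | h0
      · rw [h0, zero_mul, zero_mul]
      · refine mul_le_mul_of_nonneg_left ?_ (hYl.nonneg i hi)
        have h2 := (Yb_supp h0).1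
        have h3 := (h.supp _ h2).1
        have h4 : 0 < y (1 + i) := lt_of_le_of_ne (h.nn _) h2.symm
        have h5 : 0 < x (1 + i) := lt_of_le_of_ne (hxn _) h3.symm
        have h6 := Real.log_le_log h4 (hK (1 + i))
        rw [Real.log_mul (by positivity) h5.ne'] at h6
        linarith
    rwa [SM_const_mul, law_one hYl, one_mul] at h1
  have hkl0 := kl2_nonneg hYl hA.law hYac
  have h1 : KC Q M x mp (Yb y M (Q.lam D) b) ≤
      C1 Q * (Real.log K - Real.log (cm y 1 M (Q.lam D) b)) := by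
    unfold KC C1
    rw [Finset.sum_mul]
    refine Finset.sum_le_sum fun i hi => mul_le_mul_of_nonneg_left ?_ (hQ.hc i hi)
    exact (klc_le_kl2 hYl hA.law hYac (hmp i hi).1).trans hkl
  have h2 : -(C1 Q * (Real.log K - Real.log (cm y 1 M (Q.lam D) b))) ≤
      SC Q M x mp (Yb y M (Q.lam D) b) := by
    unfold SC C1
    rw [Finset.sum_mul, ← Finset.sum_neg_distrib]
    refine Finset.sum_le_sum fun i hi => ?_
    rw [← mul_neg]
    refine mul_le_mul_of_nonneg_left ?_ (hQ.hc i hi)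
    obtain ⟨hm1, hm2, hm3⟩ := hmp i hi
    have e1 := klu_eq2 (m := Q.m i) hA.law hYac (hQ.hm i hi)
    have e2 := klu_eq2 (m := mp i) hA.law hYac hm1
    have e3 := klu_mono hYl (hQ.hm i hi) hm2
    have e4 := klc_le_kl2 (m := Q.m i) hYl hA.law hYac (hQ.hm i hi)
    have e5 := klc_nonneg (m := mp i) hYl hA.law hYac hm1
    have e6 : SM M (fun n => Yb y M (Q.lam D) b n * (lc x M (Q.m i) n - lc x M (mp i) n)) =
        SM M (fun n => Yb y M (Q.lam D) b n * lc x M (Q.m i) n) -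
        SM M (fun n => Yb y M (Q.lam D) b n * lc x M (mp i) n) := by
      rw [← SM_sub]
      exact SM_congr fun i _ => by ring
    rw [e6]
    unfold lc
    linarith
  have hlogV : 0 ≤ Real.log ((v + 1 - u : ℕ) : ℝ) :=
    Real.log_nonneg (by exact_mod_cast hVpos)
  have hlogVM : Real.log ((v + 1 - u : ℕ) : ℝ) ≤ Real.log M :=
    Real.log_le_log hV' (by exact_mod_cast (show v + 1 - u ≤ M by omega))
  have hlogΛM : Real.log (Q.lam D) ≤ Real.log M :=
    Real.log_le_log hΛ' (by exact_mod_cast (show Q.lam D ≤ M by omega))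
  have hlogΛ : 0 ≤ Real.log (Q.lam D) := Real.log_nonneg (by exact_mod_cast hΛ)
  have h3 : (1 - Q.eta) * (Real.log M - Real.log ((v + 1 - u : ℕ) : ℝ) + Real.log (Q.lam D)) ≤
      2 * Real.log M := by
    have hη0 := hQ.eta0
    have hη1 := hQ.eta1
    nlinarith
  have h4 : Omc Q d D M y ≤ OB := by
    refine le_trans ?_ (hOB (sp y M))
    unfold Om Omc
    exact Finset.sum_le_sum_of_subset_of_nonneg (Finset.filter_subset _ _)
      fun p hp _ => hQ.om0 p hp _ _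
  have h5 := Om_nonneg hQ d (sp x M)
  linarith

/-- classes with positive mass lie above `w` -/
theorem Comp.above {D w u v b : ℕ} (h : Comp Q M x D w u v y) (hDΛ : D ∣ Q.lam D)
    (hb : cm y 1 M (Q.lam D) b ≠ 0) : b % D = w := by
  by_contra h1
  refine hb ?_
  unfold cm
  refine Finset.sum_eq_zero fun i _ => ?_
  split_ifs with h2
  · by_contra h3
    have h4 := (h.supp _ h3).2.2.2
    rw [← h2, Nat.mod_mod_of_dvd _ hDΛ] at h1
    exact h1 h4
  · rfl

/-- entropy of the class weights -/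
theorem Comp.ent {D w u v : ℕ} (h : Comp Q M x D w u v y) (hDΛ : D ∣ Q.lam D)
    (hΛ : 0 < Q.lam D) :
    -(∑ b ∈ range (Q.lam D), cm y 1 M (Q.lam D) b * Real.log (cm y 1 M (Q.lam D) b)) ≤
      Real.log (Q.lam D) - Real.log D := by
  have hΛ' : (0 : ℝ) < (Q.lam D : ℝ) := by exact_mod_cast hΛ
  have hD' : (0 : ℝ) < D := by exact_mod_cast h.hD
  set β : ℕ → ℝ := fun b => cm y 1 M (Q.lam D) b with hβ
  have hβsum : ∑ b ∈ range (Q.lam D), β b = 1 := sum_cm h.law.sum hΛ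
  set G := (range (Q.lam D)).filter (fun b => b % D = w) with hG
  have e1 : ∑ b ∈ range (Q.lam D), β b * Real.log (β b) = ∑ b ∈ G, β b * Real.log (β b) := by
    rw [hG, Finset.sum_filter]
    refine Finset.sum_congr rfl fun b _ => ?_
    by_cases h0 : b % D = w
    · rw [if_pos h0]
    · rw [if_neg h0]
      have : β b = 0 := by
        by_contra h1; exact h0 (h.above hDΛ h1)
      rw [this, zero_mul]
  have e2 : ∑ b ∈ G, β b = 1 := by
    rw [← hβsum, hG, Finset.sum_filter]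
    refine Finset.sum_congr rfl fun b _ => ?_
    by_cases h0 : b % D = w
    · rw [if_pos h0]
    · rw [if_neg h0]
      by_contra h1; exact h0 (h.above hDΛ (fun h2 => h1 h2.symm))
  have e3 := log_sum G β (fun _ => 1) (fun b _ => cm_nonneg h.law.nonneg _ _)
    (fun _ _ => zero_le_one) (fun _ _ h => absurd h one_ne_zero)
  rw [e2] at e3
  simp only [Finset.sum_const, nsmul_eq_mul, mul_one, Real.log_one, sub_zero, one_mul,
    zero_sub] at e3
  have e4 : (G.card : ℝ) ≤ Q.lam D / D := card_class h.hD hDΛ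
  have e5 : 0 < (G.card : ℝ) := by
    rcases Nat.eq_zero_or_pos G.card with h0 | h0
    · rw [Finset.card_eq_zero] at h0
      rw [h0, Finset.sum_empty] at e2
      exact absurd e2 zero_ne_one
    · exact_mod_cast h0
  have e6 := Real.log_le_log e5 e4
  rw [Real.log_div hΛ'.ne' hD'.ne'] at e6
  rw [e1]
  linarith

/-- average of the left sides -/
theorem avg_left {D w u v : ℕ} (hQ : Ok Q) (hx : Law x 1 M) (h : Comp Q M x D w u v y)
    (mp : ι → ℕ) (T0 O' : ℝ) :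
    T0 + KC Q M x mp y + O' ≤ ∑ b ∈ range (Q.lam D), cm y 1 M (Q.lam D) b *
      (T0 + KC Q M x mp (Yb y M (Q.lam D) b) + O') := by
  have hΛ : 0 < Q.lam D := hQ.lam0 D h.hD
  have hy := h.law
  have hβsum : ∑ b ∈ range (Q.lam D), cm y 1 M (Q.lam D) b = 1 := sum_cm h.law.sum hΛ
  have e1 : ∑ b ∈ range (Q.lam D), cm y 1 M (Q.lam D) b *
      (T0 + KC Q M x mp (Yb y M (Q.lam D) b) + O') =
      T0 + ∑ b ∈ range (Q.lam D), cm y 1 M (Q.lam D) b *
        KC Q M x mp (Yb y M (Q.lam D) b) + O' := by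
    have : ∀ b, cm y 1 M (Q.lam D) b * (T0 + KC Q M x mp (Yb y M (Q.lam D) b) + O') =
        cm y 1 M (Q.lam D) b * T0 + cm y 1 M (Q.lam D) b * KC Q M x mp (Yb y M (Q.lam D) b) +
        cm y 1 M (Q.lam D) b * O' := fun b => by ring
    simp only [this]
    rw [Finset.sum_add_distrib, Finset.sum_add_distrib, ← Finset.sum_mul, ← Finset.sum_mul,
      hβsum, one_mul, one_mul]
  have e2 : ∑ b ∈ range (Q.lam D), cm y 1 M (Q.lam D) b *
      KC Q M x mp (Yb y M (Q.lam D) b) = ∑ i ∈ Q.I, Q.c i *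
        ∑ b ∈ range (Q.lam D), cm y 1 M (Q.lam D) b * klc (Yb y M (Q.lam D) b) x M (mp i) := by
    unfold KC
    simp only [Finset.mul_sum]
    rw [Finset.sum_comm]
    refine Finset.sum_congr rfl fun i _ => Finset.sum_congr rfl fun b _ => by ring
  rw [e1, e2]
  have e3 : KC Q M x mp y ≤ ∑ i ∈ Q.I, Q.c i *
        ∑ b ∈ range (Q.lam D), cm y 1 M (Q.lam D) b * klc (Yb y M (Q.lam D) b) x M (mp i) := by
    unfold KC
    refine Finset.sum_le_sum fun i hi => mul_le_mul_of_nonneg_left ?_ (hQ.hc i hi)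
    exact klc_mix (range (Q.lam D)) (fun b => cm y 1 M (Q.lam D) b)
      (fun b => Yb y M (Q.lam D) b) (fun b _ => cm_nonneg hy.nonneg _ _) hβsum
      (fun b _ h => Yb_law hy h) hx (fun b _ _ => h.acb _ b) (fun j hj => mix_eq hy hΛ hj)
  linarith

/-- average of the right sides -/
theorem avg_right {D w u v : ℕ} (hQ : Ok Q) (h : Comp Q M x D w u v y) (mp : ι → ℕ) (X : ℝ) :
    ∑ b ∈ range (Q.lam D), cm y 1 M (Q.lam D) b *
      (kl2 (Yb y M (Q.lam D) b) x M + SC Q M x mp (Yb y M (Q.lam D) b) + X) =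
    (kl2 y x M - ∑ b ∈ range (Q.lam D), cm y 1 M (Q.lam D) b *
      Real.log (cm y 1 M (Q.lam D) b)) + SC Q M x mp y + X := by
  have hΛ : 0 < Q.lam D := hQ.lam0 D h.hD
  have hy := h.law
  have hβsum : ∑ b ∈ range (Q.lam D), cm y 1 M (Q.lam D) b = 1 := sum_cm h.law.sum hΛ
  have h1 : ∀ b, cm y 1 M (Q.lam D) b *
      (kl2 (Yb y M (Q.lam D) b) x M + SC Q M x mp (Yb y M (Q.lam D) b) + X) =
      cm y 1 M (Q.lam D) b * kl2 (Yb y M (Q.lam D) b) x M +
      cm y 1 M (Q.lam D) b * SC Q M x mp (Yb y M (Q.lam D) b) +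
      cm y 1 M (Q.lam D) b * X := fun b => by ring
  simp only [h1]
  rw [Finset.sum_add_distrib, Finset.sum_add_distrib, ← Finset.sum_mul, hβsum, one_mul,
    mix_kl2 hy hΛ]
  have e2 : ∑ b ∈ range (Q.lam D), cm y 1 M (Q.lam D) b *
      SC Q M x mp (Yb y M (Q.lam D) b) = SC Q M x mp y := by
    unfold SC
    simp only [Finset.mul_sum]
    rw [Finset.sum_comm]
    refine Finset.sum_congr rfl fun i _ => ?_
    rw [← mix_SM hy hΛ (fun _ n => lc x M (Q.m i) n - lc x M (mp i) n), Finset.mul_sum]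
    refine Finset.sum_congr rfl fun b _ => by ring
  rw [e2]

/-- the error term of the master inequality -/
noncomputable def Err (Q : Par ι) (M : ℕ) (L OB K r : ℝ) : ℝ :=
  t1 Q L + r + 2 * Real.exp (-(Q.D0 / 4)) * (2 * Real.log M + OB + 2 * C1 Q * Real.log K +
      2 * C1 Q * (1 + Q.D0 / 4 + Real.log M))

/-- **the master inequality** -/
theorem master {L : ℝ} (hm : Mx Q N A0 d a M x L) {D w u v : ℕ} (h : Comp Q M x D w u v y)
    {K : ℝ} (hK1 : 1 ≤ K) (hK : ∀ n, y n ≤ K * x n) {OB : ℝ} (hOB : ∀ S, Om Q d S ≤ OB)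
    (mp : ι → ℕ) (hmp : ∀ i ∈ Q.I, 0 < mp i ∧ mp i ∣ Q.m i ∧ Nat.Coprime (mp i) D) :
    (1 - Q.eta) * (Real.log M - Real.log ((v + 1 - u : ℕ) : ℝ)) + Real.log D -
        Q.eta * Real.log (Q.lam D) + KC Q M x mp y + Omc Q d D M y ≤
    kl2 y x M + SC Q M x mp y + Om Q d (sp x M) +
      Err Q M L OB K (Q.lam D / ((v + 1 - u : ℕ) : ℝ)) := by
  classical
  have hQ := hm.ok
  have hA := hm.mx.1
  have hD := h.hD
  have hΛ : 0 < Q.lam D := hQ.lam0 D hD
  have hDΛ : D ∣ Q.lam D := hQ.lamd D hD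
  have hΛ' : (0 : ℝ) < (Q.lam D : ℝ) := by exact_mod_cast hΛ
  have hD' : (0 : ℝ) < D := by exact_mod_cast hD
  have hM1 : (1 : ℝ) ≤ M := by exact_mod_cast hA.law.pos
  have hC1 := C1_nonneg hQ
  have hlogK : 0 ≤ Real.log K := Real.log_nonneg hK1
  have hlogM : 0 ≤ Real.log M := Real.log_nonneg hM1
  have hOB0 : 0 ≤ OB := (Om_nonneg hQ d ∅).trans (hOB ∅)
  have ht10 := t1_nonneg hQ hm.L0
  have hε1 : 2 * Real.exp (-(Q.D0 / 4)) ≤ 1 := by have := hm.hD2; linarith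
  obtain ⟨ε, hε⟩ : ∃ ε, ε = 2 * Real.exp (-(Q.D0 / 4)) := ⟨_, rfl⟩
  have hε0 : 0 < ε := by rw [hε]; positivity
  rw [← hε] at hε1
  obtain ⟨δ, hδ⟩ : ∃ δ : ℝ, δ = ε * D / Q.lam D := ⟨_, rfl⟩
  have hδ0 : 0 < δ := by rw [hδ]; positivity
  have hδ1 : δ ≤ 1 := by
    rw [hδ, div_le_one hΛ']
    have : (D : ℝ) ≤ Q.lam D := by exact_mod_cast Nat.le_of_dvd hΛ hDΛ
    nlinarith
  have hlogδ0 : 0 ≤ Real.log (1 / δ) := Real.log_nonneg (by rw [le_div_iff₀ hδ0]; linarith)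
  have hlogΛM : Real.log (Q.lam D) ≤ Real.log M := by
    refine Real.log_le_log hΛ' ?_
    have h1 := h.huv
    have h2 := h.hv
    have h3 := h.hu
    have h4 := hQ.Mm1
    have h5 : Q.lam D ≤ M := by
      have : 2 * Q.Mm * Q.lam D ≥ Q.lam D := by nlinarith
      omega
    exact_mod_cast h5
  have hlogδ : Real.log (1 / δ) ≤ Q.D0 / 4 + Real.log M := by
    have h1 : Real.log (1 / δ) = Real.log (Q.lam D) - Real.log D - Real.log ε := by
      rw [one_div, Real.log_inv, hδ, Real.log_div (by positivity) hΛ'.ne',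
        Real.log_mul hε0.ne' hD'.ne']
      ring
    have h2 : -(Q.D0 / 4) ≤ Real.log ε := by
      rw [hε, Real.log_mul (by norm_num) (Real.exp_pos _).ne', Real.log_exp]
      have := Real.log_nonneg (show (1 : ℝ) ≤ 2 by norm_num)
      linarith
    have h3 : 0 ≤ Real.log D := Real.log_nonneg (by exact_mod_cast hD)
    linarith
  obtain ⟨T0, hT0⟩ : ∃ T0, T0 = (1 - Q.eta) * (Real.log M - Real.log ((v + 1 - u : ℕ) : ℝ) +
    Real.log (Q.lam D)) := ⟨_, rfl⟩
  obtain ⟨Z, hZ⟩ : ∃ Z, Z = 2 * Real.log M + OB + 2 * C1 Q * Real.log K := ⟨_, rfl⟩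
  have hZ0 : 0 ≤ Z := by rw [hZ]; positivity
  obtain ⟨r, hr⟩ : ∃ r : ℝ, r = Q.lam D / ((v + 1 - u : ℕ) : ℝ) := ⟨_, rfl⟩
  have hr0 : 0 ≤ r := by rw [hr]; positivity
  have hcomb : ∀ b ∈ range (Q.lam D), cm y 1 M (Q.lam D) b *
      (T0 + KC Q M x mp (Yb y M (Q.lam D) b) + Omc Q d D M y) ≤
      cm y 1 M (Q.lam D) b * (kl2 (Yb y M (Q.lam D) b) x M +
        SC Q M x mp (Yb y M (Q.lam D) b) + (Om Q d (sp x M) + t1 Q L + r)) +
      (if b % D = w then δ * (Z + 2 * C1 Q * (1 + Real.log (1 / δ))) else 0) := by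
    intro b hb
    have hβ0 : 0 ≤ cm y 1 M (Q.lam D) b := cm_nonneg h.law.nonneg _ _
    rcases hβ0.eq_or_lt with h0 | h0
    · rw [← h0, zero_mul, zero_mul, zero_add]
      split_ifs
      · positivity
      · exact le_rfl
    · rw [if_pos (h.above hDΛ h0.ne')]
      have h30 : 0 ≤ δ * (Z + 2 * C1 Q * (1 + Real.log (1 / δ))) := by positivity
      rcases le_or_gt δ (cm y 1 M (Q.lam D) b) with h1 | h1
      · rw [hδ, hε] at h1
        have h2 := mul_le_mul_of_nonneg_left (mi_good hm h mp hmp (mem_range.1 hb) h1) h0.le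
        rw [← hT0, ← hr] at h2
        have h3 : cm y 1 M (Q.lam D) b * (kl2 (Yb y M (Q.lam D) b) x M +
            SC Q M x mp (Yb y M (Q.lam D) b) + (Om Q d (sp x M) + t1 Q L + r)) =
            cm y 1 M (Q.lam D) b * (kl2 (Yb y M (Q.lam D) b) x M +
            SC Q M x mp (Yb y M (Q.lam D) b) + Om Q d (sp x M) + t1 Q L + r) := by ring
        rw [h3]
        linarith
      · have h2 := mul_le_mul_of_nonneg_left (mi_bad hm h hK1 hK hOB mp hmp h0) h0.le
        rw [← hT0] at h2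
        have h3 := neg_mul_log_le h0 hδ0
        have h4 : cm y 1 M (Q.lam D) b * (t1 Q L + r) ≥ 0 := by positivity
        have h6 : cm y 1 M (Q.lam D) b * Z ≤ δ * Z := mul_le_mul_of_nonneg_right h1.le hZ0
        have h7 : 2 * C1 Q * (-(cm y 1 M (Q.lam D) b * Real.log (cm y 1 M (Q.lam D) b))) ≤
            2 * C1 Q * (δ + δ * Real.log (1 / δ)) := by
          refine mul_le_mul_of_nonneg_left (h3.trans ?_) (by positivity)
          have : cm y 1 M (Q.lam D) b * Real.log (1 / δ) ≤ δ * Real.log (1 / δ) :=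
            mul_le_mul_of_nonneg_right h1.le hlogδ0
          linarith
        have h5 : cm y 1 M (Q.lam D) b * (2 * Real.log M + OB + 2 * C1 Q *
            (Real.log K - Real.log (cm y 1 M (Q.lam D) b))) = cm y 1 M (Q.lam D) b * Z +
            2 * C1 Q * (-(cm y 1 M (Q.lam D) b * Real.log (cm y 1 M (Q.lam D) b))) := by
          rw [hZ]; ring
        have h8 : cm y 1 M (Q.lam D) b * (kl2 (Yb y M (Q.lam D) b) x M +
            SC Q M x mp (Yb y M (Q.lam D) b) + (Om Q d (sp x M) + t1 Q L + r)) =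
            cm y 1 M (Q.lam D) b * (kl2 (Yb y M (Q.lam D) b) x M +
            SC Q M x mp (Yb y M (Q.lam D) b) + Om Q d (sp x M)) +
            cm y 1 M (Q.lam D) b * (t1 Q L + r) := by ring
        rw [mul_add (cm y 1 M (Q.lam D) b) (kl2 (Yb y M (Q.lam D) b) x M +
            SC Q M x mp (Yb y M (Q.lam D) b) + Om Q d (sp x M)), h5] at h2
        have h10 : δ * (Z + 2 * C1 Q * (1 + Real.log (1 / δ))) =
            δ * Z + 2 * C1 Q * (δ + δ * Real.log (1 / δ)) := by ring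
        rw [h8, h10]
        linarith
  have hsum := Finset.sum_le_sum hcomb
  rw [Finset.sum_add_distrib, avg_right hQ h mp] at hsum
  have hleft := avg_left hQ hA.law h mp T0 (Omc Q d D M y)
  have hent := h.ent hDΛ hΛ
  have hbm : ∑ b ∈ range (Q.lam D),
      (if b % D = w then δ * (Z + 2 * C1 Q * (1 + Real.log (1 / δ))) else 0) ≤
      ε * (Z + 2 * C1 Q * (1 + Q.D0 / 4 + Real.log M)) := by
    rw [← Finset.sum_filter, Finset.sum_const, nsmul_eq_mul]
    have e4 := card_class (w := w) hD hDΛ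
    have e5 : (((range (Q.lam D)).filter (fun b => b % D = w)).card : ℝ) * δ ≤ ε := by
      have : (Q.lam D : ℝ) / D * δ = ε := by rw [hδ]; field_simp
      rw [← this]
      exact mul_le_mul_of_nonneg_right e4 hδ0.le
    have e6 : Z + 2 * C1 Q * (1 + Real.log (1 / δ)) ≤
        Z + 2 * C1 Q * (1 + Q.D0 / 4 + Real.log M) := by
      have : 1 + Real.log (1 / δ) ≤ 1 + Q.D0 / 4 + Real.log M := by linarith
      have := mul_le_mul_of_nonneg_left this (show 0 ≤ 2 * C1 Q by positivity)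
      linarith
    have e7 : 0 ≤ Z + 2 * C1 Q * (1 + Real.log (1 / δ)) := by positivity
    calc (((range (Q.lam D)).filter (fun b => b % D = w)).card : ℝ) *
        (δ * (Z + 2 * C1 Q * (1 + Real.log (1 / δ))))
        = ((((range (Q.lam D)).filter (fun b => b % D = w)).card : ℝ) * δ) *
          (Z + 2 * C1 Q * (1 + Real.log (1 / δ))) := by ring
      _ ≤ ε * (Z + 2 * C1 Q * (1 + Real.log (1 / δ))) := mul_le_mul_of_nonneg_right e5 e7
      _ ≤ _ := mul_le_mul_of_nonneg_left e6 hε0.le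
  have hfin := hleft.trans hsum
  unfold Err
  rw [← hr, ← hε]
  have hT0' : T0 = (1 - Q.eta) * (Real.log M - Real.log ((v + 1 - u : ℕ) : ℝ)) +
      Real.log (Q.lam D) - Q.eta * Real.log (Q.lam D) := by
    rw [hT0]; ring
  rw [hT0'] at hfin
  rw [← hZ]
  linarith

end Vale.Agent.P042.H945
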