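import Vale.Agent.P042.H945.StSMain
set_option autoImplicit false

/-!
P042, target S: `STATES StS`.
-/

namespace Vale.Agent.P042.H945

open Finset Polynomial Vale.Agent.P042.H599 Vale.Agent.P042.H739

/-- the trivial state (used for `C = 1`) -/
theorem stat_triv {h : ℤ[X]} {lam : ℕ → ℕ} {r : ℕ → ℤ} {Hh : ℕ → ℤ[X]} {R : ℕ}
    (hAux : AuxData h lam r Hh R) {κ P dl : ℝ} (hκ : 0 < κ) (hP : 0 ≤ P) (hdl : dl ≤ κ * P) :
    STat h Hh κ dl P (fun _ _ _ => True) := by
  classical
  intro N hN hlog A0 hA0 hdf hcard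
  have hNr : (0 : ℝ) < N := by exact_mod_cast hN
  have hNP : (N : ℝ) = Real.exp P := by rw [← hlog, Real.exp_log hNr]
  have hcpos : (0 : ℝ) < (A0.card : ℝ) := lt_of_lt_of_le (by positivity) hcard
  have hne : 0 < A0.card := by exact_mod_cast hcpos
  have hlaw := xb_law hA0 hne (by omega : 0 < N)
  refine ⟨1, N, Gw N (xb A0), le_rfl, ?_, ?_, trivial⟩
  · rw [Nat.cast_one]
    exact Real.one_le_exp (by positivity)
  · refine base6_of (a := 0) hAux hdf le_rfl ?_ hNP.le hlaw (fun n hn => ?_) (fun n => ?_)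
    · rw [hNP]
      refine Real.exp_le_exp.2 ?_
      nlinarith
    · unfold xb at hn
      split_ifs at hn with h1
      · have h2 := Finset.mem_Icc.1 (hA0 h1)
        refine ⟨by omega, by omega, ?_⟩
        rw [LamOk_of hAux]
        simpa using h1
      · exact absurd rfl hn
    · unfold xb
      split_ifs
      · rw [mul_one_div, div_le_iff₀ hcpos]
        have h1 : Real.exp (κ * P) * (Real.exp (-dl) * N) ≤ Real.exp (κ * P) * A0.card :=
          mul_le_mul_of_nonneg_left hcard (Real.exp_pos _).le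
        have h2 : 1 ≤ Real.exp (κ * P) * Real.exp (-dl) := by
          rw [← Real.exp_add]
          exact Real.one_le_exp (by linarith)
        nlinarith
      · rw [mul_zero]
        exact (Real.exp_pos _).le

theorem stat_S {h : ℤ[X]} {lam : ℕ → ℕ} {r : ℕ → ℤ} {Hh : ℕ → ℤ[X]} {R : ℕ}
    (hAux : AuxData h lam r Hh R) (hk2 : 2 ≤ h.natDegree) {κ : ℝ} {C : ℕ} {l P L : ℝ}
    (ns : NS h.natDegree κ C l P L) :
    STat h Hh κ (P / Real.log P ^ C) P (fun f N' G => StS h.natDegree R f κ C P N' G) := by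
  intro N hN hlog A0 hA0 hdf hcard
  have hNr : (0 : ℝ) < N := by exact_mod_cast hN
  have hNP : (N : ℝ) = Real.exp P := by rw [← hlog, Real.exp_log hNr]
  have hl : LamOk lam h.natDegree := ⟨LamOk_of hAux, hAux.hmul, fun d hd => (hAux.hdvd d hd).1,
    fun d hd => (hAux.hdvd d hd).2⟩
  have hL1 := ns.L1
  have hl1 := ns.l1
  have hP1 := ns.P1
  have hκ := ns.hκ
  have hκ1 := ns.hκ1
  have hlL := ns.lL
  have hL0 : 0 < L := by linarith
  have eL : P / Real.log P ^ C = L := by rw [ns.logP, ← ns.hL]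
  have eD0 : (PSS lam κ C P).D0 = 100 * L := by
    show 100 * (P / Real.log P ^ C) = 100 * L
    rw [eL]
  have eE1 : (PSS lam κ C P).E1 = 2 * L := by
    show 2 * (P / Real.log P ^ C) = 2 * L
    rw [eL]
  have eη : (PSS lam κ C P).eta = etaS κ C P := rfl
  obtain ⟨d, a, M, x, hm⟩ := exists_Mx (Q := PSS lam κ C P) (L := L) (ns.ok hl) hA0 hL0.le hN
    (by rw [← eL]; exact hcard) (by
      show ⌈Real.exp (P / 4)⌉₊ ≤ N
      rw [Nat.ceil_le, hNP]
      exact Real.exp_le_exp.2 (by linarith)) (by rw [eD0]; linarith)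
    (by rw [eD0, eE1]; linarith) (by
      rw [eD0]
      have h1 := ns.tiny.2
      have h2 : Real.exp (-(100 * L / 4)) ≤ Real.exp (-(18 * L)) :=
        Real.exp_le_exp.2 (by linarith)
      linarith)
  obtain ⟨h1, h2, h3⟩ := hm.length
  have hd := hm.mx.1.hd
  have hMpos : (0 : ℝ) < M := by
    have := hm.mx.1.law.pos
    exact_mod_cast this
  have hlen : (1 - κ / 2) * P ≤ Real.log M := by
    rw [hlog, eE1, eη] at h1
    have h4 : (L + 2 * L) / etaS κ C P = κ / 2 * P := by
      unfold etaS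
      rw [ns.hL, ns.logP]
      have : 0 < l ^ C := pow_pos (by linarith) C
      field_simp
      ring
    rw [h4] at h1
    linarith
  have hMlo : Real.exp ((1 - κ / 2) * P) ≤ M := by
    rw [← Real.exp_log hMpos]
    exact Real.exp_le_exp.2 hlen
  have hMhi : (M : ℝ) ≤ Real.exp P := by rw [← hNP]; exact h2
  have hMlo2 : Real.exp (7 / 8 * P) ≤ M := by
    refine le_trans (Real.exp_le_exp.2 ?_) hMlo
    nlinarith
  have s : SE h.natDegree κ C l P L lam N A0 d a M x := ⟨ns, hk2, hl, hm, hMlo2, hMhi⟩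
  have hκP : 2 ≤ κ * P ∧ 100 * L ≤ κ * P := by
    constructor
    · nlinarith
    · nlinarith
  refine ⟨d, M, Gw M (mus C P M x), hd, ?_, ?_, ?_⟩
  · have h5 : (d : ℝ) * Real.exp ((1 - κ / 2) * P) ≤ 2 * Real.exp P := by
      rw [← hNP]
      exact (mul_le_mul_of_nonneg_left hMlo (Nat.cast_nonneg _)).trans h3
    have h6 : 2 * Real.exp P ≤ Real.exp (κ * P) * Real.exp ((1 - κ / 2) * P) := by
      have h7 : Real.exp 1 * Real.exp P ≤ Real.exp (κ * P) * Real.exp ((1 - κ / 2) * P) := by
        rw [← Real.exp_add, ← Real.exp_add]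
        refine Real.exp_le_exp.2 ?_
        linarith
      have h8 : (2 : ℝ) ≤ Real.exp 1 := by have := Real.add_one_le_exp (1 : ℝ); linarith
      have h9 := Real.exp_pos P
      nlinarith
    exact le_of_mul_le_mul_right (h5.trans h6) (Real.exp_pos _)
  · refine base6_of (a := a) hAux hdf hd ?_ hMhi s.law s.out (fun n => ?_)
    · refine le_trans (Real.exp_le_exp.2 ?_) hMlo
      nlinarith
    · have h4 := s.cap n
      rw [le_div_iff₀ hMpos] at h4
      have h5 : Real.exp (50 * L + 1) ≤ Real.exp (κ * P) := Real.exp_le_exp.2 (by linarith)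
      linarith
  · intro _
    exact ⟨mus C P M x, s.st, fun n => rfl⟩

/-- **target S, first half**: every dense set without differences yields the state `StS` -/
theorem states_StS : STATES StS := by
  intro h lam r Hh R hAux hk hlead κ C hκ hκ1 hC
  rcases Nat.lt_or_ge C 2 with hC2 | hC2
  · have hC1 : C = 1 := by omega
    subst hC1
    refine ⟨Real.exp (1 / κ), fun P hP => ?_⟩
    have hPpos : 0 < P := lt_of_lt_of_le (Real.exp_pos _) hP
    have hlog : 1 / κ ≤ Real.log P := by
      rwa [Real.le_log_iff_exp_le hPpos]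
    have hlpos : 0 < Real.log P := lt_of_lt_of_le (by positivity) hlog
    intro N hN hlogN A0 hA0 hdf hcard
    obtain ⟨d, N', G, h1, h2, h3, _⟩ := stat_triv hAux hκ hPpos.le (dl := P / Real.log P ^ 1) (by
      rw [pow_one, div_le_iff₀ hlpos]
      rw [div_le_iff₀ hκ] at hlog
      nlinarith) N hN hlogN A0 hA0 hdf hcard
    exact ⟨d, N', G, h1, h2, h3, fun h4 => absurd h4 (by norm_num)⟩
  · obtain ⟨l0, hl0⟩ := exists_NS h.natDegree hκ hκ1 hC2
    refine ⟨Real.exp l0, fun P hP => ?_⟩
    have hPpos : 0 < P := lt_of_lt_of_le (Real.exp_pos _) hP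
    have hlog : l0 ≤ Real.log P := by
      rwa [Real.le_log_iff_exp_le hPpos]
    have ns := hl0 _ hlog
    rw [Real.exp_log hPpos] at ns
    exact stat_S hAux hk ns

end Vale.Agent.P042.H945
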