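import Vale.Agent.P042.H945.State6
import Vale.Agent.P042.H739.FinalS
set_option autoImplicit false

/-!
P042 [D]: the base state, the existence of a maximiser `Mx`, the size of its progression, and the
properties `Base6` of the weight `G n = M * mu n`.
-/

namespace Vale.Agent.P042.H945

open Finset Polynomial Vale.Agent.P042.H599 Vale.Agent.P042.H739
open scoped Pointwise

variable {ι : Type} {Q : Par ι} {N d M : ℕ} {A0 : Finset ℤ} {a : ℤ} {x : ℕ → ℝ} {L : ℝ}

open Classical in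
/-- the uniform law on `A0` -/
noncomputable def xb (A0 : Finset ℤ) (n : ℕ) : ℝ := if (n : ℤ) ∈ A0 then 1 / (A0.card : ℝ) else 0

theorem SM_xb (hA0 : A0 ⊆ Icc (1 : ℤ) N) (c : ℝ) :
    SM N (fun n => if (n : ℤ) ∈ A0 then c else 0) = A0.card * c := by
  classical
  rw [SM_Icc, ← Finset.sum_filter, Finset.sum_const, nsmul_eq_mul]
  congr 2
  have h1 : ((Icc 1 N).filter (fun n : ℕ => (n : ℤ) ∈ A0)).image (fun n : ℕ => (n : ℤ)) = A0 := by
    ext z
    simp only [Finset.mem_image, Finset.mem_filter, Finset.mem_Icc]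
    constructor
    · rintro ⟨n, ⟨_, h⟩, rfl⟩
      exact h
    · intro hz
      have h2 := Finset.mem_Icc.1 (hA0 hz)
      refine ⟨z.toNat, ⟨⟨by omega, by omega⟩, ?_⟩, by omega⟩
      rwa [Int.toNat_of_nonneg (by omega)]
  rw [← h1, Finset.card_image_of_injective _ Nat.cast_injective]
  rw [h1]

theorem xb_law (hA0 : A0 ⊆ Icc (1 : ℤ) N) (hne : 0 < A0.card) (hN : 0 < N) :
    Law (xb A0) 1 N := by
  classical
  refine ⟨hN, fun i _ => ?_, ?_⟩
  · unfold xb
    split_ifs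
    · positivity
    · exact le_rfl
  · have h := SM_xb hA0 (1 / (A0.card : ℝ))
    have h2 : (A0.card : ℝ) ≠ 0 := by exact_mod_cast hne.ne'
    rw [mul_one_div_cancel h2] at h
    rw [← h]
    unfold SM xb
    refine Finset.sum_congr rfl fun i _ => ?_
    congr

theorem kl0_xb (hA0 : A0 ⊆ Icc (1 : ℤ) N) (hne : 0 < A0.card) :
    kl0 (xb A0) 1 N = Real.log (N / A0.card) := by
  classical
  have h2 : (A0.card : ℝ) ≠ 0 := by exact_mod_cast hne.ne'
  have h := SM_xb hA0 (1 / (A0.card : ℝ) * Real.log (N / A0.card))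
  have h3 : (A0.card : ℝ) * (1 / (A0.card : ℝ) * Real.log (N / A0.card)) =
      Real.log (N / A0.card) := by field_simp
  rw [h3] at h
  rw [← h]
  unfold kl0 SM xb
  refine Finset.sum_congr rfl fun i _ => ?_
  beta_reduce
  split_ifs
  · rw [mul_one_div]
  · simp

/-- a maximiser exists and its value is at least the value of the base state -/
theorem exists_Mx (hQ : Ok Q) (hA0 : A0 ⊆ Icc (1 : ℤ) N) (hL : 0 ≤ L) (hN : 1 ≤ N)
    (hcard : Real.exp (-L) * N ≤ (A0.card : ℝ)) (hMm : Q.Mm ≤ N) (hLD : L ≤ Q.D0)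
    (hD0 : 2 * L + 3 * Q.E1 < Q.D0 / 8) (hD2 : Real.exp (-(Q.D0 / 4)) ≤ 1 / 2) :
    ∃ (d : ℕ) (a : ℤ) (M : ℕ) (x : ℕ → ℝ), Mx Q N A0 d a M x L := by
  classical
  have hNr : (0 : ℝ) < N := by exact_mod_cast hN
  have hcpos : (0 : ℝ) < (A0.card : ℝ) := lt_of_lt_of_le (by positivity) hcard
  have hne : 0 < A0.card := by exact_mod_cast hcpos
  have hlaw := xb_law hA0 hne (by omega : 0 < N)
  have hadm : Adm Q N A0 1 0 N (xb A0) := by
    refine ⟨le_rfl, hMm, ?_, ?_, hlaw, fun n => ?_, fun n hn => ?_⟩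
    · rw [hQ.lam1]; norm_num
    · rw [hQ.lam1]; simp
    · have h1 : 1 / (A0.card : ℝ) ≤ Real.exp Q.D0 / N := by
        rw [div_le_div_iff₀ hcpos hNr]
        have h2 : Real.exp Q.D0 * (Real.exp (-L) * N) ≤ Real.exp Q.D0 * A0.card :=
          mul_le_mul_of_nonneg_left hcard (Real.exp_pos _).le
        have h3 : 1 ≤ Real.exp Q.D0 * Real.exp (-L) := by
          rw [← Real.exp_add]
          exact Real.one_le_exp (by linarith)
        nlinarith
      unfold xb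
      split_ifs
      · exact h1
      · positivity
    · unfold xb at hn
      split_ifs at hn with h1
      · have h2 := Finset.mem_Icc.1 (hA0 h1)
        refine ⟨by omega, by omega, ?_⟩
        rw [hQ.lam1]
        simpa using h1
      · exact absurd rfl hn
  obtain ⟨d, a, M, x, hA, hmax⟩ := exists_max hQ N A0 ⟨_, _, _, _, hadm⟩
  refine ⟨d, a, M, x, hQ, ⟨hA, hmax⟩, hL, ?_, hD0, hD2⟩
  refine le_trans ?_ (hmax _ _ _ _ hadm)
  unfold FF g0
  rw [kl0_xb hA0 hne]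
  have h1 : Real.log (N / A0.card) ≤ L := by
    have h2 : (N : ℝ) / A0.card ≤ Real.exp L := by
      rw [div_le_iff₀ hcpos]
      have h3 : Real.exp L * (Real.exp (-L) * N) ≤ Real.exp L * A0.card :=
        mul_le_mul_of_nonneg_left hcard (Real.exp_pos _).le
      rw [← mul_assoc, ← Real.exp_add, add_neg_cancel, Real.exp_zero, one_mul] at h3
      exact h3
    have h4 := Real.log_le_log (by positivity) h2
    rwa [Real.log_exp] at h4
  have h2 := Om_nonneg hQ 1 (sp (xb A0) N)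
  have h3 : 0 ≤ ∑ i ∈ Q.I, Q.c i * klu (xb A0) 1 N (Q.m i) :=
    Finset.sum_nonneg fun i hi => mul_nonneg (hQ.hc i hi) (klu_nonneg hlaw (hQ.hm i hi))
  linarith

/-- the length of the progression -/
theorem Mx.length (hm : Mx Q N A0 d a M x L) :
    Real.log N - Real.log M ≤ (L + Q.E1) / Q.eta ∧ (M : ℝ) ≤ N ∧ (d : ℝ) * M ≤ 2 * N := by
  have hQ := hm.ok
  have hA := hm.mx.1
  have h1 := (value_bounds hQ hm.mx hm.base).1
  have h2 := kl0_nonneg hA.law
  have hη := hQ.eta0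
  have hl : (1 : ℤ) ≤ Q.lam d := by exact_mod_cast hQ.lam0 d hA.hd
  have hdl : (d : ℤ) ≤ Q.lam d := by
    exact_mod_cast Nat.le_of_dvd (hQ.lam0 d hA.hd) (hQ.lamd d hA.hd)
  have hM2 : (2 : ℤ) ≤ M := by exact_mod_cast hQ.Mm1.trans hA.hM
  have hlo := hA.lo
  have hhi := hA.hi
  refine ⟨?_, ?_, ?_⟩
  · rw [le_div_iff₀ hη]
    linarith
  · have h3 : (M : ℤ) ≤ N := by nlinarith
    exact_mod_cast h3
  · have h3 : (d : ℤ) * M ≤ 2 * N := by
      have h4 : (d : ℤ) * M ≤ Q.lam d * M := by nlinarith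
      have h5 : (Q.lam d : ℤ) * (M - 1) ≤ N := by nlinarith
      nlinarith
    exact_mod_cast h3

/-- the weight of a law -/
noncomputable def Gw (M : ℕ) (mu : ℕ → ℝ) (n : ℤ) : ℝ := if 1 ≤ n then (M : ℝ) * mu n.toNat else 0

theorem sum_Gw (M : ℕ) (mu : ℕ → ℝ) :
    ∑ n ∈ Icc (1 : ℤ) M, Gw M mu n = M * SM M mu := by
  rw [SM_Icc, Finset.mul_sum]
  refine Finset.sum_nbij' (fun n => n.toNat) (fun n => (n : ℤ)) ?_ ?_ ?_ ?_ ?_
  · intro n hn
    rw [Finset.mem_Icc] at hn ⊢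
    omega
  · intro n hn
    rw [Finset.mem_Icc] at hn ⊢
    omega
  · intro n hn
    rw [Finset.mem_Icc] at hn
    exact Int.toNat_of_nonneg (by omega)
  · intro n _
    exact Int.toNat_natCast n
  · intro n hn
    rw [Finset.mem_Icc] at hn
    unfold Gw
    rw [if_pos hn.1]

/-- `Base6` for a law whose support lies in the progression -/
theorem base6_of {h : ℤ[X]} {lam : ℕ → ℕ} {r : ℕ → ℤ} {Hh : ℕ → ℤ[X]} {R : ℕ}
    (hAux : AuxData h lam r Hh R) (hdf : DiffFree h A0) {κ P : ℝ} {mu : ℕ → ℝ} (hd : 1 ≤ d)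
    (hlo : Real.exp ((1 - κ) * P) ≤ M) (hhi : (M : ℝ) ≤ Real.exp P) (hlaw : Law mu 1 M)
    (hsupp : ∀ n, mu n ≠ 0 → 1 ≤ n ∧ n ≤ M ∧ a + lam d * n ∈ A0)
    (hcap : ∀ n, (M : ℝ) * mu n ≤ Real.exp (κ * P)) :
    Base6 (Hh d) κ P M (Gw M mu) := by
  have hmu : ∀ n, 0 ≤ mu n := by
    intro n
    by_cases h0 : mu n = 0
    · exact h0.ge
    · obtain ⟨h1, h2, _⟩ := hsupp n h0
      have := hlaw.nonneg (n - 1) (by omega)
      rwa [show 1 + (n - 1) = n by omega] at this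
  have hne : ∀ n : ℤ, Gw M mu n ≠ 0 → 1 ≤ n ∧ mu n.toNat ≠ 0 := by
    intro n hn
    unfold Gw at hn
    by_cases h1 : 1 ≤ n
    · rw [if_pos h1] at hn
      exact ⟨h1, fun h2 => hn (by rw [h2, mul_zero])⟩
    · rw [if_neg h1] at hn
      exact absurd rfl hn
  refine ⟨hlo, hhi, fun n => ?_, fun n hn => ?_, ?_, fun n => ?_, ?_⟩
  · unfold Gw
    split_ifs
    · exact mul_nonneg (Nat.cast_nonneg _) (hmu _)
    · exact le_rfl
  · obtain ⟨h1, h2⟩ := hne n hn
    obtain ⟨h3, h4, _⟩ := hsupp _ h2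
    exact ⟨h1, by omega⟩
  · rw [sum_Gw]
    have : SM M mu = 1 := hlaw.sum
    rw [this, mul_one]
  · unfold Gw
    split_ifs
    · exact hcap _
    · positivity
  · intro n m hn hm z hz hnm
    obtain ⟨h1, h2⟩ := hne n hn
    obtain ⟨h3, h4⟩ := hne m hm
    obtain ⟨_, _, h5⟩ := hsupp _ h2
    obtain ⟨_, _, h6⟩ := hsupp _ h4
    rw [Int.toNat_of_nonneg (by omega)] at h5 h6
    have h7 := congrArg (fun q => Polynomial.eval (z : ℤ) q) (hAux.hH d hd)
    simp only [eval_mul, eval_C, eval_comp, eval_add, eval_X] at h7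
    have h8 := hAux.hr d hd
    have hdz : (1 : ℤ) ≤ d := by exact_mod_cast hd
    have hzz : (1 : ℤ) ≤ z := by exact_mod_cast hz
    have h9 : 1 ≤ r d + d * z := by nlinarith [h8.1]
    have hlam : (0 : ℤ) < lam d := by
      have := Nat.pos_of_dvd_of_pos (hAux.hdvd d hd).2 (Nat.pow_pos hd)
      exact_mod_cast this
    have h10 : (a + lam d * n) - (a + lam d * m) ∈ ((A0 : Set ℤ) - (A0 : Set ℤ)) ∩
        {m : ℤ | ∃ n : ℕ, 1 ≤ n ∧ h.eval (n : ℤ) = m} := by
      refine ⟨Set.sub_mem_sub h5 h6, (r d + d * z).toNat, by omega, ?_⟩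
      rw [Int.toNat_of_nonneg (by omega), ← h7, ← hnm]
      ring
    have h11 := hdf h10
    rw [Set.mem_singleton_iff] at h11
    have h12 : (lam d : ℤ) * (n - m) = 0 := by linarith
    rcases mul_eq_zero.1 h12 with h13 | h13
    · omega
    · omega

theorem LamOk_of {h : ℤ[X]} {lam : ℕ → ℕ} {r : ℕ → ℤ} {Hh : ℕ → ℤ[X]} {R : ℕ}
    (hAux : AuxData h lam r Hh R) : lam 1 = 1 := by
  have h1 := (hAux.hdvd 1 le_rfl).2
  rw [one_pow] at h1
  exact Nat.dvd_one.1 h1

end Vale.Agent.P042.H945
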