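import Vale.Agent.P042.H945.PLawD
import Vale.Agent.P042.H103.FamN
import Vale.Agent.P042.H883.Frame
set_option autoImplicit false
set_option linter.unusedSectionVars false

/-!
P042, power regime, law side, part 5: the law of the two cells of an instance for large `P`, in the
order of the constants of the local theorem.
-/

namespace Vale.Agent.P042.H945

open Finset Filter
open Vale.Agent.P042.H858 (pf)
open Vale.Agent.P042.H438 (Rs uw)
open Vale.Agent.P042.H92 (Prm PLaw)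
open Vale.Agent.P042.H362 (FP StF1)
open Vale.Agent.P042.H860 (Inst Typ mem_Typ rn)
open Vale.Agent.P042.H739 (Q0s Tst mem_Tst)
open Vale.Agent.P042.H883 (esN)

theorem q0_le {I : Inst} {κ : ℝ} (h : H860.Ok I κ) : I.q0 ≤ Q0s I.k I.R I.K0 :=
  H758.qnul_le h.R1 h.tiny fun _ hp => (mem_Tst.1 hp).2

/-- the bound of `be` -/
noncomputable def thbL (k R n : ℕ) : ℝ :=
  1 / (|Real.log (Q0s k R (max (max n R) (2 * k)))| + 6)

theorem thbL_pos (k R n : ℕ) : 0 < thbL k R n := by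
  unfold thbL
  positivity

/-- **the laws of the two cells, for large `P`** -/
theorem law_core {k : ℕ} (hk : 2 ≤ k) {C1 γ α a0 kap d1 G : ℝ} {Kc CK : ℕ} (hC1 : 4 ≤ C1)
    (hKc : 1 ≤ Kc) (hCK : 12 ≤ CK) (hG : 0 < G) (hG1 : G ≤ 1 / 4) (hd1CK : 16 * (d1 * CK) ≤ G)
    (hd1 : 0 ≤ d1) (hγ0 : 0 < γ) (hγ1 : γ ≤ 1) (hα : α = γ / (64 * C1)) (ha0 : a0 = 10) :
    ∃ K1 : ℕ, ∀ (R : ℕ) (θ κ : ℝ), 0 ≤ θ → θ ≤ 1 / (64 * k) → κ ≤ 1 / 2 → ∀ qp : FP, qp.g = α / 16 → qp.b = α / 16 →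
      qp.ga = α / 32 → 0 ≤ qp.be → qp.be ≤ α / 32 → qp.be ≤ thbL k R qp.K0 → 0 < qp.kp →
      qp.kp ≤ α / 16 / (2560 * C1) → ∀ K0 : ℕ, K0 = max (max qp.K0 R) (2 * k) → K1 ≤ K0 →
    ∃ P0 : ℝ, ∀ P : ℝ, P0 ≤ P → ∀ I : Inst, I.k = k → I.R = R → I.K0 = K0 → I.C1 = C1 →
      I.P = P → H860.Ok I κ →
      StF1 (Typ K0 C1 P) qp (H972.famP Kc (CK - 1) K0 C1 (2 * d1) 0 G (qp.kp / 16) P) I.f I.N I.mu
        (qp.kp * P / 64) (P / (16 * k)) →
      ∀ (ι : Type) [Fintype ι] [DecidableEq ι] (q : ι → ℕ) [∀ i, NeZero (q i)] (S : Finset ι)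
        (es : ι → ℝ), Rs (V := fun i => ZMod (q i)) q (rn q) →
        (∀ i ∈ S, q i ∈ Typ I.K0 I.C1 I.P) → (∀ p ∈ Typ I.K0 I.C1 I.P, ∃ i ∈ S, q i = p) →
        (∀ i, i ∉ S → ∀ p ∈ Typ I.K0 I.C1 I.P, ¬ p ∣ q i) → (∀ i, (q i).Coprime I.q0) →
        (∀ i ∈ S, es i = esN (q i)) →
        PLaw (prmF P C1 γ a0 θ qp.kp kap d1 G CK) S (fun i => Real.log (q i)) es
            (lamR S q (rn q) I.mu I.N) (uw q) (pf (rn q) I.nu1 1 I.N) ∧
          PLaw (prmF P C1 γ a0 θ qp.kp kap d1 G CK) S (fun i => Real.log (q i)) es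
            (lamR S q (rn q) I.mu I.N) (uw q) (pf (rn q) I.nu2 1 I.N) := by
  obtain ⟨n0, hn0, hn0K⟩ : ∃ n0 : ℕ, 2560000 ≤ n0 ∧ Kc ≤ n0 :=
    ⟨max 2560000 Kc, le_max_left _ _, le_max_right _ _⟩
  have hα0 : 0 < α := by rw [hα]; positivity
  have hαC : α * C1 ≤ γ := by
    rw [hα]
    have h1 : γ / (64 * C1) * C1 = γ / 64 := by field_simp
    rw [h1]
    linarith
  have hkr : (2 : ℝ) ≤ k := by exact_mod_cast hk
  have hk0 : (0 : ℝ) < k := by linarith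
  refine ⟨max ⌈Real.exp (3 / γ)⌉₊ (2 ^ n0), fun R θ κ hθ hθk hκ qp hg hb hga hbe0 hbe1 hbe2 hkp0 hkp1 K0 hK0
    hK1 => ?_⟩
  obtain ⟨L, hL⟩ : ∃ L : ℝ, L = |Real.log (Q0s k R K0)| := ⟨_, rfl⟩
  have hL0 : 0 ≤ L := by rw [hL]; exact abs_nonneg _
  have hbeL : qp.be * (L + 6) ≤ 1 := by
    have h1 : qp.be ≤ 1 / (L + 6) := by
      rw [hL, hK0]
      exact hbe2
    rw [le_div_iff₀ (by linarith)] at h1
    exact h1
  have hKexp : Real.exp (3 / γ) ≤ K0 := by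
    refine (Nat.le_ceil _).trans ?_
    exact_mod_cast (le_max_left _ _).trans hK1
  have hK2 : 2 ^ n0 ≤ K0 := (le_max_right _ _).trans hK1
  have hkp4 : qp.kp ≤ 1 := by
    refine hkp1.trans ?_
    have h1 : α ≤ 1 := by
      have h2 : α ≤ α * C1 := le_mul_of_one_le_right hα0.le (by linarith)
      linarith
    rw [div_le_one (by linarith)]
    linarith
  have hCKr : (12 : ℝ) ≤ CK := by exact_mod_cast hCK
  obtain ⟨Pa, hPa⟩ := wnum_ev (k := k) hk (C1 := C1) (γ := γ) (γs := α) (a0 := a0)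
    (θ := θ) (κ := κ) (kap := kap) (d1 := d1) (G := G) (CK := CK) (qp := qp)
    (by linarith) hγ1 hα0 hαC (by rw [ha0]; norm_num) hθ hθk hκ hg hb
    (by rw [hga]; positivity) hbe0 hbe1 hkp0 hkp1 hKexp L hbeL
  obtain ⟨Pb, hPb1, hPb⟩ := H103.famNum_famP (Kc := Kc) (CK := CK - 1) (C1 := C1) (d1 := d1)
    (a1e := 2 * d1) (g := G) (cB := qp.kp / 16) (kd := qp.kp / 64) hKc (by omega)
    (by linarith) le_rfl (by
      have h1 : ((CK - 1 : ℕ) : ℝ) ≤ CK := by exact_mod_cast Nat.sub_le _ _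
      have h2 : 8 * d1 * ((CK - 1 : ℕ) : ℝ) ≤ 8 * d1 * CK :=
        mul_le_mul_of_nonneg_left h1 (by positivity)
      linarith) (by positivity) (by positivity) hG
  refine ⟨max Pa (max Pb 1), fun P hP I hIk hIR hIK0 hIC1 hIP hok st ι _ _ q _ S es rs hmem hall
    hout hq0 hes => ?_⟩
  have hPaP : Pa ≤ P := (le_max_left _ _).trans hP
  have hPbP : Pb ≤ P := ((le_max_left _ _).trans (le_max_right _ _)).trans hP
  have hP1 : 1 ≤ P := ((le_max_right _ _).trans (le_max_right _ _)).trans hP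
  have hPp : 0 < P := by linarith
  have hq0L : Real.log I.q0 ≤ L := by
    have h1 := q0_le hok
    rw [hIk, hIR, hIK0] at h1
    have h2 : (0 : ℝ) < I.q0 := by exact_mod_cast hok.q0_pos
    rw [hL]
    refine le_trans ?_ (le_abs_self _)
    exact Real.log_le_log h2 (by exact_mod_cast h1)
  have hN : (1 - κ) * P ≤ Real.log I.N := by
    have h1 := hok.base.lo
    rw [hIP] at h1
    have h2 : (0 : ℝ) < I.N := lt_of_lt_of_le (Real.exp_pos _) h1
    rw [← Real.exp_le_exp, Real.exp_log h2]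
    exact h1
  have hnum := hPa P hPaP I.q0 I.N hok.q0_pos hq0L hN
  have hfn : H103.FamNum (H972.famP Kc (CK - 1) K0 C1 (2 * d1) 0 G (qp.kp / 16) P)
      (prmF P C1 γ a0 θ qp.kp kap d1 G CK) (Typ K0 C1 P) K0 a0 (qp.kp * P / 64) := by
    have hn1 : (2560000 : ℝ) ≤ (Kc : ℝ) * (n0 : ℝ) ^ (CK - 1 - 10) := by
      have h1 : (2560000 : ℝ) ≤ n0 := by exact_mod_cast hn0
      have h2 : (n0 : ℝ) ^ 1 ≤ (n0 : ℝ) ^ (CK - 1 - 10) :=
        pow_le_pow_right₀ (by linarith) (by omega)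
      rw [pow_one] at h2
      have h3 : (1 : ℝ) ≤ Kc := by exact_mod_cast hKc
      have h4 : (n0 : ℝ) ^ (CK - 1 - 10) ≤ (Kc : ℝ) * (n0 : ℝ) ^ (CK - 1 - 10) :=
        le_mul_of_one_le_left (by positivity) h3
      linarith
    refine hPb P hPbP K0 n0 a0 _ _ _ hK2 (by omega) hn0K hn1 ?_ rfl le_rfl le_rfl le_rfl ?_
      (fun p => ?_) ?_
    · rw [ha0]
      linarith
    · show CK - 1 + 1 ≤ CK
      omega
    · rw [mem_Typ, Nat.le_floor_iff (Real.rpow_nonneg hPp.le _)]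
      tauto
    · exact le_of_eq (by ring)
  have hsys : SysI I q S :=
    ⟨rs.two, rs.cop, hmem, fun p hp => by
      obtain ⟨i, _, hi⟩ := hall p hp
      exact ⟨i, hi⟩, hout, hq0⟩
  subst hIK0 hIC1 hIP
  have hfok : H599.FamOk (H972.famP Kc (CK - 1) I.K0 I.C1 (2 * d1) 0 G (qp.kp / 16) I.P)
      (H972.MmP I.P) := by
    unfold H972.famP
    exact H972.famL_ok hKc hPp.le (by positivity) (by linarith)
  refine law_inst (K0 := I.K0) hok hsys st hfok hnum (fun i hi => ?_) le_rfl hfn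
  rw [hes i hi]
  exact H883.log_le_esN (by have := rs.two i; omega)

end Vale.Agent.P042.H945
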