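import Vale.Agent.P042.H945.StS
import Vale.Agent.P042.H599.HBS
set_option autoImplicit false

/-!
P042, target S: numbers.
-/

namespace Vale.Agent.P042.H945

open Finset Polynomial Vale.Agent.P042.H599 Vale.Agent.P042.H739

/-- the numerical facts; `l = log P`, `L = P / l ^ C` -/
structure NS (k : ℕ) (κ : ℝ) (C : ℕ) (l P L : ℝ) : Prop where
  hκ : 0 < κ
  hκ1 : κ ≤ 1 / 8
  hP : P = Real.exp l
  hL : L = P / l ^ C
  l1 : 1000000 ≤ l
  L1 : 20 * l + 1000 ≤ L
  lL : 100000 * (l * L) ≤ κ * P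
  lk : 100 * (k + 1) * (l + 10) ≤ P
  lC : 6 ≤ κ * l ^ C

theorem exists_NS (k : ℕ) {κ : ℝ} (hκ : 0 < κ) (hκ1 : κ ≤ 1 / 8) {C : ℕ} (hC : 2 ≤ C) :
    ∃ l0 : ℝ, ∀ l, l0 ≤ l → NS k κ C l (Real.exp l) (Real.exp l / l ^ C) := by
  have h1 := (Real.tendsto_exp_div_pow_atTop (C + 1)).eventually_ge_atTop (1020 : ℝ)
  have h2 := (Real.tendsto_exp_div_pow_atTop 1).eventually_ge_atTop (1100 * (k + 1) : ℝ)
  obtain ⟨a, ha⟩ := (h1.and h2).exists_forall_of_atTop
  refine ⟨max a (max 1000000 (100000 / κ)), fun l hl => ?_⟩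
  have hla : a ≤ l := (le_max_left _ _).trans hl
  have hl1 : 1000000 ≤ l := (le_max_left _ _).trans ((le_max_right _ _).trans hl)
  have hlk : 100000 / κ ≤ l := (le_max_right _ _).trans ((le_max_right _ _).trans hl)
  obtain ⟨e1, e2⟩ := ha l hla
  have hlpos : 0 < l := by linarith
  have hl1' : 1 ≤ l := by linarith
  rw [div_le_iff₀ hκ] at hlk
  have hCpow : 0 < l ^ C := pow_pos hlpos C
  refine ⟨hκ, hκ1, rfl, rfl, hl1, ?_, ?_, ?_, ?_⟩
  · have e3 : Real.exp l / l ^ C = l * (Real.exp l / l ^ (C + 1)) := by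
      rw [pow_succ]; field_simp
    rw [e3]
    nlinarith
  · have e3 : l * (Real.exp l / l ^ C) ≤ Real.exp l / l := by
      obtain ⟨c, rfl⟩ : ∃ c, C = 2 + c := ⟨C - 2, by omega⟩
      have e4 : l * (Real.exp l / l ^ (2 + c)) = Real.exp l / l * (1 / l ^ c) := by
        rw [pow_add]; field_simp
      rw [e4]
      have e5 : 1 / l ^ c ≤ 1 := by
        rw [div_le_one (pow_pos hlpos c)]
        exact one_le_pow₀ hl1'
      have e6 : 0 ≤ Real.exp l / l := by positivity
      nlinarith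
    have e4 : 100000 * (Real.exp l / l) ≤ κ * Real.exp l := by
      rw [← mul_div_assoc, div_le_iff₀ hlpos]
      have := Real.exp_pos l
      nlinarith
    linarith
  · rw [pow_one] at e2; rw [le_div_iff₀ hlpos] at e2
    have : (100 : ℝ) * (k + 1) * (l + 10) ≤ 1100 * (k + 1) * l := by
      have : (0 : ℝ) ≤ k := Nat.cast_nonneg k
      nlinarith
    linarith
  · have e3 : l ≤ l ^ C := le_self_pow₀ hl1' (by omega)
    nlinarith

variable {k : ℕ} {κ : ℝ} {C : ℕ} {l P L : ℝ}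

theorem NS.logP (h : NS k κ C l P L) : Real.log P = l := by rw [h.hP, Real.log_exp]

theorem NS.Ppos (h : NS k κ C l P L) : 0 < P := by rw [h.hP]; exact Real.exp_pos _

theorem NS.P1 (h : NS k κ C l P L) : 1000000 ≤ P := by
  rw [h.hP]
  have := Real.add_one_le_exp l
  have := h.l1
  linarith

theorem NS.lP (h : NS k κ C l P L) : 2 * l ≤ P := by
  have h1 := h.lk
  have h2 := h.l1
  have : (0 : ℝ) ≤ k := Nat.cast_nonneg k
  nlinarith

theorem NS.LP (h : NS k κ C l P L) : 1000000 * L ≤ P := by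
  have h1 := h.lL
  have h2 := h.l1
  have h3 := h.L1
  have h4 := h.hκ1
  have h5 := h.Ppos
  have h6 : 0 ≤ L := by linarith
  have h7 : 1000000 * L ≤ l * L := mul_le_mul_of_nonneg_right h2 h6
  nlinarith

theorem mem_WS {P : ℝ} {p : ℕ} (hp : p ∈ WS P) : p.Prime ∧ (p : ℝ) ≤ P ^ 2 := by
  unfold WS at hp
  obtain ⟨h1, h2⟩ := Finset.mem_filter.1 hp
  refine ⟨h2, ?_⟩
  have h3 : p ≤ ⌊P ^ 2⌋₊ := Nat.lt_succ_iff.1 (mem_range.1 h1)
  exact (Nat.le_floor_iff (by positivity)).1 h3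

theorem card_WS (P : ℝ) : ((WS P).card : ℝ) ≤ P ^ 2 := by
  have h1 : WS P ⊆ Finset.Icc 1 ⌊P ^ 2⌋₊ := by
    intro p hp
    have h2 := mem_WS hp
    refine Finset.mem_Icc.2 ⟨h2.1.one_lt.le, ?_⟩
    unfold WS at hp
    exact Nat.lt_succ_iff.1 (mem_range.1 (Finset.mem_filter.1 hp).1)
  have h2 := Finset.card_le_card h1
  rw [Nat.card_Icc] at h2
  have h3 : (WS P).card ≤ ⌊P ^ 2⌋₊ := by omega
  exact (Nat.cast_le.2 h3).trans (Nat.floor_le (by positivity))

/-- the parameters of target S -/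
noncomputable def PSS (lam : ℕ → ℕ) (κ : ℝ) (C : ℕ) (P : ℝ) : Par ℕ :=
  ParS (WS P) lam (lamS / Real.log P) xiS (etaS κ C P) (100 * (P / Real.log P ^ C))
    (2 * (P / Real.log P ^ C)) ⌈Real.exp (P / 4)⌉₊

theorem NS.eta (h : NS k κ C l P L) : 0 < etaS κ C P ∧ etaS κ C P ≤ 1 := by
  unfold etaS
  rw [h.logP]
  have h1 := h.lC
  have h2 : 0 < κ * l ^ C := by linarith
  exact ⟨by positivity, by rw [div_le_one h2]; exact h1⟩

theorem NS.Mm (h : NS k κ C l P L) : (⌈Real.exp (P / 4)⌉₊ : ℝ) ≤ 2 * Real.exp (P / 4) := by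
  have h1 := Nat.ceil_lt_add_one (Real.exp_pos (P / 4)).le
  have h2 : 1 ≤ Real.exp (P / 4) := Real.one_le_exp (by have := h.Ppos; linarith)
  linarith

theorem NS.ok (h : NS k κ C l P L) {lam : ℕ → ℕ} {j : ℕ} (hl : LamOk lam j) :
    Ok (PSS lam κ C P) := by
  have hl1 : 1 ≤ l := by have := h.l1; linarith
  have hL1 : 1 ≤ L := by have := h.L1; linarith
  have hW : ∀ p ∈ WS P, p.Prime := fun p hp => (mem_WS hp).1
  unfold PSS
  rw [h.logP, ← h.hL]
  refine Ok_ParS (k := j) hW hl (by unfold lamS; positivity) (by unfold xiS; norm_num) h.eta.1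
    h.eta.2 ?_ (by positivity) (by positivity) ?_
  · have h1 : (2 : ℝ) ≤ (⌈Real.exp (P / 4)⌉₊ : ℝ) := by
      refine le_trans ?_ (Nat.le_ceil _)
      have h2 := Real.add_one_le_exp (P / 4)
      have h3 := h.P1
      linarith
    exact_mod_cast h1
  · intro M x hMM hx hb
    have h1 := HB_S (lam0 := lamS) (xi := xiS) hl1 hL1 (by unfold lamS; norm_num)
      (by unfold lamS; norm_num) (by unfold xiS; norm_num) (by unfold xiS; norm_num) (WS P)
      (fun p hp => (hW p hp).pos) (fun p hp q hq hpq =>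
        (Nat.coprime_primes (hW p hp) (hW q hq)).2 hpq) (fun p hp => by
        have h2 := (mem_WS hp).2
        rw [h.hP, ← Real.exp_nat_mul] at h2
        exact_mod_cast h2) (Mm := ⌈Real.exp (P / 4)⌉₊) (by
        refine le_trans (Real.exp_le_exp.2 ?_) (Nat.le_ceil _)
        have h2 := h.lL
        have h3 := h.hκ1
        have h4 := h.Ppos
        have h5 := h.lk
        have h6 : (0 : ℝ) ≤ k := Nat.cast_nonneg k
        nlinarith) 1 M x hMM hx hb
    have h2 : ∑ p ∈ WS P, H599.omS xiS p 1 (rs (sp x M) p) = xiS * ∑ p ∈ WS P, zc x M p := by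
      rw [Finset.mul_sum]
      refine Finset.sum_congr rfl fun p hp => ?_
      unfold H599.omS zc
      rw [sdiff_rs hx (hW p hp).pos]
    rw [h2, ← Finset.mul_sum] at h1
    exact h1

theorem exp_mul_le {A B c : ℝ} (h : A + c ≤ B) : Real.exp c * Real.exp A ≤ Real.exp B := by
  rw [← Real.exp_add]
  exact Real.exp_le_exp.2 (by linarith)

theorem NS.P2 (h : NS k κ C l P L) : P ^ 2 = Real.exp (2 * l) := by
  rw [h.hP, ← Real.exp_nat_mul]; norm_num

theorem NS.P3 (h : NS k κ C l P L) : P ^ 3 = Real.exp (3 * l) := by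
  rw [h.hP, ← Real.exp_nat_mul]; norm_num

/-- the error term -/
theorem NS.err (h : NS k κ C l P L) {lam : ℕ → ℕ} {j : ℕ} (hl : LamOk lam j) {M : ℕ}
    (hM1 : 1 ≤ M) (hM : (M : ℝ) ≤ Real.exp P) :
    Err (PSS lam κ C P) M L (xiS * (WS P).card) (Real.exp P) (Real.exp (-(P / 2))) ≤
      Real.exp (-(20 * L)) := by
  have hl1 := h.l1
  have hL1 := h.L1
  have hP1 := h.P1
  have hLP := h.LP
  have hlP := h.lP
  have hcard := card_WS P
  have hlogM : Real.log M ≤ P := by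
    have := Real.log_le_log (show (0 : ℝ) < M by exact_mod_cast hM1) hM
    rwa [Real.log_exp] at this
  have hlogM0 : 0 ≤ Real.log M := Real.log_nonneg (by exact_mod_cast hM1)
  have hc0 : 0 ≤ lamS / Real.log P := by rw [h.logP]; unfold lamS; positivity
  have hc01 : lamS / Real.log P ≤ 1 := by
    rw [h.logP, div_le_one (by linarith)]
    unfold lamS
    linarith
  have hC1 : C1 (PSS lam κ C P) ≤ P ^ 2 := by
    unfold C1 PSS ParS
    rw [Finset.sum_const, nsmul_eq_mul]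
    have : (0 : ℝ) ≤ (WS P).card := Nat.cast_nonneg _
    nlinarith
  have hC10 : 0 ≤ C1 (PSS lam κ C P) := C1_nonneg (h.ok hl)
  have hCs : Cs (PSS lam κ C P) ≤ P ^ 3 := by
    have e1 : Cs (PSS lam κ C P) ≤ ∑ _p ∈ WS P, P := by
      unfold Cs PSS ParS
      refine Finset.sum_le_sum fun p hp => ?_
      have h2 := mem_WS hp
      have h3 : Real.log p ≤ 2 * l := by
        have := Real.log_le_log (show (0 : ℝ) < p by exact_mod_cast h2.1.pos) h2.2
        rwa [h.P2, Real.log_exp] at this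
      have h4 : 0 ≤ Real.log p := Real.log_nonneg (by exact_mod_cast h2.1.one_lt.le)
      show lamS / Real.log P * Real.log p ≤ P
      nlinarith
    refine e1.trans ?_
    rw [Finset.sum_const, nsmul_eq_mul]
    have : P ^ 3 = P ^ 2 * P := by ring
    rw [this]
    exact mul_le_mul_of_nonneg_right hcard h.Ppos.le
  have hCs0 : 0 ≤ Cs (PSS lam κ C P) := Cs_nonneg (h.ok hl)
  have hD : (PSS lam κ C P).D0 / 4 = 25 * L := by
    unfold PSS ParS
    show 100 * (P / Real.log P ^ C) / 4 = 25 * L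
    rw [h.logP, ← h.hL]; ring
  have hE : (PSS lam κ C P).E1 = 2 * L := by
    unfold PSS ParS
    show 2 * (P / Real.log P ^ C) = 2 * L
    rw [h.logP, ← h.hL]
  unfold Err t1
  rw [hD, hE, Real.log_exp]
  have he : 0 < Real.exp (-(25 * L)) := Real.exp_pos _
  have hPP : P ≤ P ^ 3 := le_self_pow₀ (by linarith) (by norm_num)
  have hPP2 : P ^ 2 ≤ P ^ 3 := pow_le_pow_right₀ (by linarith) (by norm_num)
  have hxi : xiS * (WS P).card ≤ P ^ 2 := by
    unfold xiS
    nlinarith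
  have b1 : Cs (PSS lam κ C P) + 2 * L + 2 * (2 * L) ≤ 2 * P ^ 3 := by nlinarith
  have b2 : 2 * Real.log M + xiS * (WS P).card + 2 * C1 (PSS lam κ C P) * P +
      2 * C1 (PSS lam κ C P) * (1 + 25 * L + Real.log M) ≤ 10 * P ^ 3 := by
    have e1 : 2 * C1 (PSS lam κ C P) * P ≤ 2 * P ^ 3 := by
      have : P ^ 3 = P ^ 2 * P := by ring
      rw [this]
      nlinarith [h.Ppos]
    have e2 : 1 + 25 * L + Real.log M ≤ 2 * P := by linarith
    have e3 : 2 * C1 (PSS lam κ C P) * (1 + 25 * L + Real.log M) ≤ 4 * P ^ 3 := by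
      have h0 : 0 ≤ 1 + 25 * L + Real.log M := by linarith
      have : P ^ 3 = P ^ 2 * P := by ring
      rw [this]
      have e4 : 2 * C1 (PSS lam κ C P) * (1 + 25 * L + Real.log M) ≤
        2 * P ^ 2 * (2 * P) := by gcongr
      linarith
    linarith
  have b3 : 2 * Real.exp (-(25 * L)) * (Cs (PSS lam κ C P) + 2 * L + 2 * (2 * L)) ≤
      4 * (P ^ 3 * Real.exp (-(25 * L))) := by nlinarith
  have b4 : 2 * Real.exp (-(25 * L)) * (2 * Real.log M + xiS * (WS P).card +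
      2 * C1 (PSS lam κ C P) * P + 2 * C1 (PSS lam κ C P) * (1 + 25 * L + Real.log M)) ≤
      20 * (P ^ 3 * Real.exp (-(25 * L))) := by nlinarith
  have b5 : 48 * (P ^ 3 * Real.exp (-(25 * L))) ≤ Real.exp (-(20 * L)) := by
    have e1 : (48 : ℝ) ≤ Real.exp 48 := by have := Real.add_one_le_exp (48 : ℝ); linarith
    have e2 : Real.exp 48 * (P ^ 3 * Real.exp (-(25 * L))) ≤ Real.exp (-(20 * L)) := by
      rw [h.P3, ← Real.exp_add, ← Real.exp_add]
      exact Real.exp_le_exp.2 (by linarith)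
    have e3 : 0 ≤ P ^ 3 * Real.exp (-(25 * L)) := by have := h.Ppos; positivity
    nlinarith
  have b6 : 2 * Real.exp (-(P / 2)) ≤ Real.exp (-(20 * L)) := by
    have e1 : (2 : ℝ) ≤ Real.exp 1 := by have := Real.add_one_le_exp (1 : ℝ); linarith
    have e2 : Real.exp 1 * Real.exp (-(P / 2)) ≤ Real.exp (-(20 * L)) :=
      exp_mul_le (by linarith)
    have e3 := Real.exp_pos (-(P / 2))
    nlinarith
  linarith

end Vale.Agent.P042.H945
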