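import Vale.Agent.P042.H945.PLawB
import Vale.Agent.P042.H860.Glue
import Vale.Agent.P042.H736.MatchT
set_option autoImplicit false
set_option linter.unusedSectionVars false

/-!
P042, power regime, law side, part 3: `H92.PLaw` for the two cells of an instance (`H860.Inst`),
any system of moduli.
-/

namespace Vale.Agent.P042.H945

open Finset Polynomial
open Vale.Agent.P042.H599 (cm Law bwt FamOk)
open Vale.Agent.P042.H858 (pf)
open Vale.Agent.P042.H438 (Rs uw)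
open Vale.Agent.P042.H92 (Prm PLaw)
open Vale.Agent.P042.H362 (FP StF1 AtF QL)
open Vale.Agent.P042.H860 (Inst Typ mem_Typ rn)
open Vale.Agent.P042.H739 (Tst)

section

variable {ι : Type} {q : ι → ℕ} [∀ i, NeZero (q i)]

/-- the residues modulo pairwise coprime moduli -/
theorem rs_rn (h2 : ∀ i, 2 ≤ q i) (hc : Pairwise fun i j => (q i).Coprime (q j)) :
    Rs q (rn q) where
  two := h2
  cop := hc
  r_iff := fun i n m => ZMod.natCast_eq_natCast_iff n m (q i)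
  card := fun i => ZMod.card (q i)

/-- a system of moduli for an instance: `S` = the typed primes -/
structure SysI (I : Inst) {ι : Type} (q : ι → ℕ) (S : Finset ι) : Prop where
  two : ∀ i, 2 ≤ q i
  cop : Pairwise fun i j => (q i).Coprime (q j)
  mem : ∀ i ∈ S, q i ∈ Typ I.K0 I.C1 I.P
  all : ∀ p ∈ Typ I.K0 I.C1 I.P, ∃ i, q i = p
  out : ∀ i, i ∉ S → ∀ p ∈ Typ I.K0 I.C1 I.P, ¬ p ∣ q i
  q0 : ∀ i, (q i).Coprime I.q0

variable {I : Inst} {κ : ℝ} {S : Finset ι}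

theorem typ_not_dvd_q0 (h : H860.Ok I κ) {p : ℕ} (hp : p ∈ Typ I.K0 I.C1 I.P) : ¬ p ∣ I.q0 := by
  intro hd
  obtain ⟨_, h1, h2⟩ := mem_Typ.1 hp
  have h3 := h.tiny.mem_of_dvd_qnul h1 hd
  simp only [Tst, mem_filter, mem_range] at h3
  omega

/-- the cells of an instance -/
theorem wcell_i (h : H860.Ok I κ) (hs : SysI I q S) {z : ℕ} (w : ZMod I.q0)
    (hz : z + I.h0 ≤ I.N) (hd : (I.h0 : ℝ) / 2 ≤ I.q0 * H359.cmass I.G I.q0 w z I.h0) :
    WCell S q (rn q) (Typ I.K0 I.C1 I.P) I.mu I.N I.q0 w.val (z + 1) (z + I.h0) where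
  rs := rs_rn hs.two hs.cop
  prime := fun p hp => (mem_Typ.1 hp).2.1
  inS := hs.mem
  outS := hs.out
  cop := hs.q0
  copW := fun p hp => typ_not_dvd_q0 h hp
  D1 := h.q0_pos
  w := by
    have : NeZero I.q0 := ⟨by have := h.q0_pos; omega⟩
    exact ZMod.val_lt w
  u1 := by omega
  vM := hz
  big := by
    have h1 : z + I.h0 + 1 - (z + 1) = I.h0 := by omega
    rw [h1]
    exact_mod_cast h.hN
  dens := by
    have : NeZero I.q0 := ⟨by have := h.q0_pos; omega⟩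
    have h1 : z + I.h0 + 1 - (z + 1) = I.h0 := by omega
    rw [h1]
    rw [H359.cmass_eq h.hG w hz] at hd
    refine hd.trans (le_of_eq ?_)
    ring

variable [Fintype ι] [DecidableEq ι] {κ' : Type} {qp : FP} {fm : Vale.Agent.P042.H599.Fam κ'}
  {Dm Lq : ℝ} {Q : Prm}

/-- **the two laws of an instance** -/
theorem law_inst (h : H860.Ok I κ) (hs : SysI I q S)
    (st : StF1 (Typ I.K0 I.C1 I.P) qp fm I.f I.N I.mu Dm Lq) {Mm : ℕ} (hf : FamOk fm Mm)
    (K : WNum Q (Typ I.K0 I.C1 I.P) qp I.q0 I.N Dm Lq) {es : ι → ℝ}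
    (hes : ∀ i ∈ S, Real.log (q i) ≤ es i) {K0 : ℕ} (hK0 : K0 ≤ I.K0)
    (hfam : H103.FamNum fm Q (Typ I.K0 I.C1 I.P) K0 Q.a0 Dm) :
    PLaw Q S (fun i => Real.log (q i)) es (lamR S q (rn q) I.mu I.N) (uw q)
        (pf (rn q) I.nu1 1 I.N) ∧
      PLaw Q S (fun i => Real.log (q i)) es (lamR S q (rn q) I.mu I.N) (uw q)
        (pf (rn q) I.nu2 1 I.N) := by
  have hon : H103.FamOn fm Q S es q I.q0 Q.a0 Dm := by
    refine H103.famOn_of hfam (fun i hi => ⟨hs.mem i hi, hes i hi⟩) (fun p hp => ⟨?_, hs.all p hp⟩)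
      fun p hp => hK0.trans_lt (mem_Typ.1 hp).2.2
    exact (Nat.Prime.coprime_iff_not_dvd (mem_Typ.1 hp).2.1).2 (typ_not_dvd_q0 h hp)
  exact ⟨plaw_St st hf (wcell_i h hs I.w h.z1N h.ma1) K es hon,
    plaw_St st hf (wcell_i h hs I.w' h.z2N h.ma2) K es hon⟩

end

end Vale.Agent.P042.H945
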