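import Vale.Agent.P042.H945.PLawC
set_option autoImplicit false
set_option linter.unusedSectionVars false

/-!
P042, power regime, law side, part 4: the numbers of `H945.WNum`, for large `P`.
-/

namespace Vale.Agent.P042.H945

open Finset Filter
open Vale.Agent.P042.H92 (Prm)
open Vale.Agent.P042.H362 (FP)
open Vale.Agent.P042.H860 (Typ mem_Typ)

/-- the parameters of the local part at one state: `c0 = kp / 128`, `cD = kp` -/
noncomputable def prmF (P C1 γ a0 θ kp kap d1 G : ℝ) (CK : ℕ) : Prm :=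
  ⟨Real.log P, C1, γ, a0, θ, kp / 128, kp, kap, d1, G, CK⟩

/-- **the numbers of the law side** -/
theorem wnum_ev {k : ℕ} (hk : 2 ≤ k) {C1 γ γs a0 θ κ kap d1 G : ℝ} {CK : ℕ} {qp : FP}
    (hC1 : 1 ≤ C1) (hγ1 : γ ≤ 1) (hγs : 0 < γs) (hγC : γs * C1 ≤ γ) (ha0 : 2 ≤ a0) (hθ : 0 ≤ θ)
    (hθk : θ ≤ 1 / (64 * k)) (hκ : κ ≤ 1 / 2) (hg : qp.g = γs / 16) (hb : qp.b = γs / 16)
    (hga : 0 ≤ qp.ga) (hbe0 : 0 ≤ qp.be) (hbe1 : qp.be ≤ γs / 32) (hkp0 : 0 < qp.kp)
    (hkp1 : qp.kp ≤ γs / 16 / (2560 * C1)) {K0 : ℕ} (hK0 : Real.exp (3 / γ) ≤ K0) (L : ℝ)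
    (hbeL : qp.be * (L + 6) ≤ 1) :
    ∃ P0 : ℝ, ∀ P : ℝ, P0 ≤ P → ∀ D0 M : ℕ, 1 ≤ D0 → Real.log D0 ≤ L →
      (1 - κ) * P ≤ Real.log M →
      WNum (prmF P C1 γ a0 θ qp.kp kap d1 G CK) (Typ K0 C1 P) qp D0 M (qp.kp * P / 64)
        (P / (16 * k)) := by
  have hkr : (2 : ℝ) ≤ k := by exact_mod_cast hk
  have hk0 : (0 : ℝ) < k := by linarith
  have hγ0 : 0 < γ := lt_of_lt_of_le (by positivity) hγC
  have hγsγ : γs ≤ γ := le_trans (le_mul_of_one_le_right hγs.le hC1) hγC
  have hlog : ∀ᶠ P : ℝ in atTop, 8 ≤ Real.log P :=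
    Real.tendsto_log_atTop.eventually (Filter.eventually_ge_atTop 8)
  obtain ⟨P0, hP0⟩ := Filter.eventually_atTop.1 (hlog.and
    ((Filter.eventually_ge_atTop (1 : ℝ)).and
    ((H739.ev_log (16 * C1) 1 one_pos).and
    ((H739.ev_const (|L| + Real.log 1600) (min (1 / (64 * k)) (qp.kp / 128))
      (lt_min (by positivity) (by positivity))).and
    (H739.ev_const (Real.log 200 + |L|) (1 / 4) (by norm_num))))))
  refine ⟨P0, fun P hP D0 M hD0 hDL hM => ?_⟩
  obtain ⟨h8, h1P, h16, hc1, hc2⟩ := hP0 P hP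
  have hPp : 0 < P := by linarith
  have hexp : Real.exp (Real.log P) = P := Real.exp_log hPp
  have hLL : Real.log D0 ≤ |L| := hDL.trans (le_abs_self L)
  have hL0 : 0 ≤ Real.log (D0 : ℝ) := Real.log_natCast_nonneg _
  have hl1600 : (7 : ℝ) ≤ Real.log 1600 := by
    rw [Real.le_log_iff_exp_le (by norm_num)]
    have h1 : Real.exp 1 ≤ 2.72 := by linarith [Real.exp_one_lt_d9]
    have h2 : Real.exp 7 = Real.exp 1 ^ 7 := by rw [← Real.exp_nat_mul]; norm_num
    rw [h2]
    exact (pow_le_pow_left₀ (Real.exp_pos 1).le h1 7).trans (by norm_num)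
  have hl2 : Real.log (2 : ℝ) ≤ 1 := by
    have := Real.log_two_lt_d9
    linarith
  have hl100 : Real.log (100 : ℝ) ≤ 5 := by
    rw [Real.log_le_iff_le_exp (by norm_num)]
    have h1 : (2.7 : ℝ) ≤ Real.exp 1 := by linarith [Real.exp_one_gt_d9]
    have h2 : Real.exp 5 = Real.exp 1 ^ 5 := by rw [← Real.exp_nat_mul]; norm_num
    rw [h2]
    exact le_trans (by norm_num) (pow_le_pow_left₀ (by norm_num) h1 5)
  have hc1a : |L| + Real.log 1600 ≤ P / (64 * k) := by
    refine hc1.trans ?_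
    have h1 : min (1 / (64 * (k : ℝ))) (qp.kp / 128) * P ≤ 1 / (64 * k) * P :=
      mul_le_mul_of_nonneg_right (min_le_left _ _) hPp.le
    refine h1.trans (le_of_eq ?_)
    ring
  have hc1b : |L| + Real.log 1600 ≤ qp.kp * P / 128 := by
    refine hc1.trans ?_
    have h1 : min (1 / (64 * (k : ℝ))) (qp.kp / 128) * P ≤ qp.kp / 128 * P :=
      mul_le_mul_of_nonneg_right (min_le_right _ _) hPp.le
    refine h1.trans (le_of_eq ?_)
    ring
  have habs : 0 ≤ |L| := abs_nonneg L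
  have hMP : P / 2 ≤ Real.log M := by
    refine le_trans ?_ hM
    have h1 : 1 / 2 * P ≤ (1 - κ) * P := mul_le_mul_of_nonneg_right (by linarith) hPp.le
    linarith
  have hΛ : (prmF P C1 γ a0 θ qp.kp kap d1 G CK).Λ = θ * P := by
    unfold Prm.Λ prmF
    rw [hexp]
  have hθP : θ * P ≤ P / (64 * k) := by
    have h1 := mul_le_mul_of_nonneg_right hθk hPp.le
    refine h1.trans (le_of_eq ?_)
    ring
  have hdiv : P / (64 * k) ≤ P / 128 := by
    apply div_le_div_of_nonneg_left hPp.le (by norm_num)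
    linarith
  refine
    { γ1 := fun p hp => ?_
      gγ := ?_
      bγ := ?_
      beγ := ?_
      be0 := hbe0
      b0 := by rw [hb]; positivity
      a0 := ?_
      hDM := ?_
      hDm := ?_
      Dm100 := ?_
      C1 := hC1
      top := fun p hp => ?_
      kp0 := hkp0.le
      DmP := ?_
      logM := ?_
      p8 := h8
      p16 := ?_
      γ2 := ?_
      cD := ?_
      lenN := ?_
      D0s := ?_
      Λ0 := ?_ }
  · show qp.be * Real.log p + (p : ℝ) ^ (-qp.ga) + (qp.g * Real.log p + Real.log 4) ≤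
      γ * Real.log p
    obtain ⟨_, hpp, hpK⟩ := mem_Typ.1 hp
    have hp1 : (1 : ℝ) ≤ p := by exact_mod_cast hpp.one_lt.le
    have h1 : (p : ℝ) ^ (-qp.ga) ≤ 1 := Real.rpow_le_one_of_one_le_of_nonpos hp1 (by linarith)
    have h2 : Real.log 4 ≤ 1.4 := by
      have h3 : Real.log (4 : ℝ) = 2 * Real.log 2 := by
        rw [show (4 : ℝ) = 2 ^ 2 by norm_num, Real.log_pow]
        norm_num
      have := Real.log_two_lt_d9
      linarith
    have h3 : 3 / γ ≤ Real.log p := by
      rw [Real.le_log_iff_exp_le (by linarith)]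
      refine hK0.trans ?_
      exact_mod_cast hpK.le
    have h4 : 3 ≤ γ * Real.log p := by
      rw [div_le_iff₀ hγ0] at h3
      linarith
    have h5 : 0 ≤ Real.log (p : ℝ) := Real.log_nonneg hp1
    have h6 : qp.be * Real.log p ≤ γ / 32 * Real.log p :=
      mul_le_mul_of_nonneg_right (by linarith) h5
    have h7 : qp.g * Real.log p ≤ γ / 16 * Real.log p :=
      mul_le_mul_of_nonneg_right (by rw [hg]; linarith) h5
    have h8 : γ / 32 * Real.log p = γ * Real.log p / 32 := by ring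
    have h9 : γ / 16 * Real.log p = γ * Real.log p / 16 := by ring
    rw [h8] at h6
    rw [h9] at h7
    linarith
  · show qp.g ≤ γ
    rw [hg]; linarith
  · show qp.b ≤ γ
    rw [hb]; linarith
  · show qp.be ≤ γ
    linarith
  · show qp.be * (Real.log D0 + Real.log 100 + 1) + Real.log 2 ≤ a0
    have h1 : qp.be * (Real.log D0 + Real.log 100 + 1) ≤ qp.be * (L + 6) :=
      mul_le_mul_of_nonneg_left (by linarith) hbe0
    linarith
  · rw [hΛ]
    have h1 : P / (16 * k) = 4 * (P / (64 * k)) := by ring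
    have h2 : 0 ≤ P / (64 * k) := by positivity
    rw [h1]
    linarith
  · show qp.kp / 128 * Real.exp (Real.log P) + Real.log 2 ≤ qp.kp * P / 64
    rw [hexp]
    have h1 : qp.kp * P / 64 = 2 * (qp.kp * P / 128) := by ring
    rw [h1]
    linarith
  · have h1 : qp.kp * P / 64 = 2 * (qp.kp * P / 128) := by ring
    rw [h1]
    linarith
  · show (p : ℝ) ≤ Real.exp (Real.log P) ^ C1
    rw [hexp]
    have h1 := (mem_Typ.1 hp).1
    have h2 : (p : ℝ) ≤ (⌊P ^ C1⌋₊ : ℕ) := by exact_mod_cast h1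
    exact h2.trans (Nat.floor_le (Real.rpow_nonneg hPp.le _))
  · show qp.kp * P / 64 ≤ qp.kp / 64 * Real.exp (Real.log P)
    rw [hexp]
    exact le_of_eq (by ring)
  · show Real.exp (Real.log P) / 2 ≤ Real.log M
    rw [hexp]
    exact hMP
  · show 16 * C1 * Real.log P ≤ Real.exp (Real.log P)
    rw [hexp]
    linarith
  · show C1 * qp.b + 1056 * C1 * (qp.kp / 64) ≤ γ
    rw [hb]
    have h1 : C1 * qp.kp ≤ γs / 16 / 2560 := by
      have hC0 : (0 : ℝ) < C1 := by linarith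
      rw [le_div_iff₀ (by positivity)] at hkp1
      rw [le_div_iff₀ (by norm_num)]
      linarith
    have h3 : C1 * (γs / 16) = γs * C1 / 16 := by ring
    have h4 : 1056 * C1 * (qp.kp / 64) = 33 / 2 * (C1 * qp.kp) := by ring
    rw [h3, h4]
    linarith
  · show Real.log 1600 + 32 * (qp.kp * P / 64) ≤ qp.kp * Real.exp (Real.log P)
    rw [hexp]
    have h1 : qp.kp * P = 128 * (qp.kp * P / 128) := by ring
    have h2 : 32 * (qp.kp * P / 64) = 64 * (qp.kp * P / 128) := by ring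
    rw [h2, h1]
    have h3 : 0 ≤ qp.kp * P / 128 := by positivity
    linarith
  · rw [hΛ]
    linarith
  · have h1 : qp.kp * P / 64 = 2 * (qp.kp * P / 128) := by ring
    have h3 : 0 ≤ qp.kp * P / 128 := by positivity
    rw [h1]
    linarith
  · rw [hΛ]
    positivity

end Vale.Agent.P042.H945
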