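import Vale.Agent.P042.H945.NumS
import Vale.Agent.P042.H945.Base
import Vale.Agent.P042.H599.Thin
set_option autoImplicit false

/-!
P042, target S: every dense set without differences yields a state `StS`.
-/

namespace Vale.Agent.P042.H945

open Finset Polynomial Vale.Agent.P042.H599 Vale.Agent.P042.H739

variable {k : ℕ} {κ : ℝ} {C : ℕ} {l P L : ℝ} {lam : ℕ → ℕ} {N d M : ℕ} {A0 : Finset ℤ} {a : ℤ}
  {x : ℕ → ℝ}

theorem exp3 : (8 : ℝ) ≤ Real.exp 3 := by
  have h1 : (2 : ℝ) ≤ Real.exp 1 := by have := Real.add_one_le_exp (1 : ℝ); linarith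
  have h2 : Real.exp 3 = Real.exp 1 ^ 3 := by rw [← Real.exp_nat_mul]; norm_num
  rw [h2]
  nlinarith [mul_le_mul h1 h1 (by norm_num) (Real.exp_pos 1).le]

theorem exp7 : (1000 : ℝ) ≤ Real.exp 10 := by
  have h2 : Real.exp 10 = Real.exp 1 ^ 10 := by rw [← Real.exp_nat_mul]; norm_num
  have h1 : (2 : ℝ) ≤ Real.exp 1 := by have := Real.add_one_le_exp (1 : ℝ); linarith
  rw [h2]
  calc (1000 : ℝ) ≤ 2 ^ 10 := by norm_num
    _ ≤ Real.exp 1 ^ 10 := pow_le_pow_left₀ (by norm_num) h1 10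

theorem NS.kP (h : NS k κ C l P L) : 50 * (2 * l * k) ≤ P ∧ 1000 ≤ P := by
  have h1 := h.lk
  have h2 := h.l1
  have h3 : (0 : ℝ) ≤ k := Nat.cast_nonneg k
  refine ⟨by nlinarith, by nlinarith⟩

theorem NS.lP2 (h : NS k κ C l P L) : 100 * (l + 10) ≤ P := by
  have h1 := h.lk
  have h2 := h.l1
  have h3 : (0 : ℝ) ≤ k := Nat.cast_nonneg k
  nlinarith

theorem NS.Pk (h : NS k κ C l P L) : (P ^ 2) ^ k ≤ Real.exp (P / 50) := by
  rw [h.P2, ← Real.exp_nat_mul]
  refine Real.exp_le_exp.2 ?_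
  have := h.kP.1
  linarith

/-- `P ^ 2 exp (- 20 L)` is tiny -/
theorem NS.tiny (h : NS k κ C l P L) : P ^ 2 * Real.exp (-(20 * L)) ≤ Real.exp (-(18 * L)) ∧
    Real.exp (-(18 * L)) ≤ 1 / 10000000000 := by
  have h1 := h.L1
  have h2 := h.l1
  constructor
  · rw [h.P2]
    exact exp_mul_le (by linarith)
  · rw [Real.exp_neg, ← one_div]
    refine one_div_le_one_div_of_le (by norm_num) ?_
    have := Real.add_one_le_exp (9 * L)
    have h3 : Real.exp (18 * L) = Real.exp (9 * L) ^ 2 := by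
      rw [← Real.exp_nat_mul]; congr 1; push_cast; ring
    rw [h3]
    nlinarith

theorem NS.ss (h : NS k κ C l P L) (hl : LamOk lam k) (hm : Mx (PSS lam κ C P) N A0 d a M x L)
    (hM : Real.exp (7 / 8 * P) ≤ M) (hN : (M : ℝ) ≤ Real.exp P) :
    SS0 (WS P) lam k (lamS / Real.log P) xiS (etaS κ C P) (100 * (P / Real.log P ^ C))
      (2 * (P / Real.log P ^ C)) ⌈Real.exp (P / 4)⌉₊ N A0 d a M x L (P ^ 2) (Real.exp P)
      (Real.exp (-(P / 2))) (Real.exp (-(20 * L))) := by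
  have hl1 := h.l1
  have hL1 := h.L1
  have hP1 := h.P1
  have hlP := h.lP
  have hkP := h.kP
  have hPk := h.Pk
  have hM0 : (0 : ℝ) < M := lt_of_lt_of_le (Real.exp_pos _) hM
  have hM1 : 1 ≤ M := by
    have : 0 < M := by exact_mod_cast hM0
    omega
  have hD : 100 * (P / Real.log P ^ C) / 4 = 25 * L := by
    rw [h.logP, ← h.hL]; ring
  have h25 : Real.exp (-(25 * L)) ≤ Real.exp (-(20 * L)) := Real.exp_le_exp.2 (by linarith)
  obtain ⟨ht1, ht2⟩ := h.tiny
  have hP2 : 0 ≤ P ^ 2 := by positivity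
  have h25' : P ^ 2 * Real.exp (-(25 * L)) ≤ P ^ 2 * Real.exp (-(20 * L)) :=
    mul_le_mul_of_nonneg_left h25 hP2
  refine ⟨fun p hp => (mem_WS hp).1, hl, hm, ?_, ?_, ?_, fun p hp => (mem_WS hp).2, ?_, ?_, ?_, ?_,
    (Real.exp_pos _).le, h.err hl hM1 hN, ?_, ?_⟩
  · rw [h.logP]; unfold lamS; positivity
  · unfold xiS; norm_num
  · rw [h.logP]
    have : lamS / l ≤ 1 / 4 := by
      rw [div_le_iff₀ (by linarith)]
      unfold lamS; linarith
    unfold xiS
    linarith
  · exact one_le_pow₀ (by linarith)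
  · have h1 := h.Mm
    have h2 : 4 * (⌈Real.exp (P / 4)⌉₊ : ℝ) * (P ^ 2) ^ k ≤
        Real.exp 3 * (Real.exp (P / 4) * Real.exp (P / 50)) := by
      have h3 : (⌈Real.exp (P / 4)⌉₊ : ℝ) * (P ^ 2) ^ k ≤
          (2 * Real.exp (P / 4)) * Real.exp (P / 50) :=
        mul_le_mul h1 hPk (by positivity) (by positivity)
      have h4 := exp3
      have h5 : 0 < Real.exp (P / 4) * Real.exp (P / 50) := by positivity
      nlinarith
    refine h2.trans (le_trans ?_ hM)
    rw [← Real.exp_add, ← Real.exp_add]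
    exact Real.exp_le_exp.2 (by linarith)
  · have h1 := exp3
    have h2 : Real.exp 3 * P ^ 2 ≤ Real.exp P := by
      rw [h.P2]
      exact exp_mul_le (by have := h.lP2; linarith)
    have h3 : 0 ≤ P ^ 2 := by positivity
    nlinarith
  · rw [div_le_iff₀ hM0]
    have h2 : Real.exp (P / 50) ≤ Real.exp (-(P / 2)) * Real.exp (7 / 8 * P) := by
      rw [← Real.exp_add]
      exact Real.exp_le_exp.2 (by linarith)
    have h3 := mul_le_mul_of_nonneg_left hM (Real.exp_pos (-(P / 2))).le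
    linarith
  · rw [hD]
    unfold xiS
    nlinarith [Real.exp_pos (-(20 * L))]
  · rw [hD]
    unfold xiS
    nlinarith [Real.exp_pos (-(20 * L))]

/-- the tiny part is at most `eta / 20` -/
theorem NS.tt (h : NS k κ C l P L) :
    TT (WS P) (lamS / Real.log P) xiS (100 * (P / Real.log P ^ C)) (P ^ 2)
      (Real.exp (-(20 * L))) ≤ etaS κ C P / 20 := by
  have hl1 := h.l1
  have hL1 := h.L1
  have hP1 := h.P1
  have hlP := h.lP
  have hLP := h.LP
  have hL0 : 0 < L := by linarith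
  have hD : 100 * (P / Real.log P ^ C) / 4 = 25 * L := by
    rw [h.logP, ← h.hL]; ring
  have h25 : Real.exp (-(25 * L)) ≤ Real.exp (-(20 * L)) := Real.exp_le_exp.2 (by linarith)
  have hcard := card_WS P
  have hcard0 : (0 : ℝ) ≤ (WS P).card := Nat.cast_nonneg _
  have hP2 : 1 ≤ P ^ 2 := one_le_pow₀ (by linarith)
  -- eta from below
  have hη : 48 * Real.exp (-l) ≤ etaS κ C P := by
    unfold etaS
    rw [h.logP]
    have h1 : 0 < l ^ C := pow_pos (by linarith) C
    have h2 : (1 : ℝ) / l ^ C = L / P := by rw [h.hL]; have := h.Ppos; field_simp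
    have h3 : 6 / (κ * l ^ C) = 6 / κ * (1 / l ^ C) := by
      have := h.hκ; field_simp
    have h4 : 48 ≤ 6 / κ := by rw [le_div_iff₀ h.hκ]; have := h.hκ1; linarith
    have h5 : Real.exp (-l) ≤ L / P := by
      rw [h.hP, Real.exp_neg, ← one_div]
      exact div_le_div_of_nonneg_right (by linarith) (Real.exp_pos _).le
    rw [h3, h2]
    exact mul_le_mul h4 h5 (Real.exp_pos _).le (by positivity)
  unfold TT t2
  rw [hD]
  obtain ⟨E, hE⟩ : ∃ E, E = Real.exp (-(20 * L)) := ⟨_, rfl⟩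
  have hE0 : 0 < E := by rw [hE]; exact Real.exp_pos _
  rw [← hE] at h25 ⊢
  have hF0 := Real.exp_pos (-(25 * L))
  have hc0 : 0 ≤ lamS / Real.log P := by rw [h.logP]; unfold lamS; positivity
  have hc01 : lamS / Real.log P ≤ 1 := by
    rw [h.logP, div_le_one (by linarith)]
    unfold lamS
    linarith
  have b1 : (WS P).card * (2 * (E + 2 * P ^ 2 * Real.exp (-(25 * L)))) ≤ P ^ 2 * (6 * P ^ 2 * E) := by
    refine mul_le_mul hcard ?_ (by positivity) (by positivity)
    nlinarith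
  have b2 : (WS P).card * (4 * P ^ 2 * Real.exp (-(25 * L)) / xiS) ≤
      P ^ 2 * (640000 * P ^ 2 * E) := by
    refine mul_le_mul hcard ?_ (by unfold xiS; positivity) (by positivity)
    rw [div_le_iff₀ (by unfold xiS; norm_num)]
    unfold xiS
    nlinarith
  have b3 : lamS / Real.log P * ((WS P).card * (4 * P ^ 2 * Real.exp (-(25 * L)) / xiS)) ≤
      1 * (P ^ 2 * (640000 * P ^ 2 * E)) :=
    mul_le_mul hc01 b2 (by unfold xiS; positivity) (by norm_num)
  have b4 : E + 2 * Real.exp (-(25 * L)) ≤ 3 * (P ^ 2 * P ^ 2 * E) := by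
    have h1 : 1 ≤ P ^ 2 * P ^ 2 := by nlinarith
    nlinarith
  have b5 : 1000000 * (P ^ 2 * P ^ 2 * E) ≤ Real.exp (-l) := by
    have e1 : (1000000 : ℝ) ≤ Real.exp l := by have := Real.add_one_le_exp l; linarith
    have e2 : Real.exp l * (P ^ 2 * P ^ 2 * E) ≤ Real.exp (-l) := by
      rw [hE, h.P2, ← Real.exp_add, ← Real.exp_add, ← Real.exp_add]
      exact Real.exp_le_exp.2 (by linarith)
    have e3 : 0 ≤ P ^ 2 * P ^ 2 * E := by positivity
    nlinarith
  have b6 : P ^ 2 * (6 * P ^ 2 * E) + 3 * (P ^ 2 * P ^ 2 * E) + 1 * (P ^ 2 * (640000 * P ^ 2 * E)) ≤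
      1000000 * (P ^ 2 * P ^ 2 * E) := by
    have e3 : 0 ≤ P ^ 2 * P ^ 2 * E := by positivity
    nlinarith
  have b7 := Real.exp_pos (-l)
  linarith

/-- the extremal state of target S -/
structure SE (k : ℕ) (κ : ℝ) (C : ℕ) (l P L : ℝ) (lam : ℕ → ℕ) (N : ℕ) (A0 : Finset ℤ) (d : ℕ)
    (a : ℤ) (M : ℕ) (x : ℕ → ℝ) : Prop where
  ns : NS k κ C l P L
  k2 : 2 ≤ k
  hl : LamOk lam k
  mx : Mx (PSS lam κ C P) N A0 d a M x L
  hM : Real.exp (7 / 8 * P) ≤ M
  hN : (M : ℝ) ≤ Real.exp P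

/-- the law of the state -/
noncomputable def mus (C : ℕ) (P : ℝ) (M : ℕ) (x : ℕ → ℝ) : ℕ → ℝ :=
  core x M (100 * (P / Real.log P ^ C))

theorem log1000 : Real.log 1000 ≤ 694 / 100 := by
  have h1 : Real.log 1000 ≤ Real.log ((2 : ℝ) ^ 10) := Real.log_le_log (by norm_num) (by norm_num)
  rw [Real.log_pow] at h1
  have h2 := Real.log_two_lt_d9
  push_cast at h1
  linarith

variable {D w u v : ℕ}

/-- sizes in the cell inequality -/
theorem SE.sizes (s : SE k κ C l P L lam N A0 d a M x) (hD : 1 ≤ D)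
    (hDP : (D : ℝ) ≤ Real.exp (P / (4 * k))) (hMV : M ≤ 1000 * (v + 1 - u)) :
    (D : ℝ) ≤ Real.exp (P / 8) ∧ (lam D : ℝ) ≤ Real.exp (P / 4) ∧
      Real.exp (7 / 8 * P - 10) ≤ ((v + 1 - u : ℕ) : ℝ) := by
  have hk : (2 : ℝ) ≤ k := by exact_mod_cast s.k2
  have hP := s.ns.Ppos
  have h1 : (D : ℝ) ≤ Real.exp (P / 8) := by
    refine hDP.trans (Real.exp_le_exp.2 ?_)
    exact div_le_div_of_nonneg_left hP.le (by norm_num) (by linarith)
  have h2 : (lam D : ℝ) ≤ Real.exp (P / 4) := by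
    have h3 : (lam D : ℝ) ≤ (D : ℝ) ^ k := by
      exact_mod_cast Nat.le_of_dvd (Nat.pow_pos hD) (s.hl.dvdk D hD)
    refine h3.trans ?_
    have h4 : (D : ℝ) ^ k ≤ Real.exp (P / (4 * k)) ^ k :=
      pow_le_pow_left₀ (Nat.cast_nonneg _) hDP k
    refine h4.trans ?_
    rw [← Real.exp_nat_mul]
    refine Real.exp_le_exp.2 (le_of_eq ?_)
    field_simp
  refine ⟨h1, h2, ?_⟩
  have h3 : (M : ℝ) ≤ 1000 * ((v + 1 - u : ℕ) : ℝ) := by exact_mod_cast hMV
  have h4 : Real.exp (7 / 8 * P - 10) * Real.exp 10 = Real.exp (7 / 8 * P) := by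
    rw [← Real.exp_add]; congr 1; ring
  have h5 := exp7
  have h6 := s.hM
  have h7 := Real.exp_pos (7 / 8 * P - 10)
  nlinarith

theorem SE.ss (s : SE k κ C l P L lam N A0 d a M x) :
    SS0 (WS P) lam k (lamS / Real.log P) xiS (etaS κ C P) (100 * (P / Real.log P ^ C))
      (2 * (P / Real.log P ^ C)) ⌈Real.exp (P / 4)⌉₊ N A0 d a M x L (P ^ 2) (Real.exp P)
      (Real.exp (-(P / 2))) (Real.exp (-(20 * L))) :=
  s.ns.ss s.hl s.mx s.hM s.hN

/-- fat cells -/
theorem SE.fatQ (s : SE k κ C l P L lam N A0 d a M x) (hD : 1 ≤ D)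
    (hDP : (D : ℝ) ≤ Real.exp (P / (4 * k))) (hu : 1 ≤ u) (hv : v ≤ M)
    (hMV : M ≤ 1000 * (v + 1 - u)) (hpos : 0 < ms (mus C P M x) M (cl D w u v))
    (hfat : 2 * Real.exp (-(25 * L)) * ((v + 1 - u : ℕ) : ℝ) ≤
      D * ms (mus C P M x) M (cl D w u v) * M) :
    Real.log (D * ms (mus C P M x) M (cl D w u v) * M / ((v + 1 - u : ℕ) : ℝ)) +
      lamS / Real.log P * ∑ p ∈ WS P with ¬ p ∣ D,
        klc (rst (mus C P M x) M (cl D w u v)) (mus C P M x) M p ≤
    etaS κ C P * (2 * k * Real.log D + 7) := by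
  obtain ⟨h1, h2, h3⟩ := s.sizes hD hDP hMV
  have hP1 := s.ns.P1
  have hLP := s.ns.LP
  have hL1 := s.ns.L1
  have hl1 := s.ns.l1
  have hl2 := s.ns.lP2
  have hMm := s.ns.Mm
  have hMpos : (0 : ℝ) < M := lt_of_lt_of_le (Real.exp_pos _) s.hM
  have hVpos : (0 : ℝ) < ((v + 1 - u : ℕ) : ℝ) := lt_of_lt_of_le (Real.exp_pos _) h3
  have hMV' : (M : ℝ) ≤ 1000 * ((v + 1 - u : ℕ) : ℝ) := by exact_mod_cast hMV
  have hD4 : 100 * (P / Real.log P ^ C) / 4 = 25 * L := by
    rw [s.ns.logP, ← s.ns.hL]; ring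
  have e8 := exp3
  have e10 := exp7
  obtain ⟨m, hm⟩ : ∃ m, m = ms (mus C P M x) M (cl D w u v) := ⟨_, rfl⟩
  have hmain := s.ss.fat (D := D) (w := w) (u := u) (v := v) hD hu hv (by
      have e1 : (2 : ℝ) * (⌈Real.exp (P / 4)⌉₊ : ℝ) * (lam D : ℝ) ≤ ((v + 1 - u : ℕ) : ℝ) := by
        have e2 : (⌈Real.exp (P / 4)⌉₊ : ℝ) * (lam D : ℝ) ≤
            2 * Real.exp (P / 4) * Real.exp (P / 4) :=
          mul_le_mul hMm h2 (Nat.cast_nonneg _) (by positivity)
        have e3 : Real.exp 3 * (Real.exp (P / 4) * Real.exp (P / 4)) ≤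
            Real.exp (7 / 8 * P - 10) := by
          rw [← Real.exp_add, ← Real.exp_add]
          exact Real.exp_le_exp.2 (by linarith)
        have e4 : 0 < Real.exp (P / 4) * Real.exp (P / 4) := by positivity
        nlinarith
      exact_mod_cast e1) hpos (by rw [hD4]; exact hfat) (by
      change 2 / ms (mus C P M x) M (cl D w u v) ≤ Real.exp P
      rw [← hm] at hpos hfat ⊢
      rw [div_le_iff₀ hpos]
      have e1 : 2 * Real.exp (-(25 * L)) * Real.exp (7 / 8 * P - 10) ≤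
          Real.exp (P / 8) * m * Real.exp P := by
        calc 2 * Real.exp (-(25 * L)) * Real.exp (7 / 8 * P - 10)
            ≤ 2 * Real.exp (-(25 * L)) * ((v + 1 - u : ℕ) : ℝ) := by gcongr
          _ ≤ D * m * M := hfat
          _ ≤ Real.exp (P / 8) * m * Real.exp P := by
              have := s.hN
              gcongr
      have e2 : Real.exp (P / 8) ≤ Real.exp (-(25 * L)) * Real.exp (7 / 8 * P - 10) := by
        rw [← Real.exp_add]
        exact Real.exp_le_exp.2 (by linarith)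
      have e3 := Real.exp_pos (P / 8)
      have e4 : Real.exp (P / 8) * 2 ≤ Real.exp (P / 8) * (Real.exp P * m) := by nlinarith
      exact le_of_mul_le_mul_left e4 e3) (by
      rw [div_le_iff₀ hVpos]
      have e1 : Real.exp (P / 4) ≤ Real.exp (-(P / 2)) * Real.exp (7 / 8 * P - 10) := by
        rw [← Real.exp_add]
        exact Real.exp_le_exp.2 (by linarith)
      have e2 : Real.exp (-(P / 2)) * Real.exp (7 / 8 * P - 10) ≤
          Real.exp (-(P / 2)) * ((v + 1 - u : ℕ) : ℝ) := by gcongr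
      linarith)
  have hη := s.ns.eta.1
  have htt := s.ns.tt
  have hlog : Real.log M - Real.log ((v + 1 - u : ℕ) : ℝ) ≤ 694 / 100 := by
    have e1 := Real.log_le_log hMpos hMV'
    rw [Real.log_mul (by norm_num) hVpos.ne'] at e1
    have := log1000
    linarith
  have e5 : etaS κ C P * (Real.log M - Real.log ((v + 1 - u : ℕ) : ℝ)) ≤
      etaS κ C P * (694 / 100) := mul_le_mul_of_nonneg_left hlog hη.le
  refine le_trans hmain ?_
  have e6 : 2 * (etaS κ C P * (k * Real.log D)) = etaS κ C P * (2 * k * Real.log D) := by ring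
  rw [e6, mul_add]
  linarith

theorem SE.law (s : SE k κ C l P L lam N A0 d a M x) : Law (mus C P M x) 1 M := s.ss.core_law

theorem SE.out (s : SE k κ C l P L lam N A0 d a M x) (n : ℕ) (h : mus C P M x n ≠ 0) :
    1 ≤ n ∧ n ≤ M ∧ a + lam d * n ∈ A0 := by
  have h' : rst x M (fun n => M * x n ≤ Real.exp (100 * (P / Real.log P ^ C) / 2)) n ≠ 0 := h
  exact s.mx.mx.1.supp n (rst_ne h').2

theorem SE.cap (s : SE k κ C l P L lam N A0 d a M x) (n : ℕ) :
    mus C P M x n ≤ Real.exp (50 * L + 1) / M := by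
  classical
  have hMpos : (0 : ℝ) < M := lt_of_lt_of_le (Real.exp_pos _) s.hM
  obtain ⟨h1, h2, h3⟩ := s.ss.beta
  have h4 := s.ss.e0small.2
  by_cases hn : M * x n ≤ Real.exp (100 * (P / Real.log P ^ C) / 2)
  · have h5 : mus C P M x n = x n / ms x M
      (fun n => M * x n ≤ Real.exp (100 * (P / Real.log P ^ C) / 2)) :=
      rst_val (S := fun n => M * x n ≤ Real.exp (100 * (P / Real.log P ^ C) / 2)) hn
    rw [h5, div_le_div_iff₀ h3 hMpos]
    have h6 : 100 * (P / Real.log P ^ C) / 2 = 50 * L := by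
      rw [s.ns.logP, ← s.ns.hL]; ring
    rw [h6] at hn
    have h7 : Real.exp (50 * L) * 2 ≤ Real.exp (50 * L + 1) := by
      rw [Real.exp_add]
      have h8 : (2 : ℝ) ≤ Real.exp 1 := by have := Real.add_one_le_exp (1 : ℝ); linarith
      have := Real.exp_pos (50 * L)
      nlinarith
    have h9 : 1 / 2 ≤ ms x M (fun n => M * x n ≤ Real.exp (100 * (P / Real.log P ^ C) / 2)) := by
      linarith
    have h10 : Real.exp (50 * L + 1) * (1 / 2) ≤ Real.exp (50 * L + 1) *
      ms x M (fun n => M * x n ≤ Real.exp (100 * (P / Real.log P ^ C) / 2)) :=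
      mul_le_mul_of_nonneg_left h9 (Real.exp_pos _).le
    linarith
  · have h5 : mus C P M x n = 0 :=
      rst_val0 (S := fun n => M * x n ≤ Real.exp (100 * (P / Real.log P ^ C) / 2)) hn
    rw [h5]
    positivity

theorem SE.atom (s : SE k κ C l P L lam N A0 d a M x) {p : ℕ} (hp : p ∈ WS P) (b : ℕ) :
    cm (mus C P M x) 1 M p b = 0 ∨ xiS / 4 / p ≤ cm (mus C P M x) 1 M p b := by
  obtain ⟨h1, h2⟩ := s.ss.core_atom hp (b := b)
  have hp0 : (0 : ℝ) < p := by exact_mod_cast (mem_WS hp).1.pos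
  by_cases h : cm (mus C P M x) 1 M p b = 0
  · exact Or.inl h
  · right
    rw [div_le_iff₀ hp0, mul_comm]
    exact h1 (h2 h)

theorem hlxS : lamS * (12 + 7 * Real.log (4 / xiS)) ≤ 1 / 20000 := by
  have h1 : Real.log (4 / xiS) ≤ 14 := by
    have h2 : (4 : ℝ) / xiS ≤ 2 ^ 20 := by unfold xiS; norm_num
    have h3 := Real.log_le_log (by unfold xiS; norm_num) h2
    rw [Real.log_pow] at h3
    have h4 := Real.log_two_lt_d9
    push_cast at h3
    linarith
  unfold lamS
  linarith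

/-- thin cells -/
theorem SE.thinQ (s : SE k κ C l P L lam N A0 d a M x) (hD : 1 ≤ D)
    (hDP : (D : ℝ) ≤ Real.exp (P / (4 * k))) (hw : w < D) (hu : 1 ≤ u)
    (hMV : M ≤ 1000 * (v + 1 - u)) (hpos : 0 < ms (mus C P M x) M (cl D w u v))
    (hlow : Real.exp (-(P / (100 * l))) * ((v + 1 - u : ℕ) : ℝ) ≤
      D * ms (mus C P M x) M (cl D w u v) * M)
    (hthin : D * ms (mus C P M x) M (cl D w u v) * M <
      2 * Real.exp (-(25 * L)) * ((v + 1 - u : ℕ) : ℝ)) :
    Real.log (D * ms (mus C P M x) M (cl D w u v) * M / ((v + 1 - u : ℕ) : ℝ)) +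
      lamS / Real.log P * ∑ p ∈ WS P with ¬ p ∣ D,
        klc (rst (mus C P M x) M (cl D w u v)) (mus C P M x) M p ≤
    etaS κ C P * (2 * k * Real.log D + 7) := by
  classical
  obtain ⟨h1, h2, h3⟩ := s.sizes hD hDP hMV
  have hP1 := s.ns.P1
  have hLP := s.ns.LP
  have hL1 := s.ns.L1
  have hl1 := s.ns.l1
  have hl2 := s.ns.lP2
  have hlL := s.ns.lL
  have hκ1 := s.ns.hκ1
  have hMpos : (0 : ℝ) < M := lt_of_lt_of_le (Real.exp_pos _) s.hM
  have hVpos : (0 : ℝ) < ((v + 1 - u : ℕ) : ℝ) := lt_of_lt_of_le (Real.exp_pos _) h3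
  have hDr : (1 : ℝ) ≤ D := by exact_mod_cast hD
  have hll : 100000 * (l * L) ≤ P / 8 := by nlinarith
  obtain ⟨m, hm⟩ : ∃ m, m = ms (mus C P M x) M (cl D w u v) := ⟨_, rfl⟩
  obtain ⟨S, hS⟩ : ∃ S, S = Real.log (((v + 1 - u : ℕ) : ℝ) / (D * M * m)) := ⟨_, rfl⟩
  have hylaw : Law (rst (mus C P M x) M (cl D w u v)) 1 M := rst_law s.law hpos
  have hle : ∀ n, rst (mus C P M x) M (cl D w u v) n ≤ mus C P M x n / m := by
    intro n
    by_cases hn : cl D w u v n
    · rw [rst_val hn, hm]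
    · rw [rst_val0 hn]
      by_cases h0 : mus C P M x n = 0
      · rw [h0, zero_div]
      · obtain ⟨e1, e2, _⟩ := s.out n h0
        have e3 := s.law.nonneg (n - 1) (by omega)
        rw [show 1 + (n - 1) = n by omega] at e3
        rw [hm]
        exact div_nonneg e3 hpos.le
  rw [← hm] at hpos hlow hthin ⊢
  have hDMm : 0 < D * M * m := by positivity
  have hS1 : 20 * L ≤ S := by
    have e1 : Real.exp (20 * L) ≤ ((v + 1 - u : ℕ) : ℝ) / (D * M * m) := by
      rw [le_div_iff₀ hDMm]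
      have e2 : Real.exp (20 * L) * (2 * Real.exp (-(25 * L)) * ((v + 1 - u : ℕ) : ℝ)) ≤
          ((v + 1 - u : ℕ) : ℝ) := by
        have e3 : Real.exp (20 * L) * (Real.exp 1 * Real.exp (-(25 * L))) ≤ 1 := by
          rw [← Real.exp_add, ← Real.exp_add, Real.exp_le_one_iff]
          linarith
        have e4 : (2 : ℝ) ≤ Real.exp 1 := by have := Real.add_one_le_exp (1 : ℝ); linarith
        have e5 : Real.exp (20 * L) * (2 * Real.exp (-(25 * L))) ≤ 1 := by
          refine le_trans ?_ e3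
          gcongr
        have e6 := mul_le_mul_of_nonneg_right e5 hVpos.le
        linarith
      have e7 : Real.exp (20 * L) * (D * m * M) ≤
          Real.exp (20 * L) * (2 * Real.exp (-(25 * L)) * ((v + 1 - u : ℕ) : ℝ)) :=
        mul_le_mul_of_nonneg_left hthin.le (Real.exp_pos _).le
      have e8 : Real.exp (20 * L) * (D * m * M) = Real.exp (20 * L) * (D * M * m) := by ring
      linarith
    have e2 := Real.log_le_log (Real.exp_pos _) e1
    rwa [Real.log_exp, ← hS] at e2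
  have hS2 : l * S ≤ P / 100 := by
    have e1 : S ≤ P / (100 * l) := by
      rw [hS, Real.log_le_iff_le_exp (by positivity), div_le_iff₀ hDMm]
      have e2 : Real.exp (P / (100 * l)) * Real.exp (-(P / (100 * l))) = 1 := by
        rw [← Real.exp_add, add_neg_cancel, Real.exp_zero]
      have e3 := mul_le_mul_of_nonneg_left hlow (Real.exp_pos (P / (100 * l))).le
      rw [← mul_assoc, e2, one_mul] at e3
      linarith
    have e2 : l * (P / (100 * l)) = P / 100 := by field_simp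
    rw [← e2]
    exact mul_le_mul_of_nonneg_left e1 (by linarith)
  have hmain := thin_Q (x := mus C P M x) (y := rst (mus C P M x) M (cl D w u v)) s.law hylaw
    (D := D) (b := w) (u := u) (v := v) hD hw hu
    (fun n hn => by
      have := (rst_ne hn).1
      exact ⟨this.1, this.2.1, this.2.2⟩)
    (l := l) (L := L) (lam0 := lamS) (xi := xiS) (m := m) (s := S) (by linarith) (by linarith)
    (by unfold lamS; norm_num) (by unfold xiS; norm_num) (by unfold xiS; norm_num) hlxS hpos hle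
    hS hS1 (fun i _ => s.cap _)
    (by
      refine le_trans (Real.exp_le_exp.2 ?_) s.hM
      nlinarith)
    (by
      refine le_trans ?_ h3
      have e1 : Real.exp (P / 8) * Real.exp (20 * l * (50 * L + S + 4) + 2) ≤
          Real.exp (7 / 8 * P - 10) := by
        rw [← Real.exp_add]
        refine Real.exp_le_exp.2 ?_
        nlinarith
      refine le_trans ?_ e1
      gcongr)
    (WS P) (fun p hp => (mem_WS hp).1.pos) (fun p hp q hq hpq =>
        (Nat.coprime_primes (mem_WS hp).1 (mem_WS hq).1).2 hpq)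
    (fun p hp => by
      have h2 := (mem_WS hp).2
      rwa [s.ns.P2] at h2)
    (fun p hp a _ => s.atom hp a)
  have hf : (WS P).filter (fun p => ¬ p ∣ D) = (WS P).filter (fun p => Nat.Coprime p D) := by
    refine Finset.filter_congr fun p hp => ?_
    exact ((Nat.Prime.coprime_iff_not_dvd (mem_WS hp).1)).symm
  rw [s.ns.logP, hf]
  have hη := s.ns.eta.1
  have hD0 := Real.log_nonneg hDr
  have h0 : 0 ≤ etaS κ C P * (2 * k * Real.log D + 7) := by positivity
  linarith

theorem SE.st (s : SE k κ C l P L lam N A0 d a M x) : StS1 k κ C P M (mus C P M x) where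
  law := s.law
  out := fun n hn => ⟨(s.out n hn).1, (s.out n hn).2.1⟩
  cap := fun n => by
    rw [s.ns.logP, ← s.ns.hL]
    exact s.cap n
  atom := fun p hp b _ => s.atom hp b
  Q := by
    intro D w u v hD hDP hw hu hv hMV hpos hlow
    rcases le_or_gt (2 * Real.exp (-(25 * L)) * ((v + 1 - u : ℕ) : ℝ))
      (D * ms (mus C P M x) M (cl D w u v) * M) with h1 | h1
    · exact s.fatQ hD hDP hu hv hMV hpos h1
    · exact s.thinQ hD hDP hw hu hMV hpos (by rwa [s.ns.logP] at hlow) h1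

end Vale.Agent.P042.H945
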