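import Vale.Agent.P042.H599.Pack
set_option autoImplicit false

/-!
P042 [D], the extremal state, part 1: relative entropies of two laws on `{1, ..., M}` and of their
residue classes.
-/

namespace Vale.Agent.P042.H945

open Finset Vale.Agent.P042.H599

/-- sum over `{1, ..., M}` -/
noncomputable def SM (M : ℕ) (f : ℕ → ℝ) : ℝ := ∑ i ∈ range M, f (1 + i)

/-- relative entropy of two laws on `{1, ..., M}` -/
noncomputable def kl2 (x y : ℕ → ℝ) (M : ℕ) : ℝ :=
  SM M (fun n => x n * (Real.log (x n) - Real.log (y n)))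

/-- relative entropy of the residue classes modulo `m` -/
noncomputable def klc (x y : ℕ → ℝ) (M m : ℕ) : ℝ :=
  ∑ a ∈ range m, cm x 1 M m a * (Real.log (cm x 1 M m a) - Real.log (cm y 1 M m a))

/-- absolute continuity on `{1, ..., M}` -/
def AC (x y : ℕ → ℝ) (M : ℕ) : Prop := ∀ i < M, y (1 + i) = 0 → x (1 + i) = 0

/-- the log-sum inequality -/
theorem log_sum {α : Type*} (s : Finset α) (x y : α → ℝ) (hx : ∀ i ∈ s, 0 ≤ x i)
    (hy : ∀ i ∈ s, 0 ≤ y i) (h : ∀ i ∈ s, y i = 0 → x i = 0) :
    (∑ i ∈ s, x i) * (Real.log (∑ i ∈ s, x i) - Real.log (∑ i ∈ s, y i)) ≤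
      ∑ i ∈ s, x i * (Real.log (x i) - Real.log (y i)) := by
  rcases (Finset.sum_nonneg hx).eq_or_lt with h0 | h0
  · have h1 : ∀ i ∈ s, x i = 0 := (Finset.sum_eq_zero_iff_of_nonneg hx).1 h0.symm
    rw [← h0, zero_mul]
    refine Finset.sum_nonneg fun i hi => ?_
    rw [h1 i hi]; simp
  · have hY : 0 < ∑ i ∈ s, y i := by
      rcases (Finset.sum_nonneg hy).eq_or_lt with h2 | h2
      · exfalso
        have h3 : ∀ i ∈ s, y i = 0 := (Finset.sum_eq_zero_iff_of_nonneg hy).1 h2.symm
        have : ∑ i ∈ s, x i = 0 := Finset.sum_eq_zero fun i hi => h i hi (h3 i hi)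
        linarith
      · exact h2
    set X := ∑ i ∈ s, x i with hX
    set Y := ∑ i ∈ s, y i with hYd
    have ht : 0 < X / Y := div_pos h0 hY
    have key : ∀ i ∈ s, x i - X / Y * y i ≤
        x i * (Real.log (x i) - Real.log (y i)) - x i * (Real.log X - Real.log Y) := by
      intro i hi
      have h1 := gibbs (x := x i) (y := X / Y * y i) (hx i hi) (mul_nonneg ht.le (hy i hi))
        (fun h2 => h i hi ((mul_eq_zero.1 h2).resolve_left ht.ne'))
      rcases eq_or_ne (y i) 0 with h2 | h2
      · have h3 := h i hi h2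
        rw [h3, h2] at h1 ⊢
        simp
      · rw [Real.log_mul ht.ne' h2, Real.log_div h0.ne' hY.ne'] at h1
        nlinarith
    have h1 := Finset.sum_le_sum key
    rw [Finset.sum_sub_distrib, Finset.sum_sub_distrib, ← Finset.mul_sum, ← Finset.sum_mul,
      ← hX, ← hYd] at h1
    have h2 : X / Y * Y = X := div_mul_cancel₀ _ hY.ne'
    linarith

variable {x y z : ℕ → ℝ} {M m : ℕ}

theorem SM_add (f g : ℕ → ℝ) : SM M (fun n => f n + g n) = SM M f + SM M g := by
  unfold SM; exact Finset.sum_add_distrib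

theorem SM_sub (f g : ℕ → ℝ) : SM M (fun n => f n - g n) = SM M f - SM M g := by
  unfold SM; exact Finset.sum_sub_distrib _ _

theorem SM_mul (c : ℝ) (f : ℕ → ℝ) : SM M (fun n => c * f n) = c * SM M f := by
  unfold SM; exact (Finset.mul_sum _ _ _).symm

theorem SM_congr {f g : ℕ → ℝ} (h : ∀ i < M, f (1 + i) = g (1 + i)) : SM M f = SM M g := by
  unfold SM; exact Finset.sum_congr rfl fun i hi => h i (mem_range.1 hi)

theorem SM_le {f g : ℕ → ℝ} (h : ∀ i < M, f (1 + i) ≤ g (1 + i)) : SM M f ≤ SM M g := by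
  unfold SM; exact Finset.sum_le_sum fun i hi => h i (mem_range.1 hi)

theorem SM_nonneg {f : ℕ → ℝ} (h : ∀ i < M, 0 ≤ f (1 + i)) : 0 ≤ SM M f := by
  unfold SM; exact Finset.sum_nonneg fun i hi => h i (mem_range.1 hi)

theorem law_one (h : Law x 1 M) : SM M x = 1 := h.sum

theorem le_one (h : Law x 1 M) {i : ℕ} (hi : i < M) : x (1 + i) ≤ 1 := by
  rw [← h.sum]
  exact Finset.single_le_sum (f := fun i => x (1 + i)) (fun j hj => h.nonneg j (mem_range.1 hj))
    (mem_range.2 hi)

theorem cm_SM (hm : 0 < m) (f : ℕ → ℝ) :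
    ∑ a ∈ range m, cm x 1 M m a * f a = SM M (fun n => x n * f (n % m)) :=
  sum_cm_mul x 1 M hm f

/-- decomposition of the relative entropy to the uniform law -/
theorem kl0_eq (hx : Law x 1 M) (h : AC x y M) :
    kl0 x 1 M = kl2 x y M + SM M (fun n => x n * Real.log (M * y n)) := by
  unfold kl0 kl2
  rw [← SM_add]
  unfold SM
  refine Finset.sum_congr rfl fun i hi => ?_
  have hM : (0 : ℝ) < M := by exact_mod_cast hx.pos
  rcases eq_or_ne (x (1 + i)) 0 with h0 | h0
  · simp [h0]
  · have h1 : y (1 + i) ≠ 0 := fun h2 => h0 (h i (mem_range.1 hi) h2)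
    beta_reduce
    rw [Real.log_mul hM.ne' h0, Real.log_mul hM.ne' h1]
    ring

theorem cm_AC (hy : Law y 1 M) (h : AC x y M) {a : ℕ} (h0 : cm y 1 M m a = 0) :
    cm x 1 M m a = 0 := by
  unfold cm at h0 ⊢
  have h1 := (Finset.sum_eq_zero_iff_of_nonneg (fun i hi => by
    split_ifs
    · exact hy.nonneg i (mem_range.1 hi)
    · exact le_rfl)).1 h0
  refine Finset.sum_eq_zero fun i hi => ?_
  have h2 := h1 i hi
  split_ifs with h3
  · rw [if_pos h3] at h2
    exact h i (mem_range.1 hi) h2
  · rfl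

/-- decomposition of the relative entropy of the classes -/
theorem klu_eq2 (hy : Law y 1 M) (h : AC x y M) (hm : 0 < m) :
    klu x 1 M m = klc x y M m +
      SM M (fun n => x n * Real.log (m * cm y 1 M m (n % m))) := by
  rw [← cm_SM hm (fun a => Real.log (m * cm y 1 M m a))]
  unfold klu klc
  rw [← Finset.sum_add_distrib]
  refine Finset.sum_congr rfl fun a _ => ?_
  have hM : (0 : ℝ) < m := by exact_mod_cast hm
  rcases eq_or_ne (cm x 1 M m a) 0 with h0 | h0
  · simp [h0]
  · have h1 : cm y 1 M m a ≠ 0 := fun h2 => h0 (cm_AC hy h h2)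
    rw [Real.log_mul hM.ne' h0, Real.log_mul hM.ne' h1]
    ring

theorem kl2_nonneg (hx : Law x 1 M) (hy : Law y 1 M) (h : AC x y M) : 0 ≤ kl2 x y M := by
  have h1 := log_sum (range M) (fun i => x (1 + i)) (fun i => y (1 + i))
    (fun i hi => hx.nonneg i (mem_range.1 hi)) (fun i hi => hy.nonneg i (mem_range.1 hi))
    (fun i hi => h i (mem_range.1 hi))
  rw [hx.sum, hy.sum] at h1
  simpa [kl2, SM] using h1

theorem klc_nonneg (hx : Law x 1 M) (hy : Law y 1 M) (h : AC x y M) (hm : 0 < m) :
    0 ≤ klc x y M m := by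
  have h1 := log_sum (range m) (fun a => cm x 1 M m a) (fun a => cm y 1 M m a)
    (fun a _ => cm_nonneg hx.nonneg _ _) (fun a _ => cm_nonneg hy.nonneg _ _)
    (fun a _ => cm_AC hy h)
  rw [sum_cm hx.sum hm, sum_cm hy.sum hm] at h1
  simpa [klc] using h1

/-- data processing -/
theorem klc_le_kl2 (hx : Law x 1 M) (hy : Law y 1 M) (h : AC x y M) (hm : 0 < m) :
    klc x y M m ≤ kl2 x y M := by
  have h1 : ∀ a ∈ range m, cm x 1 M m a * (Real.log (cm x 1 M m a) - Real.log (cm y 1 M m a)) ≤
      ∑ i ∈ range M, (if (1 + i) % m = a then x (1 + i) else 0) *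
        (Real.log (x (1 + i)) - Real.log (y (1 + i))) := by
    intro a _
    have h2 := log_sum (range M) (fun i => if (1 + i) % m = a then x (1 + i) else 0)
      (fun i => if (1 + i) % m = a then y (1 + i) else 0)
      (fun i hi => by
        show 0 ≤ if (1 + i) % m = a then x (1 + i) else 0
        split_ifs
        · exact hx.nonneg i (mem_range.1 hi)
        · exact le_rfl)
      (fun i hi => by
        show 0 ≤ if (1 + i) % m = a then y (1 + i) else 0
        split_ifs
        · exact hy.nonneg i (mem_range.1 hi)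
        · exact le_rfl)
      (fun i hi => by
        show (if (1 + i) % m = a then y (1 + i) else 0) = 0 →
          (if (1 + i) % m = a then x (1 + i) else 0) = 0
        split_ifs
        · exact h i (mem_range.1 hi)
        · exact fun _ => rfl)
    refine h2.trans (Finset.sum_le_sum fun i _ => ?_)
    show (if (1 + i) % m = a then x (1 + i) else 0) *
      (Real.log (if (1 + i) % m = a then x (1 + i) else 0) -
        Real.log (if (1 + i) % m = a then y (1 + i) else 0)) ≤ _
    split_ifs
    · exact le_rfl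
    · simp
  unfold klc
  refine (Finset.sum_le_sum h1).trans ?_
  rw [Finset.sum_comm]
  unfold kl2 SM
  refine Finset.sum_le_sum fun i _ => ?_
  rw [← Finset.sum_mul, Finset.sum_ite_eq, if_pos (mem_range.2 (Nat.mod_lt _ hm))]

/-- convexity of the relative entropy of the classes in the first argument -/
theorem klc_mix {ι : Type*} (s : Finset ι) (b : ι → ℝ) (X : ι → ℕ → ℝ) (hb : ∀ j ∈ s, 0 ≤ b j)
    (hb1 : ∑ j ∈ s, b j = 1) (hX : ∀ j ∈ s, b j ≠ 0 → Law (X j) 1 M) (hy : Law y 1 M)
    (hA : ∀ j ∈ s, b j ≠ 0 → AC (X j) y M)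
    (hx : ∀ i < M, x (1 + i) = ∑ j ∈ s, b j * X j (1 + i)) :
    klc x y M m ≤ ∑ j ∈ s, b j * klc (X j) y M m := by
  have hcm : ∀ a, cm x 1 M m a = ∑ j ∈ s, b j * cm (X j) 1 M m a := by
    intro a
    unfold cm
    simp only [Finset.mul_sum]
    rw [Finset.sum_comm]
    refine Finset.sum_congr rfl fun i hi => ?_
    by_cases h1 : (1 + i) % m = a
    · simp only [if_pos h1]; exact hx i (mem_range.1 hi)
    · simp only [if_neg h1, mul_zero, Finset.sum_const_zero]
  have h1 : ∀ a ∈ range m, cm x 1 M m a * (Real.log (cm x 1 M m a) - Real.log (cm y 1 M m a)) ≤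
      ∑ j ∈ s, b j * (cm (X j) 1 M m a *
        (Real.log (cm (X j) 1 M m a) - Real.log (cm y 1 M m a))) := by
    intro a _
    have h2 := log_sum s (fun j => b j * cm (X j) 1 M m a) (fun j => b j * cm y 1 M m a)
      (fun j hj => by
        rcases eq_or_ne (b j) 0 with h3 | h3
        · simp [h3]
        · exact mul_nonneg (hb j hj) (cm_nonneg (hX j hj h3).nonneg _ _))
      (fun j hj => mul_nonneg (hb j hj) (cm_nonneg hy.nonneg _ _))
      (fun j hj h4 => by
        rcases eq_or_ne (b j) 0 with h3 | h3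
        · simp [h3]
        · have h5 := (mul_eq_zero.1 h4).resolve_left h3
          show b j * cm (X j) 1 M m a = 0
          rw [cm_AC hy (hA j hj h3) h5, mul_zero])
    rw [← Finset.sum_mul, hb1, one_mul] at h2
    rw [hcm a]
    refine h2.trans (Finset.sum_le_sum fun j hj => ?_)
    rcases eq_or_ne (b j) 0 with h3 | h3
    · simp [h3]
    · rcases eq_or_ne (cm (X j) 1 M m a) 0 with h4 | h4
      · simp [h4]
      · have h5 : cm y 1 M m a ≠ 0 := fun h6 => h4 (cm_AC hy (hA j hj h3) h6)
        rw [Real.log_mul h3 h4, Real.log_mul h3 h5]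
        exact le_of_eq (by ring)
  unfold klc
  refine (Finset.sum_le_sum h1).trans (le_of_eq ?_)
  rw [Finset.sum_comm]
  refine Finset.sum_congr rfl fun j _ => ?_
  rw [Finset.mul_sum]

/-- the relative entropy is at most the chi-square distance -/
theorem kl2_le_chi (hx : Law x 1 M) (hy : Law y 1 M) (h : AC x y M) :
    kl2 x y M ≤ SM M (fun n => (x n - y n) ^ 2 / y n) := by
  have h1 : kl2 x y M ≤ SM M (fun n => (x n - y n) ^ 2 / y n + (x n - y n)) := by
    unfold kl2
    refine SM_le fun i hi => ?_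
    have hxi := hx.nonneg i hi
    have hyi := hy.nonneg i hi
    rcases hyi.eq_or_lt with h2 | h2
    · have h3 := h i hi h2.symm
      rw [h3, ← h2]; simp
    · rcases hxi.eq_or_lt with h3 | h3
      · rw [← h3]
        have : (0 - y (1 + i)) ^ 2 / y (1 + i) = y (1 + i) := by field_simp; ring
        rw [this]; simp
      · have h4 := Real.log_le_sub_one_of_pos (div_pos h3 h2)
        rw [Real.log_div h3.ne' h2.ne'] at h4
        have h5 := mul_le_mul_of_nonneg_left h4 hxi
        have h6 : x (1 + i) * (x (1 + i) / y (1 + i) - 1) =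
            (x (1 + i) - y (1 + i)) ^ 2 / y (1 + i) + (x (1 + i) - y (1 + i)) := by
          field_simp; ring
        linarith
  rw [SM_add, SM_sub, law_one hx, law_one hy] at h1
  linarith

theorem kl0_nonneg (hx : Law x 1 M) : 0 ≤ kl0 x 1 M := by
  have hM : (0 : ℝ) < M := by exact_mod_cast hx.pos
  have hu : Law (fun _ => (1 : ℝ) / M) 1 M := by
    refine ⟨hx.pos, fun i _ => by positivity, ?_⟩
    rw [Finset.sum_const, card_range, nsmul_eq_mul]
    field_simp
  have hac : AC x (fun _ => (1 : ℝ) / M) M := fun i _ h0 => by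
    exfalso; have : (0:ℝ) < 1 / M := by positivity
    exact this.ne' h0
  have h1 := kl0_eq hx hac
  have h2 := kl2_nonneg hx hu hac
  have h3 : SM M (fun n => x n * Real.log (M * (1 / M))) = 0 := by
    have : (M : ℝ) * (1 / M) = 1 := by field_simp
    rw [this]; simp [SM]
  rw [h3] at h1
  linarith

end Vale.Agent.P042.H945
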