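import Vale.Agent.P042.H945.State2
set_option autoImplicit false

/-!
P042 [D], the extremal state, part 3: first order condition at a maximiser; the part of the law
which is close to the cap has tiny mass.
-/

namespace Vale.Agent.P042.H945

open Finset Vale.Agent.P042.H599

variable {ι : Type} {Q : Par ι} {N d M : ℕ} {A0 : Finset ℤ} {a : ℤ} {x y : ℕ → ℝ}

theorem SM_single {M : ℕ} (j : ℕ) (h1 : 1 ≤ j) (h2 : j ≤ M) (f : ℕ → ℝ) :
    SM M (fun n => if n = j then f n else 0) = f j := by
  unfold SM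
  rw [Finset.sum_eq_single (j - 1)]
  · rw [show 1 + (j - 1) = j by omega]
    exact if_pos rfl
  · intro i _ hi
    exact if_neg (by omega)
  · intro h
    exfalso
    exact h (mem_range.2 (by omega))

theorem SM_const_mul (M : ℕ) (c : ℝ) (f : ℕ → ℝ) : SM M (fun n => f n * c) = SM M f * c := by
  unfold SM; exact (Finset.sum_mul _ _ _).symm

/-- the derivative of the functional -/
noncomputable def ph (Q : Par ι) (M : ℕ) (x : ℕ → ℝ) (n : ℕ) : ℝ :=
  -Real.log (M * x n) + ∑ i ∈ Q.I, Q.c i * Real.log (Q.m i * cm x 1 M (Q.m i) (n % Q.m i))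

theorem SM_sum {κ : Type} (s : Finset κ) (f : κ → ℕ → ℝ) :
    SM M (fun n => ∑ i ∈ s, f i n) = ∑ i ∈ s, SM M (f i) := by
  unfold SM; exact Finset.sum_comm

/-- the value of the smooth part at a competitor -/
theorem g0_eq (hQ : Ok Q) (hx : Law x 1 M) (hy : Law y 1 M) (h : AC y x M) :
    g0 Q M y = -kl2 y x M + ∑ i ∈ Q.I, Q.c i * klc y x M (Q.m i) +
      SM M (fun n => y n * ph Q M x n) := by
  have h1 : SM M (fun n => y n * ph Q M x n) = -SM M (fun n => y n * Real.log (M * x n)) +
      ∑ i ∈ Q.I, Q.c i * SM M (fun n => y n * Real.log (Q.m i * cm x 1 M (Q.m i) (n % Q.m i))) := by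
    unfold ph
    have h2 : ∀ n, y n * (-Real.log (M * x n) +
        ∑ i ∈ Q.I, Q.c i * Real.log (Q.m i * cm x 1 M (Q.m i) (n % Q.m i))) =
        (-1) * (y n * Real.log (M * x n)) +
        ∑ i ∈ Q.I, Q.c i * (y n * Real.log (Q.m i * cm x 1 M (Q.m i) (n % Q.m i))) := by
      intro n
      rw [mul_add, Finset.mul_sum]
      congr 1
      · ring
      · exact Finset.sum_congr rfl fun i _ => by ring
    simp only [h2]
    rw [SM_add, SM_mul, SM_sum]
    simp only [SM_mul]
    ring
  unfold g0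
  rw [h1, kl0_eq hy h]
  have h3 : ∀ i ∈ Q.I, Q.c i * klu y 1 M (Q.m i) = Q.c i * klc y x M (Q.m i) +
      Q.c i * SM M (fun n => y n * Real.log (Q.m i * cm x 1 M (Q.m i) (n % Q.m i))) := by
    intro i hi
    rw [klu_eq2 hx h (hQ.hm i hi)]
    ring
  rw [Finset.sum_congr rfl h3, Finset.sum_add_distrib]
  ring

theorem kl2_self : kl2 x x M = 0 := by
  unfold kl2 SM
  exact Finset.sum_eq_zero fun i _ => by simp

theorem klc_self (m : ℕ) : klc x x M m = 0 := by
  unfold klc
  exact Finset.sum_eq_zero fun i _ => by rw [sub_self, mul_zero]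

theorem g0_self (hQ : Ok Q) (hx : Law x 1 M) :
    g0 Q M x = SM M (fun n => x n * ph Q M x n) := by
  have h := g0_eq hQ hx hx (fun _ _ h => h)
  rw [kl2_self] at h
  rw [h]
  simp [klc_self]

/-- `x` is a maximiser -/
def IsMx (Q : Par ι) (N : ℕ) (A0 : Finset ℤ) (d : ℕ) (a : ℤ) (M : ℕ) (x : ℕ → ℝ) : Prop :=
  Adm Q N A0 d a M x ∧ ∀ d' a' M' x', Adm Q N A0 d' a' M' x' → FF Q d' M' x' ≤ FF Q d M x

/-- the first order condition -/
theorem first_order (hQ : Ok Q) (hx : IsMx Q N A0 d a M x) {j k : ℕ} (hj : x j ≠ 0) (hk : x k ≠ 0)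
    (hc : x j < Real.exp Q.D0 / M) : ph Q M x j ≤ ph Q M x k := by
  obtain ⟨hA, hmax⟩ := hx
  rcases eq_or_ne j k with hjk | hjk
  · rw [hjk]
  obtain ⟨hj1, hj2, hj3⟩ := hA.supp j hj
  obtain ⟨hk1, hk2, hk3⟩ := hA.supp k hk
  have hxn : ∀ n, 0 ≤ x n := by
    intro n
    by_cases h0 : x n = 0
    · exact h0.ge
    · obtain ⟨h1, h2, _⟩ := hA.supp n h0
      have := hA.law.nonneg (n - 1) (by omega)
      rwa [show 1 + (n - 1) = n by omega] at this
  have hjp : 0 < x j := lt_of_le_of_ne (hxn j) hj.symm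
  have hkp : 0 < x k := lt_of_le_of_ne (hxn k) hk.symm
  by_contra hcon
  rw [not_le] at hcon
  set δ := ph Q M x j - ph Q M x k with hδ
  have hδ0 : 0 < δ := by linarith
  set C := 1 / x j + 1 / x k with hC
  have hC0 : 0 < C := by positivity
  obtain ⟨ε, hε0, hε1, hε2, hε3⟩ : ∃ ε : ℝ, 0 < ε ∧ ε ≤ Real.exp Q.D0 / M - x j ∧ ε ≤ x k ∧
      ε * C < δ := by
    refine ⟨min (min (Real.exp Q.D0 / M - x j) (x k)) (δ / (2 * C)), ?_, ?_, ?_, ?_⟩
    · refine lt_min (lt_min (by linarith) hkp) (by positivity)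
    · exact (min_le_left _ _).trans (min_le_left _ _)
    · exact (min_le_left _ _).trans (min_le_right _ _)
    · have h1 : min (min (Real.exp Q.D0 / M - x j) (x k)) (δ / (2 * C)) ≤ δ / (2 * C) :=
        min_le_right _ _
      have h2 := mul_le_mul_of_nonneg_right h1 hC0.le
      have h3 : δ / (2 * C) * C = δ / 2 := by field_simp
      linarith
  set y : ℕ → ℝ := fun n => x n + (if n = j then ε else 0) - (if n = k then ε else 0) with hy
  have hyx : ∀ n, x n = 0 → y n = 0 := by
    intro n hn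
    have h1 : n ≠ j := fun h => hj (h ▸ hn)
    have h2 : n ≠ k := fun h => hk (h ▸ hn)
    simp only [hy]
    rw [if_neg h1, if_neg h2, hn]; ring
  have hyn : ∀ n, 0 ≤ y n := by
    intro n
    simp only [hy]
    have := hxn n
    split_ifs with h1 h2 h2
    · exact absurd (h1.symm.trans h2) hjk
    · linarith
    · rw [h2]; linarith
    · linarith
  have hylaw : Law y 1 M := by
    refine ⟨hA.law.pos, fun i _ => hyn _, ?_⟩
    have h1 : SM M y = SM M x + ε - ε := by
      simp only [hy]
      rw [SM_sub, SM_add, SM_single j hj1 hj2 (fun _ => ε), SM_single k hk1 hk2 (fun _ => ε)]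
    have h2 := law_one hA.law
    have h3 : SM M y = 1 := by rw [h1, h2]; ring
    exact h3
  have hyadm : Adm Q N A0 d a M y := by
    refine ⟨hA.hd, hA.hM, hA.lo, hA.hi, hylaw, fun n => ?_, fun n hn => ?_⟩
    · simp only [hy]
      have h1 := hA.cap n
      split_ifs with h2 h3 h3
      · linarith
      · rw [h2]; linarith
      · linarith
      · linarith
    · exact hA.supp n (fun h => hn (hyx n h))
  have h1 := hmax _ _ _ _ hyadm
  have h2 : Om Q d (sp x M) ≤ Om Q d (sp y M) := by
    refine Om_anti hQ hA.hd fun n hn => ?_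
    unfold sp at hn ⊢
    have h3 := Finset.mem_filter.1 hn
    exact Finset.mem_filter.2 ⟨h3.1, fun h => h3.2 (hyx n h)⟩
  unfold FF at h1
  have h3 : g0 Q M y ≤ g0 Q M x := by linarith
  have hac : AC y x M := fun i _ h => hyx _ h
  rw [g0_eq hQ hA.law hylaw hac, g0_self hQ hA.law] at h3
  have h4 : 0 ≤ ∑ i ∈ Q.I, Q.c i * klc y x M (Q.m i) :=
    Finset.sum_nonneg fun i hi => mul_nonneg (hQ.hc i hi) (klc_nonneg hylaw hA.law hac (hQ.hm i hi))
  have h5 : SM M (fun n => y n * ph Q M x n) - SM M (fun n => x n * ph Q M x n) = ε * δ := by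
    rw [← SM_sub]
    have e1 : ∀ n, y n * ph Q M x n - x n * ph Q M x n =
        (if n = j then ε * ph Q M x n else 0) - (if n = k then ε * ph Q M x n else 0) := by
      intro n
      simp only [hy]
      split_ifs <;> ring
    simp only [e1]
    rw [SM_sub, SM_single j hj1 hj2 (fun n => ε * ph Q M x n),
      SM_single k hk1 hk2 (fun n => ε * ph Q M x n), hδ]
    ring
  have h6 : kl2 y x M ≤ ε ^ 2 * C := by
    refine (kl2_le_chi hylaw hA.law hac).trans (le_of_eq ?_)
    have e1 : ∀ n, (y n - x n) ^ 2 / x n = (if n = j then ε ^ 2 / x n else 0) +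
        (if n = k then ε ^ 2 / x n else 0) := by
      intro n
      simp only [hy]
      split_ifs with h7 h8 h8
      · exact absurd (h7.symm.trans h8) hjk
      · ring
      · ring
      · simp
    simp only [e1]
    rw [SM_add, SM_single j hj1 hj2 (fun n => ε ^ 2 / x n),
      SM_single k hk1 hk2 (fun n => ε ^ 2 / x n), hC]
    field_simp
  have h7 : ε * δ ≤ ε * (ε * C) := by nlinarith
  have h8 := le_of_mul_le_mul_left h7 hε0
  linarith

theorem law_nonneg (hA : Adm Q N A0 d a M x) (n : ℕ) : 0 ≤ x n := by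
  by_cases h0 : x n = 0
  · exact h0.ge
  · obtain ⟨h1, h2, _⟩ := hA.supp n h0
    have := hA.law.nonneg (n - 1) (by omega)
    rwa [show 1 + (n - 1) = n by omega] at this

/-- the minimum of the derivative -/
theorem exists_ph0 (hQ : Ok Q) (hx : IsMx Q N A0 d a M x) :
    ∃ φ0 : ℝ, (∀ n, x n ≠ 0 → φ0 ≤ ph Q M x n) ∧
      ∀ n, x n ≠ 0 → x n < Real.exp Q.D0 / M → ph Q M x n = φ0 := by
  have hne : (sp x M).Nonempty := by
    by_contra h
    rw [Finset.not_nonempty_iff_eq_empty] at h
    have h1 : SM M x = 0 := by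
      unfold SM
      refine Finset.sum_eq_zero fun i hi => ?_
      by_contra h2
      have : 1 + i ∈ sp x M := by
        unfold sp
        exact Finset.mem_filter.2 ⟨Finset.mem_Icc.2 ⟨by omega, by have := mem_range.1 hi; omega⟩, h2⟩
      rw [h] at this
      exact absurd this (Finset.notMem_empty _)
    have h2 := law_one hx.1.law
    rw [h1] at h2
    exact zero_ne_one h2
  obtain ⟨k, hk, hmin⟩ := Finset.exists_min_image (sp x M) (ph Q M x) hne
  have hk0 : x k ≠ 0 := by
    unfold sp at hk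
    exact (Finset.mem_filter.1 hk).2
  have hmem : ∀ n, x n ≠ 0 → n ∈ sp x M := by
    intro n hn
    unfold sp
    obtain ⟨h1, h2, _⟩ := hx.1.supp n hn
    exact Finset.mem_filter.2 ⟨Finset.mem_Icc.2 ⟨h1, h2⟩, hn⟩
  refine ⟨ph Q M x k, fun n hn => hmin n (hmem n hn), fun n hn hc => ?_⟩
  exact le_antisymm (first_order hQ hx hn hk0 hc) (hmin n (hmem n hn))

/-- bounds at the maximum from the value of the functional -/
theorem value_bounds (hQ : Ok Q) (hx : IsMx Q N A0 d a M x) {L : ℝ}
    (hbase : -L + Q.eta * Real.log N ≤ FF Q d M x) :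
    kl0 x 1 M / 2 + Q.eta * (Real.log N - Real.log M) ≤ L + Q.E1 ∧
      kl0 x 1 M ≤ 2 * (L + Q.E1) ∧ -(2 * L + 2 * Q.E1) ≤ g0 Q M x ∧
      Om Q d (sp x M) ≤ L + 2 * Q.E1 := by
  have hA := hx.1
  have hMpos : (0 : ℝ) < M := by exact_mod_cast hA.law.pos
  have hcap2 : ∀ i < M, x (1 + i) ≤ Real.exp (2 * Q.D0) / M := by
    intro i _
    refine (hA.cap _).trans ?_
    have : Real.exp Q.D0 ≤ Real.exp (2 * Q.D0) := Real.exp_le_exp.2 (by linarith [hQ.D00])
    gcongr
  have h1 := hQ.HB d M x hA.hd hA.hM hA.law hcap2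
  have hMN : Real.log M ≤ Real.log N := by
    refine Real.log_le_log hMpos ?_
    have hl : (1 : ℤ) ≤ Q.lam d := by exact_mod_cast hQ.lam0 d hA.hd
    have h2 : (M : ℤ) ≤ N := by
      have h3 := hA.lo
      have h4 := hA.hi
      have h5 : (2 : ℤ) ≤ M := by exact_mod_cast hQ.Mm1.trans hA.hM
      nlinarith
    exact_mod_cast h2
  have h2 := Om_nonneg hQ d (sp x M)
  have h3 : 0 ≤ ∑ i ∈ Q.I, Q.c i * klu x 1 M (Q.m i) :=
    Finset.sum_nonneg fun i hi => mul_nonneg (hQ.hc i hi) (klu_nonneg hA.law (hQ.hm i hi))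
  have h4 : 0 ≤ Q.eta * (Real.log N - Real.log M) :=
    mul_nonneg hQ.eta0.le (by linarith)
  have hk := kl0_nonneg hA.law
  unfold FF g0 at hbase
  have e1 : Q.eta * (Real.log N - Real.log M) = Q.eta * Real.log N - Q.eta * Real.log M := by ring
  refine ⟨by linarith, by linarith, ?_, by linarith⟩
  unfold g0
  linarith

open Classical in
/-- the restriction of a law to a set -/
noncomputable def rst (x : ℕ → ℝ) (M : ℕ) (S : ℕ → Prop) (n : ℕ) : ℝ :=
  if S n then x n / SM M (fun n => if S n then x n else 0) else 0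

open Classical in
/-- the mass of a set -/
noncomputable def ms (x : ℕ → ℝ) (M : ℕ) (S : ℕ → Prop) : ℝ := SM M (fun n => if S n then x n else 0)

theorem rst_law (hx : Law x 1 M) {S : ℕ → Prop} (h : 0 < ms x M S) : Law (rst x M S) 1 M := by
  classical
  refine ⟨hx.pos, fun i hi => ?_, ?_⟩
  · unfold rst
    split_ifs
    · exact div_nonneg (hx.nonneg i hi) h.le
    · exact le_rfl
  · have h1 : SM M (rst x M S) = 1 := by
      have h2 : ∀ n, rst x M S n = (if S n then x n else 0) * (ms x M S)⁻¹ := by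
        intro n
        unfold rst
        split_ifs
        · rw [div_eq_mul_inv]; rfl
        · simp
      have h3 : SM M (rst x M S) = SM M (fun n => (if S n then x n else 0) * (ms x M S)⁻¹) :=
        SM_congr fun i _ => h2 _
      rw [h3, SM_const_mul]
      exact mul_inv_cancel₀ h.ne'
    exact h1

theorem ms_le_one (hx : Law x 1 M) (S : ℕ → Prop) : ms x M S ≤ 1 := by
  classical
  rw [← law_one hx]
  unfold ms
  refine SM_le fun i hi => ?_
  split_ifs
  · exact le_rfl
  · exact hx.nonneg i hi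

theorem ms_nonneg (hx : Law x 1 M) (S : ℕ → Prop) : 0 ≤ ms x M S := by
  classical
  unfold ms
  refine SM_nonneg fun i hi => ?_
  split_ifs
  · exact hx.nonneg i hi
  · exact le_rfl

theorem ms_compl (hx : Law x 1 M) (S : ℕ → Prop) : ms x M S + ms x M (fun n => ¬ S n) = 1 := by
  classical
  rw [← law_one hx]
  unfold ms
  rw [← SM_add]
  refine SM_congr fun i _ => ?_
  by_cases h : S (1 + i)
  · simp [h]
  · simp [h]

/-- the part close to the cap has tiny mass -/
theorem cut_small (hQ : Ok Q) (hx : IsMx Q N A0 d a M x) {L : ℝ}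
    (hbase : -L + Q.eta * Real.log N ≤ FF Q d M x) (hD : 2 * L + 3 * Q.E1 < Q.D0 / 8) :
    ms x M (fun n => Real.exp (Q.D0 / 2) < M * x n) ≤ Real.exp (-(Q.D0 / 4)) := by
  classical
  by_contra hcon
  rw [not_le] at hcon
  have hA := hx.1
  set B : ℕ → Prop := fun n => Real.exp (Q.D0 / 2) < M * x n with hB
  set β := ms x M B with hβ
  have hβ0 : 0 < β := lt_trans (Real.exp_pos _) hcon
  have hβ1 : β ≤ 1 := ms_le_one hA.law B
  have hMpos : (0 : ℝ) < M := by exact_mod_cast hA.law.pos
  have hD00 := hQ.D00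
  set z := rst x M B with hz
  have hzlaw : Law z 1 M := rst_law hA.law hβ0
  have hzac : AC z x M := by
    intro i _ h0
    rw [hz]; unfold rst
    split_ifs
    · rw [h0, zero_div]
    · rfl
  have hzval : ∀ n, B n → z n = x n / β := by
    intro n hn
    rw [hz]; unfold rst
    rw [if_pos hn]; rfl
  have hzval0 : ∀ n, ¬ B n → z n = 0 := by
    intro n hn
    rw [hz]; unfold rst
    rw [if_neg hn]
  have hlogβ : -(Q.D0 / 4) < Real.log β := by
    have := Real.log_lt_log (Real.exp_pos _) hcon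
    rwa [Real.log_exp] at this
  have hlogβ1 : Real.log β ≤ 0 := Real.log_nonpos hβ0.le hβ1
  -- bound of z
  have hzcap : ∀ i < M, z (1 + i) ≤ Real.exp (2 * Q.D0) / M := by
    intro i _
    by_cases h : B (1 + i)
    · rw [hzval _ h]
      have h1 := hA.cap (1 + i)
      rw [div_le_div_iff₀ hβ0 hMpos]
      rw [le_div_iff₀ hMpos] at h1
      have h2 : Real.exp (2 * Q.D0) * β ≥ Real.exp (2 * Q.D0) * Real.exp (-(Q.D0 / 4)) :=
        mul_le_mul_of_nonneg_left hcon.le (Real.exp_pos _).le
      rw [← Real.exp_add] at h2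
      have h3 : Real.exp Q.D0 ≤ Real.exp (2 * Q.D0 + -(Q.D0 / 4)) :=
        Real.exp_le_exp.2 (by linarith)
      linarith
    · rw [hzval0 _ h]; positivity
  have hHB := hQ.HB d M z hA.hd hA.hM hzlaw hzcap
  have hOm := Om_nonneg hQ d (sp z M)
  -- kl2 z x = - log β
  have hkl2 : kl2 z x M = -Real.log β := by
    have h1 : ∀ i < M, z (1 + i) * (Real.log (z (1 + i)) - Real.log (x (1 + i))) =
        z (1 + i) * (-Real.log β) := by
      intro i _
      by_cases h : B (1 + i)
      · rw [hzval _ h]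
        have h2 : x (1 + i) ≠ 0 := by
          intro h3
          have h4 : Real.exp (Q.D0 / 2) < M * x (1 + i) := h
          rw [h3, mul_zero] at h4
          exact absurd h4 (not_lt.2 (Real.exp_pos _).le)
        rw [Real.log_div h2 hβ0.ne']
        ring
      · rw [hzval0 _ h]; ring
    unfold kl2
    rw [SM_congr (g := fun n => z n * (-Real.log β)) h1, SM_const_mul, law_one hzlaw, one_mul]
  -- kl0 z lower bound
  have hkl0 : Q.D0 / 2 - Real.log β ≤ kl0 z 1 M := by
    rw [kl0_eq hzlaw hzac, hkl2]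
    have h1 : Q.D0 / 2 ≤ SM M (fun n => z n * Real.log (M * x n)) := by
      have h2 : SM M (fun n => z n * (Q.D0 / 2)) ≤ SM M (fun n => z n * Real.log (M * x n)) := by
        refine SM_le fun i hi => ?_
        by_cases h : B (1 + i)
        · refine mul_le_mul_of_nonneg_left ?_ (hzlaw.nonneg i hi)
          have h3 := Real.log_lt_log (Real.exp_pos _) h
          rw [Real.log_exp] at h3
          exact h3.le
        · rw [hzval0 _ h]; simp
      rwa [SM_const_mul, law_one hzlaw, one_mul] at h2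
    linarith
  -- upper bound of E_z ph
  have hup : SM M (fun n => z n * ph Q M x n) ≤ -(kl0 z 1 M / 2) - Real.log β + Q.E1 := by
    have h1 := g0_eq hQ hA.law hzlaw hzac
    have h2 : 0 ≤ ∑ i ∈ Q.I, Q.c i * klc z x M (Q.m i) :=
      Finset.sum_nonneg fun i hi => mul_nonneg (hQ.hc i hi)
        (klc_nonneg hzlaw hA.law hzac (hQ.hm i hi))
    rw [hkl2] at h1
    unfold g0 at h1
    linarith
  -- lower bound
  obtain ⟨φ0, hφ1, hφ2⟩ := exists_ph0 hQ hx
  have hcapB : ∀ n, x n ≠ 0 → ¬ B n → ph Q M x n = φ0 := by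
    intro n hn hnB
    refine hφ2 n hn ?_
    rw [lt_div_iff₀ hMpos]
    have h1 : M * x n ≤ Real.exp (Q.D0 / 2) := not_lt.1 hnB
    have h2 : Real.exp (Q.D0 / 2) < Real.exp Q.D0 := Real.exp_lt_exp.2 (by linarith)
    linarith
  have hX : φ0 ≤ SM M (fun n => z n * ph Q M x n) := by
    have h2 : SM M (fun n => z n * φ0) ≤ SM M (fun n => z n * ph Q M x n) := by
      refine SM_le fun i hi => ?_
      by_cases h : x (1 + i) = 0
      · rw [hzac i hi h]; simp
      · exact mul_le_mul_of_nonneg_left (hφ1 _ h) (hzlaw.nonneg i hi)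
    rwa [SM_const_mul, law_one hzlaw, one_mul] at h2
  have hdec : SM M (fun n => x n * ph Q M x n) =
      β * SM M (fun n => z n * ph Q M x n) + (1 - β) * φ0 := by
    have h1 : SM M (fun n => x n * ph Q M x n) =
        SM M (fun n => β * (z n * ph Q M x n) + (if ¬ B n then x n else 0) * φ0) := by
      refine SM_congr fun i _ => ?_
      by_cases h : B (1 + i)
      · rw [hzval _ h, if_neg (not_not.2 h)]
        field_simp
        ring
      · rw [hzval0 _ h, if_pos h]
        rcases eq_or_ne (x (1 + i)) 0 with h3 | h3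
        · rw [h3]; simp
        · rw [hcapB _ h3 h]; ring
    rw [h1, SM_add, SM_mul, SM_const_mul]
    have h2 : SM M (fun n => if ¬ B n then x n else 0) = 1 - β := by
      have h3 := ms_compl hA.law B
      have h4 : ms x M (fun n => ¬ B n) = SM M (fun n => if ¬ B n then x n else 0) := by
        unfold ms
        exact SM_congr fun i _ => by by_cases h : B (1 + i) <;> simp [h]
      rw [h4] at h3
      linarith
    rw [h2]
  have hlow : g0 Q M x ≤ SM M (fun n => z n * ph Q M x n) := by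
    rw [g0_self hQ hA.law, hdec]
    nlinarith
  have hv := (value_bounds hQ hx hbase).2.2.1
  have hE := hQ.E10
  linarith

end Vale.Agent.P042.H945
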