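import Vale.Agent.P042.H945.State3
set_option autoImplicit false

/-!
P042 [D], the extremal state, part 4: a law supported in one residue class modulo `lam D` and in
one interval is a competitor in the corresponding sub-progression.
-/

namespace Vale.Agent.P042.H945

open Finset Vale.Agent.P042.H599

variable {ι : Type} {Q : Par ι} {N d M : ℕ} {A0 : Finset ℤ} {a : ℤ} {x y : ℕ → ℝ}

theorem SM_Icc (M : ℕ) (f : ℕ → ℝ) : SM M f = ∑ n ∈ Icc 1 M, f n := by
  unfold SM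
  have h : Icc 1 M = Ico 1 (M + 1) := by ext; simp
  rw [h, Finset.sum_Ico_eq_sum_range]
  rfl

/-- first index of the class `b` modulo `Λ` in `[u, ...]` -/
def k0 (Λ b u : ℕ) : ℕ := (u - 1 + Λ - b) / Λ

/-- number of elements of the class `b` modulo `Λ` in `[u, v]` -/
def cn (Λ b u v : ℕ) : ℕ := (v + Λ - b) / Λ - k0 Λ b u

/-- the elements of the class -/
def el (Λ b u : ℕ) (n : ℕ) : ℕ := b + Λ * (k0 Λ b u + n - 1)

theorem el_succ (Λ b u i : ℕ) : el Λ b u (1 + i) = b + Λ * (k0 Λ b u + i) := by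
  unfold el
  rw [show k0 Λ b u + (1 + i) - 1 = k0 Λ b u + i by omega]

section

variable {Λ b u v : ℕ}

theorem el_ge (hΛ : 0 < Λ) (hb : b < Λ) (hu : 1 ≤ u) (i : ℕ) : u ≤ el Λ b u (1 + i) := by
  rw [el_succ]
  have h1 : (u - 1 + Λ - b) / Λ < k0 Λ b u + 1 := by unfold k0; omega
  rw [Nat.div_lt_iff_lt_mul hΛ] at h1
  have h2 : (k0 Λ b u + 1) * Λ = Λ * k0 Λ b u + Λ := by ring
  have h3 : Λ * (k0 Λ b u + i) = Λ * k0 Λ b u + Λ * i := by ring
  have h4 : 0 ≤ Λ * i := Nat.zero_le _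
  omega

theorem el_le (hΛ : 0 < Λ) (_hb : b < Λ) {i : ℕ} (hi : i < cn Λ b u v) :
    el Λ b u (1 + i) ≤ v := by
  rw [el_succ]
  have h1 : k0 Λ b u + i + 1 ≤ (v + Λ - b) / Λ := by unfold cn at hi; omega
  rw [Nat.le_div_iff_mul_le hΛ] at h1
  have h2 : (k0 Λ b u + i + 1) * Λ = Λ * (k0 Λ b u + i) + Λ := by ring
  omega

theorem el_mod (hb : b < Λ) (i : ℕ) : el Λ b u (1 + i) % Λ = b := by
  rw [el_succ, Nat.add_mul_mod_self_left, Nat.mod_eq_of_lt hb]

theorem el_surj (hΛ : 0 < Λ) (hb : b < Λ) {n : ℕ} (h1 : u ≤ n) (h2 : n ≤ v)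
    (h3 : n % Λ = b) (hu : 1 ≤ u) : ∃ i < cn Λ b u v, el Λ b u (1 + i) = n := by
  have h4 := Nat.div_add_mod n Λ
  rw [h3] at h4
  have h5 : k0 Λ b u ≤ n / Λ := by
    unfold k0
    rw [← Nat.lt_succ_iff, Nat.div_lt_iff_lt_mul hΛ]
    have : (n / Λ).succ * Λ = Λ * (n / Λ) + Λ := by rw [Nat.succ_mul]; ring
    omega
  have h6 : n / Λ + 1 ≤ (v + Λ - b) / Λ := by
    rw [Nat.le_div_iff_mul_le hΛ]
    have : (n / Λ + 1) * Λ = Λ * (n / Λ) + Λ := by ring
    omega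
  refine ⟨n / Λ - k0 Λ b u, by unfold cn; omega, ?_⟩
  rw [el_succ, show k0 Λ b u + (n / Λ - k0 Λ b u) = n / Λ by omega]
  omega

theorem el_inj (hΛ : 0 < Λ) {i j : ℕ} (h : el Λ b u (1 + i) = el Λ b u (1 + j)) : i = j := by
  rw [el_succ, el_succ] at h
  have h1 : Λ * (k0 Λ b u + i) = Λ * (k0 Λ b u + j) := by omega
  have h2 := Nat.eq_of_mul_eq_mul_left hΛ h1
  omega

/-- change of variables -/
theorem reindex (hΛ : 0 < Λ) (hb : b < Λ) (hu : 1 ≤ u) (hv : v ≤ M) (f : ℕ → ℝ)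
    (hf : ∀ n, f n ≠ 0 → u ≤ n ∧ n ≤ v ∧ n % Λ = b) :
    SM (cn Λ b u v) (fun n => f (el Λ b u n)) = SM M f := by
  rw [SM_Icc M f]
  unfold SM
  have h1 : ∑ i ∈ range (cn Λ b u v), f (el Λ b u (1 + i)) =
      ∑ n ∈ (range (cn Λ b u v)).image (fun i => el Λ b u (1 + i)), f n := by
    rw [Finset.sum_image]
    intro i _ j _ h
    exact el_inj hΛ h
  rw [h1]
  refine Finset.sum_subset (fun n hn => ?_) (fun n hn hn2 => ?_)
  · obtain ⟨i, hi, rfl⟩ := Finset.mem_image.1 hn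
    have h2 := el_ge hΛ hb hu i
    have h3 := el_le hΛ hb (mem_range.1 hi)
    simp only [Finset.mem_Icc]
    omega
  · by_contra h2
    obtain ⟨h3, h4, h5⟩ := hf n h2
    obtain ⟨i, hi, hi2⟩ := el_surj hΛ hb h3 h4 h5 hu
    exact hn2 (Finset.mem_image.2 ⟨i, mem_range.2 hi, hi2⟩)

/-- the transported law -/
noncomputable def tr (Λ b u v : ℕ) (y : ℕ → ℝ) (n : ℕ) : ℝ :=
  if 1 ≤ n ∧ n ≤ cn Λ b u v then y (el Λ b u n) else 0

theorem tr_succ {i : ℕ} (hi : i < cn Λ b u v) : tr Λ b u v y (1 + i) = y (el Λ b u (1 + i)) := by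
  unfold tr
  rw [if_pos (by omega)]

/-- hypotheses: the law lives in one class and one interval -/
structure Cell (M Λ b u v : ℕ) (y : ℕ → ℝ) : Prop where
  hΛ : 0 < Λ
  hb : b < Λ
  hu : 1 ≤ u
  hv : v ≤ M
  supp : ∀ n, y n ≠ 0 → u ≤ n ∧ n ≤ v ∧ n % Λ = b

theorem SM_tr (h : Cell M Λ b u v y) (F : ℕ → ℝ → ℝ) (hF : ∀ n, F n 0 = 0) :
    SM (cn Λ b u v) (fun n => F (el Λ b u n) (tr Λ b u v y n)) = SM M (fun n => F n (y n)) := by
  rw [← reindex h.hΛ h.hb h.hu h.hv (fun n => F n (y n)) (fun n hn => h.supp n (fun h0 => hn (by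
    show F n (y n) = 0
    rw [h0, hF])))]
  exact SM_congr fun i hi => by rw [tr_succ hi]

theorem tr_law (h : Cell M Λ b u v y) (hy : Law y 1 M) : Law (tr Λ b u v y) 1 (cn Λ b u v) := by
  have h1 : SM (cn Λ b u v) (tr Λ b u v y) = 1 := by
    rw [SM_tr h (fun _ t => t) (fun _ => rfl)]
    exact hy.sum
  refine ⟨?_, fun i hi => ?_, h1⟩
  · by_contra h2
    have h3 : cn Λ b u v = 0 := by omega
    rw [h3] at h1
    simp [SM] at h1
  · rw [tr_succ hi]
    have h2 := el_ge h.hΛ h.hb h.hu i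
    have h3 := el_le h.hΛ h.hb hi
    have h4 := h.hu
    have h5 := h.hv
    have := hy.nonneg (el Λ b u (1 + i) - 1) (by omega)
    rwa [show 1 + (el Λ b u (1 + i) - 1) = el Λ b u (1 + i) by omega] at this

theorem tr_kl0 (h : Cell M Λ b u v y) (hy : Law y 1 M) :
    kl0 (tr Λ b u v y) 1 (cn Λ b u v) =
      kl0 y 1 M + (Real.log (cn Λ b u v) - Real.log M) := by
  have hM : (0 : ℝ) < M := by exact_mod_cast hy.pos
  have hc : (0 : ℝ) < cn Λ b u v := by exact_mod_cast (tr_law h hy).pos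
  have h1 : kl0 (tr Λ b u v y) 1 (cn Λ b u v) =
      SM M (fun n => y n * Real.log (cn Λ b u v * y n)) :=
    SM_tr h (fun _ t => t * Real.log (cn Λ b u v * t)) (fun _ => by simp)
  rw [h1]
  have h2 : SM M (fun n => y n * Real.log (cn Λ b u v * y n)) =
      SM M (fun n => y n * Real.log (M * y n) + y n * (Real.log (cn Λ b u v) - Real.log M)) := by
    refine SM_congr fun i _ => ?_
    rcases eq_or_ne (y (1 + i)) 0 with h3 | h3
    · simp [h3]
    · rw [Real.log_mul hc.ne' h3, Real.log_mul hM.ne' h3]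
      ring
  rw [h2, SM_add, SM_const_mul, law_one hy, one_mul]
  rfl

/-- the permutation of the residues modulo `m` -/
def sg (Λ b u m : ℕ) (r : ℕ) : ℕ := (b + Λ * (k0 Λ b u + r + m - 1)) % m

theorem sg_iff (Λ b u m : ℕ) (hm : 0 < m) (hc : Nat.Coprime m Λ) (i r : ℕ) (hr : r < m) :
    (1 + i) % m = r ↔ el Λ b u (1 + i) % m = sg Λ b u m r := by
  rw [el_succ]
  unfold sg
  have h1 : (1 + i) % m = r ↔ (1 + i) ≡ r [MOD m] := by
    unfold Nat.ModEq
    rw [Nat.mod_eq_of_lt hr]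
  rw [h1]
  have h2 : ((b + Λ * (k0 Λ b u + i)) % m = (b + Λ * (k0 Λ b u + r + m - 1)) % m) ↔
      b + Λ * (k0 Λ b u + i) ≡ b + Λ * (k0 Λ b u + r + m - 1) [MOD m] := Iff.rfl
  rw [h2]
  constructor
  · intro h
    refine Nat.ModEq.add_left _ (Nat.ModEq.mul_left _ ?_)
    have h3 : 1 + (k0 Λ b u + i) ≡ 1 + (k0 Λ b u + r + m - 1) [MOD m] := by
      have e1 : 1 + (k0 Λ b u + i) = k0 Λ b u + (1 + i) := by ring
      have e2 : 1 + (k0 Λ b u + r + m - 1) = k0 Λ b u + r + m := by omega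
      rw [e1, e2]
      have h4 : k0 Λ b u + r + m ≡ k0 Λ b u + r [MOD m] := by
        unfold Nat.ModEq; rw [Nat.add_mod_right]
      exact (Nat.ModEq.add_left _ h).trans h4.symm
    exact Nat.ModEq.add_left_cancel' 1 h3
  · intro h
    have h3 := Nat.ModEq.add_left_cancel' b h
    have h4 := Nat.ModEq.cancel_left_of_coprime (by rw [Nat.Coprime] at hc; exact hc) h3
    have h5 : 1 + (k0 Λ b u + i) ≡ 1 + (k0 Λ b u + r + m - 1) [MOD m] := Nat.ModEq.add_left _ h4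
    have e1 : 1 + (k0 Λ b u + i) = k0 Λ b u + (1 + i) := by ring
    have e2 : 1 + (k0 Λ b u + r + m - 1) = k0 Λ b u + r + m := by omega
    rw [e1, e2] at h5
    have h6 : k0 Λ b u + r + m ≡ k0 Λ b u + r [MOD m] := by
      unfold Nat.ModEq; rw [Nat.add_mod_right]
    exact Nat.ModEq.add_left_cancel' _ (h5.trans h6)

theorem sg_lt (Λ b u : ℕ) {m : ℕ} (hm : 0 < m) (r : ℕ) : sg Λ b u m r < m := Nat.mod_lt _ hm

theorem sg_inj (Λ b u m : ℕ) (hm : 0 < m) (hc : Nat.Coprime m Λ) {r s : ℕ} (hr : r < m)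
    (hs : s < m) (h : sg Λ b u m r = sg Λ b u m s) : r = s := by
  have h1 := (sg_iff Λ b u m hm hc (r + m - 1) r hr).1 (by
    rw [show 1 + (r + m - 1) = r + m by omega, Nat.add_mod_right, Nat.mod_eq_of_lt hr])
  rw [h] at h1
  have h2 := (sg_iff Λ b u m hm hc (r + m - 1) s hs).2 h1
  rw [show 1 + (r + m - 1) = r + m by omega, Nat.add_mod_right, Nat.mod_eq_of_lt hr] at h2
  exact h2

theorem tr_cm (h : Cell M Λ b u v y) {m : ℕ} (hm : 0 < m) (hc : Nat.Coprime m Λ) {r : ℕ}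
    (hr : r < m) : cm (tr Λ b u v y) 1 (cn Λ b u v) m r = cm y 1 M m (sg Λ b u m r) := by
  have h1 := SM_tr h (fun n t => if n % m = sg Λ b u m r then t else 0) (fun _ => by simp)
  have h2 : cm y 1 M m (sg Λ b u m r) = SM M (fun n => if n % m = sg Λ b u m r then y n else 0) :=
    rfl
  rw [h2, ← h1]
  unfold cm SM
  refine Finset.sum_congr rfl fun i _ => ?_
  have h3 := sg_iff Λ b u m hm hc i r hr
  by_cases h4 : (1 + i) % m = r
  · beta_reduce
    rw [if_pos h4, if_pos (h3.1 h4)]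
  · beta_reduce
    rw [if_neg h4, if_neg (fun h5 => h4 (h3.2 h5))]

theorem tr_klu (h : Cell M Λ b u v y) {m : ℕ} (hm : 0 < m) (hc : Nat.Coprime m Λ) :
    klu (tr Λ b u v y) 1 (cn Λ b u v) m = klu y 1 M m := by
  unfold klu
  have h1 : ∑ r ∈ range m, cm (tr Λ b u v y) 1 (cn Λ b u v) m r *
      Real.log (m * cm (tr Λ b u v y) 1 (cn Λ b u v) m r) =
      ∑ r ∈ range m, cm y 1 M m (sg Λ b u m r) * Real.log (m * cm y 1 M m (sg Λ b u m r)) :=
    Finset.sum_congr rfl fun r hr => by rw [tr_cm h hm hc (mem_range.1 hr)]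
  rw [h1]
  have hinj : Set.InjOn (sg Λ b u m) (range m) := by
    intro r hr s hs hrs
    exact sg_inj Λ b u m hm hc (by simpa using hr) (by simpa using hs) hrs
  have himg : (range m).image (sg Λ b u m) = range m := by
    refine Finset.eq_of_subset_of_card_le (fun r hr => ?_) ?_
    · obtain ⟨s, _, rfl⟩ := Finset.mem_image.1 hr
      exact mem_range.2 (sg_lt Λ b u hm s)
    · rw [Finset.card_image_of_injOn hinj]
  rw [← Finset.sum_image (f := fun r => cm y 1 M m r * Real.log (m * cm y 1 M m r)) hinj, himg]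

end

/-- the value of the functional at the transported law -/
theorem FF_tr (hQ : Ok Q) {D b u v : ℕ} (hd : 1 ≤ d) (hD : 1 ≤ D)
    (h : Cell M (Q.lam D) b u v y) (hy : Law y 1 M) (mp : ι → ℕ)
    (hmp : ∀ i ∈ Q.I, 0 < mp i ∧ mp i ∣ Q.m i ∧ Nat.Coprime (mp i) D) :
    -kl0 y 1 M + Real.log M - Real.log (cn (Q.lam D) b u v) +
      ∑ i ∈ Q.I, Q.c i * klu y 1 M (mp i) +
      ∑ p ∈ Q.W with Nat.Coprime p D, Q.om p d (rs (sp y M) p) +
      Q.eta * Real.log (cn (Q.lam D) b u v) ≤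
    FF Q (d * D) (cn (Q.lam D) b u v) (tr (Q.lam D) b u v y) := by
  classical
  have hl := tr_law h hy
  have h1 : ∑ i ∈ Q.I, Q.c i * klu y 1 M (mp i) ≤
      ∑ i ∈ Q.I, Q.c i * klu (tr (Q.lam D) b u v y) 1 (cn (Q.lam D) b u v) (Q.m i) := by
    refine Finset.sum_le_sum fun i hi => mul_le_mul_of_nonneg_left ?_ (hQ.hc i hi)
    obtain ⟨h2, h3, h4⟩ := hmp i hi
    rw [← tr_klu h h2 (hQ.lamc D _ hD h4)]
    exact klu_mono hl (hQ.hm i hi) h3
  have h2 : ∑ p ∈ Q.W with Nat.Coprime p D, Q.om p d (rs (sp y M) p) ≤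
      Om Q (d * D) (sp (tr (Q.lam D) b u v y) (cn (Q.lam D) b u v)) := by
    unfold Om
    refine (Finset.sum_le_sum (g := fun p => Q.om p (d * D)
      (rs (sp (tr (Q.lam D) b u v y) (cn (Q.lam D) b u v)) p)) fun p hp => ?_).trans
      (Finset.sum_le_sum_of_subset_of_nonneg (Finset.filter_subset _ _)
        fun p hp _ => hQ.om0 p hp _ _)
    obtain ⟨hp1, hp2⟩ := Finset.mem_filter.1 hp
    have hp0 := hQ.hW p hp1
    refine hQ.omt p hp1 d D (b + Q.lam D * (k0 (Q.lam D) b u + p - 1)) _ _ hd hD hp2 ?_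
    intro r hr
    unfold rs at hr ⊢
    obtain ⟨n, hn, rfl⟩ := Finset.mem_image.1 hr
    unfold sp at hn
    obtain ⟨hn1, hn2⟩ := Finset.mem_filter.1 hn
    obtain ⟨hn3, hn4⟩ := Finset.mem_Icc.1 hn1
    obtain ⟨i, rfl⟩ : ∃ i, n = 1 + i := ⟨n - 1, by omega⟩
    have hi : i < cn (Q.lam D) b u v := by omega
    rw [tr_succ hi] at hn2
    have h5 := h.supp _ hn2
    refine Finset.mem_image.2 ⟨el (Q.lam D) b u (1 + i), ?_, ?_⟩
    · unfold sp
      refine Finset.mem_filter.2 ⟨Finset.mem_Icc.2 ?_, hn2⟩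
      have := h.hu
      have := h.hv
      omega
    · rw [el_succ]
      have h6 : b + Q.lam D * (k0 (Q.lam D) b u + p - 1) + Q.lam D * ((1 + i) % p) ≡
          b + Q.lam D * (k0 (Q.lam D) b u + p - 1) + Q.lam D * (1 + i) [MOD p] :=
        Nat.ModEq.add_left _ (Nat.ModEq.mul_left _ (Nat.mod_modEq _ _))
      have h7 : b + Q.lam D * (k0 (Q.lam D) b u + p - 1) + Q.lam D * (1 + i) =
          b + Q.lam D * (k0 (Q.lam D) b u + i) + Q.lam D * p := by
        have e1 : Q.lam D * (k0 (Q.lam D) b u + p - 1) + Q.lam D * (1 + i) =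
            Q.lam D * (k0 (Q.lam D) b u + i) + Q.lam D * p := by
          rw [← mul_add, ← mul_add]
          congr 1
          omega
        omega
      have h8 : b + Q.lam D * (k0 (Q.lam D) b u + i) + Q.lam D * p ≡
          b + Q.lam D * (k0 (Q.lam D) b u + i) [MOD p] := by
        unfold Nat.ModEq
        rw [Nat.add_mul_mod_self_right]
      rw [h7] at h6
      exact (h6.trans h8).symm
  unfold FF g0
  rw [tr_kl0 h hy]
  linarith

/-- the transported law is admissible -/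
theorem adm_tr (hQ : Ok Q) (hA : Adm Q N A0 d a M x) {D b u v : ℕ} (hD : 1 ≤ D)
    (h : Cell M (Q.lam D) b u v y) (hy : Law y 1 M) (hyx : ∀ n, y n ≠ 0 → x n ≠ 0)
    (hcn : Q.Mm ≤ cn (Q.lam D) b u v)
    (hcap : ∀ n, y n ≤ Real.exp Q.D0 / cn (Q.lam D) b u v) :
    Adm Q N A0 (d * D) (a + Q.lam d * (b + Q.lam D * ((k0 (Q.lam D) b u : ℤ) - 1)))
      (cn (Q.lam D) b u v) (tr (Q.lam D) b u v y) := by
  have hl := tr_law h hy
  have hd := hA.hd
  have hlam : Q.lam (d * D) = Q.lam d * Q.lam D := hQ.lamm d D hd hD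
  have hdpos : (1 : ℤ) ≤ Q.lam d := by exact_mod_cast hQ.lam0 d hd
  have hDpos : (1 : ℤ) ≤ Q.lam D := by exact_mod_cast hQ.lam0 D hD
  refine ⟨Nat.mul_pos hd hD, hcn, ?_, ?_, hl, fun n => ?_, fun n hn => ?_⟩
  · rw [hlam]
    have h1 := el_ge (u := u) h.hΛ h.hb h.hu 0
    rw [el_succ] at h1
    have h2 : (u : ℤ) ≤ b + Q.lam D * k0 (Q.lam D) b u := by exact_mod_cast h1
    have h3 : (1 : ℤ) ≤ u := by exact_mod_cast h.hu
    have h4 := hA.lo
    push_cast
    nlinarith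
  · rw [hlam]
    have hcpos : 0 < cn (Q.lam D) b u v := hl.pos
    have h1 := el_le (u := u) (v := v) (i := cn (Q.lam D) b u v - 1) h.hΛ h.hb (by omega)
    rw [el_succ] at h1
    have h2 : (b : ℤ) + Q.lam D * (k0 (Q.lam D) b u + (cn (Q.lam D) b u v - 1)) ≤ v := by
      have : ((cn (Q.lam D) b u v - 1 : ℕ) : ℤ) = (cn (Q.lam D) b u v : ℤ) - 1 := by
        push_cast [Nat.cast_sub (Nat.succ_le_of_lt hcpos)]; ring
      rw [← this]
      exact_mod_cast h1
    have h3 : (v : ℤ) ≤ M := by exact_mod_cast h.hv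
    have h4 := hA.hi
    push_cast
    nlinarith
  · by_cases hn : 1 ≤ n ∧ n ≤ cn (Q.lam D) b u v
    · unfold tr
      rw [if_pos hn]
      exact hcap _
    · unfold tr
      rw [if_neg hn]
      positivity
  · have hn1 : 1 ≤ n ∧ n ≤ cn (Q.lam D) b u v := by
      by_contra h2
      unfold tr at hn
      rw [if_neg h2] at hn
      exact hn rfl
    refine ⟨hn1.1, hn1.2, ?_⟩
    obtain ⟨i, rfl⟩ : ∃ i, n = 1 + i := ⟨n - 1, by omega⟩
    rw [tr_succ (by omega)] at hn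
    have h3 := (hA.supp _ (hyx _ hn)).2.2
    rw [el_succ] at h3
    have h4 : a + Q.lam d * (b + Q.lam D * ((k0 (Q.lam D) b u : ℤ) - 1)) +
        (Q.lam (d * D) : ℕ) * ((1 + i : ℕ) : ℤ) =
        a + Q.lam d * ((b + Q.lam D * (k0 (Q.lam D) b u + i) : ℕ) : ℤ) := by
      rw [hlam]
      push_cast
      ring
    rw [h4]
    exact h3

end Vale.Agent.P042.H945
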