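import Vale.Agent.P042.H945.State4
set_option autoImplicit false

/-!
P042 [D], the extremal state, part 5: the inequality of the maximiser for one residue class modulo
`lam D`.
-/

namespace Vale.Agent.P042.H945

open Finset Vale.Agent.P042.H599

variable {ι : Type} {Q : Par ι} {N d M : ℕ} {A0 : Finset ℤ} {a : ℤ} {x y : ℕ → ℝ}

/-- `log (m * x(class of n mod m))` -/
noncomputable def lc (x : ℕ → ℝ) (M m n : ℕ) : ℝ := Real.log (m * cm x 1 M m (n % m))

/-- sum of the coefficients times the logarithms of the moduli -/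
noncomputable def Cs (Q : Par ι) : ℝ := ∑ i ∈ Q.I, Q.c i * Real.log (Q.m i)

/-- sum of the coefficients -/
noncomputable def C1 (Q : Par ι) : ℝ := ∑ i ∈ Q.I, Q.c i

theorem Cs_nonneg (hQ : Ok Q) : 0 ≤ Cs Q :=
  Finset.sum_nonneg fun i hi => mul_nonneg (hQ.hc i hi)
    (Real.log_nonneg (by exact_mod_cast hQ.hm i hi))

theorem C1_nonneg (hQ : Ok Q) : 0 ≤ C1 Q := Finset.sum_nonneg fun i hi => hQ.hc i hi

theorem lc_le (hx : Law x 1 M) {m : ℕ} (hm : 0 < m) (n : ℕ) : lc x M m n ≤ Real.log m := by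
  unfold lc
  have h0 := cm_nonneg (p := m) (a := n % m) hx.nonneg
  have h1 : cm x 1 M m (n % m) ≤ 1 := by
    rw [← sum_cm hx.sum hm]
    exact Finset.single_le_sum (f := fun a => cm x 1 M m a)
      (fun a _ => cm_nonneg hx.nonneg _ _) (mem_range.2 (Nat.mod_lt _ hm))
  have hm' : (1 : ℝ) ≤ m := by exact_mod_cast hm
  rcases h0.eq_or_lt with h2 | h2
  · rw [← h2, mul_zero, Real.log_zero]
    exact Real.log_nonneg hm'
  · refine Real.log_le_log (by positivity) ?_
    nlinarith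

/-- mean of the derivative at the maximiser is close to its minimum -/
theorem ph0_close (hQ : Ok Q) (hx : IsMx Q N A0 d a M x) {L : ℝ} (hL : 0 ≤ L)
    (hbase : -L + Q.eta * Real.log N ≤ FF Q d M x) (hD : 2 * L + 3 * Q.E1 < Q.D0 / 8)
    (hD2 : Real.exp (-(Q.D0 / 4)) ≤ 1 / 2) (hy : Law y 1 M) (hyx : ∀ n, y n ≠ 0 → x n ≠ 0) :
    g0 Q M x ≤ SM M (fun n => y n * ph Q M x n) +
      2 * Real.exp (-(Q.D0 / 4)) * (Cs Q + 2 * L + 2 * Q.E1) := by
  classical
  have hA := hx.1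
  have hcut := cut_small hQ hx hbase hD
  set B : ℕ → Prop := fun n => Real.exp (Q.D0 / 2) < M * x n with hB
  set β := ms x M B with hβ
  have hβ0 : 0 ≤ β := ms_nonneg hA.law B
  have hMpos : (0 : ℝ) < M := by exact_mod_cast hA.law.pos
  have hD00 := hQ.D00
  have hCs := Cs_nonneg hQ
  have hE := hQ.E10
  obtain ⟨φ0, hφ1, hφ2⟩ := exists_ph0 hQ hx
  have hcapB : ∀ n, x n ≠ 0 → ¬ B n → ph Q M x n = φ0 := by
    intro n hn hnB
    refine hφ2 n hn ?_
    rw [lt_div_iff₀ hMpos]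
    have h1 : M * x n ≤ Real.exp (Q.D0 / 2) := not_lt.1 hnB
    have h2 : Real.exp (Q.D0 / 2) < Real.exp Q.D0 := Real.exp_lt_exp.2 (by linarith)
    linarith
  have hX : φ0 ≤ SM M (fun n => y n * ph Q M x n) := by
    have h2 : SM M (fun n => y n * φ0) ≤ SM M (fun n => y n * ph Q M x n) := by
      refine SM_le fun i hi => ?_
      by_cases h : y (1 + i) = 0
      · rw [h]; simp
      · exact mul_le_mul_of_nonneg_left (hφ1 _ (hyx _ h)) (hy.nonneg i hi)
    rwa [SM_const_mul, law_one hy, one_mul] at h2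
  have hdec : g0 Q M x ≤ β * Cs Q + (1 - β) * φ0 := by
    rw [g0_self hQ hA.law]
    have h1 : SM M (fun n => x n * ph Q M x n) ≤
        SM M (fun n => (if B n then x n else 0) * Cs Q + (if ¬ B n then x n else 0) * φ0) := by
      refine SM_le fun i hi => ?_
      by_cases h : B (1 + i)
      · rw [if_pos h, if_neg (not_not.2 h), zero_mul, add_zero]
        refine mul_le_mul_of_nonneg_left ?_ (hA.law.nonneg i hi)
        unfold ph
        have h3 : 0 ≤ Real.log (M * x (1 + i)) := by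
          have h4 := Real.log_lt_log (Real.exp_pos _) h
          rw [Real.log_exp] at h4
          linarith
        have h4 : ∑ j ∈ Q.I, Q.c j *
            Real.log (Q.m j * cm x 1 M (Q.m j) ((1 + i) % Q.m j)) ≤ Cs Q := by
          unfold Cs
          refine Finset.sum_le_sum fun j hj => mul_le_mul_of_nonneg_left ?_ (hQ.hc j hj)
          exact lc_le hA.law (hQ.hm j hj) (1 + i)
        linarith
      · rw [if_neg h, if_pos h, zero_mul, zero_add]
        rcases eq_or_ne (x (1 + i)) 0 with h3 | h3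
        · rw [h3]; simp
        · rw [hcapB _ h3 h]
    rw [SM_add, SM_const_mul, SM_const_mul] at h1
    have h2 : SM M (fun n => if ¬ B n then x n else 0) = 1 - β := by
      have h3 := ms_compl hA.law B
      have h4 : ms x M (fun n => ¬ B n) = SM M (fun n => if ¬ B n then x n else 0) := by
        unfold ms
        exact SM_congr fun i _ => by by_cases h : B (1 + i) <;> simp [h]
      rw [h4] at h3
      linarith
    have h5 : SM M (fun n => if B n then x n else 0) = β := rfl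
    rw [h2, h5] at h1
    exact h1
  have hlow := (value_bounds hQ hx hbase).2.2.1
  have hβh : β ≤ 1 / 2 := hcut.trans hD2
  -- t = g0 - φ0
  have h1 : (1 - β) * (g0 Q M x - φ0) ≤ β * (Cs Q + (2 * L + 2 * Q.E1)) := by nlinarith
  have h2 : g0 Q M x - φ0 ≤ 2 * β * (Cs Q + (2 * L + 2 * Q.E1)) := by
    rcases le_or_gt (g0 Q M x - φ0) 0 with h3 | h3
    · refine h3.trans ?_
      positivity
    · nlinarith
  have h3 : 2 * β * (Cs Q + (2 * L + 2 * Q.E1)) ≤
      2 * Real.exp (-(Q.D0 / 4)) * (Cs Q + (2 * L + 2 * Q.E1)) := by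
    gcongr
  linarith

/-- the inequality for one class modulo `lam D` -/
theorem mi_cell (hQ : Ok Q) (hx : IsMx Q N A0 d a M x) {L : ℝ} (hL : 0 ≤ L)
    (hbase : -L + Q.eta * Real.log N ≤ FF Q d M x) (hD0 : 2 * L + 3 * Q.E1 < Q.D0 / 8)
    (hD2 : Real.exp (-(Q.D0 / 4)) ≤ 1 / 2) {D b u v : ℕ} (hD : 1 ≤ D)
    (h : Cell M (Q.lam D) b u v y) (hy : Law y 1 M) (hyx : ∀ n, y n ≠ 0 → x n ≠ 0)
    (hcn : Q.Mm ≤ cn (Q.lam D) b u v)
    (hcap : ∀ n, y n ≤ Real.exp Q.D0 / cn (Q.lam D) b u v) (mp : ι → ℕ)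
    (hmp : ∀ i ∈ Q.I, 0 < mp i ∧ mp i ∣ Q.m i ∧ Nat.Coprime (mp i) D) :
    (1 - Q.eta) * (Real.log M - Real.log (cn (Q.lam D) b u v)) +
      ∑ i ∈ Q.I, Q.c i * klc y x M (mp i) +
      ∑ p ∈ Q.W with Nat.Coprime p D, Q.om p d (rs (sp y M) p) ≤
    kl2 y x M + ∑ i ∈ Q.I, Q.c i * SM M (fun n => y n * (lc x M (Q.m i) n - lc x M (mp i) n)) +
      Om Q d (sp x M) + 2 * Real.exp (-(Q.D0 / 4)) * (Cs Q + 2 * L + 2 * Q.E1) := by
  have hA := hx.1
  have hac : AC y x M := fun i _ h0 => by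
    by_contra h1; exact hyx _ h1 h0
  have h1 := FF_tr hQ hA.hd hD h hy mp hmp
  have h2 := hx.2 _ _ _ _ (adm_tr hQ hA hD h hy hyx hcn hcap)
  have h3 := h1.trans h2
  have h4 := ph0_close hQ hx hL hbase hD0 hD2 hy hyx
  unfold FF at h3
  have h5 := kl0_eq hy hac
  have h6 : ∑ i ∈ Q.I, Q.c i * klu y 1 M (mp i) = ∑ i ∈ Q.I, Q.c i * klc y x M (mp i) +
      ∑ i ∈ Q.I, Q.c i * SM M (fun n => y n * lc x M (mp i) n) := by
    rw [← Finset.sum_add_distrib]
    refine Finset.sum_congr rfl fun i hi => ?_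
    rw [klu_eq2 hA.law hac (hmp i hi).1, mul_add]
    rfl
  have h7 : SM M (fun n => y n * ph Q M x n) = -SM M (fun n => y n * Real.log (M * x n)) +
      ∑ i ∈ Q.I, Q.c i * SM M (fun n => y n * lc x M (Q.m i) n) := by
    have e1 := g0_eq hQ hA.law hy hac
    unfold g0 at e1
    have e2 : ∑ i ∈ Q.I, Q.c i * klu y 1 M (Q.m i) = ∑ i ∈ Q.I, Q.c i * klc y x M (Q.m i) +
        ∑ i ∈ Q.I, Q.c i * SM M (fun n => y n * lc x M (Q.m i) n) := by
      rw [← Finset.sum_add_distrib]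
      refine Finset.sum_congr rfl fun i hi => ?_
      rw [klu_eq2 hA.law hac (hQ.hm i hi), mul_add]
      rfl
    rw [e2, h5] at e1
    linarith
  have h8 : ∑ i ∈ Q.I, Q.c i * SM M (fun n => y n * (lc x M (Q.m i) n - lc x M (mp i) n)) =
      ∑ i ∈ Q.I, Q.c i * SM M (fun n => y n * lc x M (Q.m i) n) -
      ∑ i ∈ Q.I, Q.c i * SM M (fun n => y n * lc x M (mp i) n) := by
    rw [← Finset.sum_sub_distrib]
    refine Finset.sum_congr rfl fun i _ => ?_
    rw [← mul_sub, ← SM_sub]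
    congr 2
    funext n
    ring
  rw [h5, h6] at h3
  rw [h8]
  rw [h7] at h4
  linarith

end Vale.Agent.P042.H945
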