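import Vale.Agent.P042.H945.State6
set_option autoImplicit false

/-!
P042 [D], the extremal state, part 7: the functional with prime moduli (target S) and the inequality
for an event in a cell.
-/

namespace Vale.Agent.P042.H945

open Finset Vale.Agent.P042.H599

/-- the number of missing residues, divided by `p`, times `xi` -/
noncomputable def omS (xi : ℝ) (p : ℕ) (S : Finset ℕ) : ℝ :=
  xi * (((range p).filter (fun a => a ∉ S)).card / p)

/-- the functional of target S -/
noncomputable def ParS (W : Finset ℕ) (lam : ℕ → ℕ) (c0 xi eta D0 E1 : ℝ) (Mm : ℕ) : Par ℕ where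
  I := W
  m := fun p => p
  c := fun _ => c0
  W := W
  om := fun p _ S => omS xi p S
  lam := lam
  eta := eta
  D0 := D0
  E1 := E1
  Mm := Mm

/-- the proportion of the zero classes -/
noncomputable def zc (x : ℕ → ℝ) (M p : ℕ) : ℝ :=
  ((range p).filter (fun a => cm x 1 M p a = 0)).card / p

/-- properties of `lam` -/
structure LamOk (lam : ℕ → ℕ) (k : ℕ) : Prop where
  one : lam 1 = 1
  mul : ∀ d D, 1 ≤ d → 1 ≤ D → lam (d * D) = lam d * lam D
  dvd : ∀ d, 1 ≤ d → d ∣ lam d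
  dvdk : ∀ d, 1 ≤ d → lam d ∣ d ^ k

theorem LamOk.pos {lam : ℕ → ℕ} {k : ℕ} (h : LamOk lam k) {d : ℕ} (hd : 1 ≤ d) : 0 < lam d :=
  Nat.pos_of_dvd_of_pos (h.dvdk d hd) (Nat.pow_pos hd)

theorem omS_transport {xi : ℝ} (hxi : 0 ≤ xi) {p : ℕ} (hp : 0 < p) {Λ b : ℕ}
    (hc : Nat.Coprime p Λ) {S S' : Finset ℕ} (h : ∀ y ∈ S', (b + Λ * y) % p ∈ S) :
    omS xi p S ≤ omS xi p S' := by
  unfold omS
  have h1 : ((range p).filter (fun a => a ∉ S)).card ≤
      ((range p).filter (fun a => a ∉ S')).card := by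
    have hinj : Set.InjOn (fun y => (b + Λ * y) % p) (range p : Set ℕ) := by
      intro y hy z hz hyz
      have hy' : y < p := by simpa using hy
      have hz' : z < p := by simpa using hz
      have h2 : b + Λ * y ≡ b + Λ * z [MOD p] := hyz
      have h3 := Nat.ModEq.add_left_cancel' b h2
      have h4 := Nat.ModEq.cancel_left_of_coprime hc h3
      have h5 : y % p = z % p := h4
      rwa [Nat.mod_eq_of_lt hy', Nat.mod_eq_of_lt hz'] at h5
    have himg : (range p).image (fun y => (b + Λ * y) % p) = range p := by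
      refine Finset.eq_of_subset_of_card_le (fun r hr => ?_) ?_
      · obtain ⟨s, _, rfl⟩ := Finset.mem_image.1 hr
        exact mem_range.2 (Nat.mod_lt _ hp)
      · rw [Finset.card_image_of_injOn hinj]
    have h2 : (range p).filter (fun a => a ∉ S) ⊆
        ((range p).filter (fun a => a ∉ S')).image (fun y => (b + Λ * y) % p) := by
      intro a ha
      obtain ⟨h3, h4⟩ := Finset.mem_filter.1 ha
      rw [← himg] at h3
      obtain ⟨y, hy, rfl⟩ := Finset.mem_image.1 h3
      exact Finset.mem_image.2 ⟨y, Finset.mem_filter.2 ⟨hy, fun h5 => h4 (h y h5)⟩, rfl⟩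
    exact (Finset.card_le_card h2).trans Finset.card_image_le
  have hp' : (0 : ℝ) < p := by exact_mod_cast hp
  have h2 : (((range p).filter (fun a => a ∉ S)).card : ℝ) ≤
      ((range p).filter (fun a => a ∉ S')).card := by exact_mod_cast h1
  gcongr

theorem cm_eq_zero_iff {x : ℕ → ℝ} {M : ℕ} (hx : Law x 1 M) (p a : ℕ) :
    cm x 1 M p a = 0 ↔ a ∉ rs (sp x M) p := by
  unfold cm rs sp
  rw [Finset.sum_eq_zero_iff_of_nonneg (fun i hi => by
    split_ifs
    · exact hx.nonneg i (mem_range.1 hi)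
    · exact le_rfl)]
  constructor
  · intro h h1
    obtain ⟨n, hn, hna⟩ := Finset.mem_image.1 h1
    obtain ⟨h2, h3⟩ := Finset.mem_filter.1 hn
    obtain ⟨h4, h5⟩ := Finset.mem_Icc.1 h2
    have h6 := h (n - 1) (mem_range.2 (by omega))
    rw [show 1 + (n - 1) = n by omega, if_pos hna] at h6
    exact h3 h6
  · intro h i hi
    split_ifs with h1
    · by_contra h2
      refine h (Finset.mem_image.2 ⟨1 + i, Finset.mem_filter.2 ⟨Finset.mem_Icc.2 ?_, h2⟩, h1⟩)
      have := mem_range.1 hi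
      omega
    · rfl

theorem omS_sp {x : ℕ → ℝ} {M : ℕ} (hx : Law x 1 M) (xi : ℝ) (p : ℕ) :
    omS xi p (rs (sp x M) p) = xi * zc x M p := by
  unfold omS zc
  congr 4
  ext a
  simp only [Finset.mem_filter, cm_eq_zero_iff hx]

theorem Ok_ParS {W : Finset ℕ} {lam : ℕ → ℕ} {k : ℕ} {c0 xi eta D0 E1 : ℝ} {Mm : ℕ}
    (hW : ∀ p ∈ W, p.Prime) (hl : LamOk lam k) (hc0 : 0 ≤ c0) (hxi : 0 ≤ xi)
    (h1 : 0 < eta) (h2 : eta ≤ 1) (h3 : 2 ≤ Mm) (h4 : 0 < D0) (h5 : 0 ≤ E1)
    (HB : ∀ (M : ℕ) (x : ℕ → ℝ), Mm ≤ M → Law x 1 M →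
      (∀ i < M, x (1 + i) ≤ Real.exp (2 * D0) / M) →
      c0 * ∑ p ∈ W, klu x 1 M p + xi * ∑ p ∈ W, zc x M p ≤ kl0 x 1 M / 2 + E1) :
    Ok (ParS W lam c0 xi eta D0 E1 Mm) where
  hm := fun p hp => (hW p hp).pos
  hc := fun _ _ => hc0
  hW := fun p hp => (hW p hp).pos
  om0 := fun p _ d S => by
    show 0 ≤ omS xi p S
    unfold omS
    positivity
  omt := fun p hp d D b S S' _ hD hpD h => by
    refine omS_transport hxi (hW p hp).pos ?_ h
    exact Nat.Coprime.coprime_dvd_right (hl.dvdk D hD) (Nat.Coprime.pow_right k hpD)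
  lam1 := hl.one
  lamm := hl.mul
  lamd := hl.dvd
  lamc := fun d p hd hpd =>
    Nat.Coprime.coprime_dvd_right (hl.dvdk d hd) (Nat.Coprime.pow_right k hpd)
  lam0 := fun d hd => hl.pos hd
  eta0 := h1
  eta1 := h2
  Mm1 := h3
  D00 := h4
  E10 := h5
  HB := fun d M x _ hM hx hcap => by
    have h6 := HB M x hM hx hcap
    have h7 : ∑ i ∈ W, c0 * klu x 1 M i = c0 * ∑ p ∈ W, klu x 1 M p :=
      (Finset.mul_sum _ _ _).symm
    have h8 : Om (ParS W lam c0 xi eta D0 E1 Mm) d (sp x M) = xi * ∑ p ∈ W, zc x M p := by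
      unfold Om
      rw [Finset.mul_sum]
      exact Finset.sum_congr rfl fun p _ => omS_sp hx xi p
    show ∑ i ∈ W, c0 * klu x 1 M i + Om (ParS W lam c0 xi eta D0 E1 Mm) d (sp x M) ≤
      kl0 x 1 M / 2 + E1
    rw [h7, h8]
    exact h6

variable {W : Finset ℕ} {lam : ℕ → ℕ} {k : ℕ} {c0 xi eta D0 E1 : ℝ} {Mm : ℕ} {N d M : ℕ}
  {A0 : Finset ℤ} {a : ℤ} {x : ℕ → ℝ} {L : ℝ}

theorem rst_val {S : ℕ → Prop} {n : ℕ} (h : S n) : rst x M S n = x n / ms x M S := by
  classical
  unfold rst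
  rw [if_pos h]
  rfl

theorem rst_val0 {S : ℕ → Prop} {n : ℕ} (h : ¬ S n) : rst x M S n = 0 := by
  classical
  unfold rst
  rw [if_neg h]

/-- relative entropy of a restriction -/
theorem kl2_rst (hx : Law x 1 M) {S : ℕ → Prop} (h : 0 < ms x M S) :
    kl2 (rst x M S) x M = -Real.log (ms x M S) := by
  have hy := rst_law hx h
  have h1 : ∀ i < M, rst x M S (1 + i) * (Real.log (rst x M S (1 + i)) - Real.log (x (1 + i))) =
      rst x M S (1 + i) * (-Real.log (ms x M S)) := by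
    intro i _
    by_cases h2 : S (1 + i)
    · rw [rst_val h2]
      rcases eq_or_ne (x (1 + i)) 0 with h3 | h3
      · rw [h3]; simp
      · rw [Real.log_div h3 h.ne']; ring
    · rw [rst_val0 h2]; simp
  unfold kl2
  rw [SM_congr (g := fun n => rst x M S n * (-Real.log (ms x M S))) h1, SM_const_mul,
    law_one hy, one_mul]

theorem Om_le_ParS (hxi : 0 ≤ xi) (hW : ∀ p ∈ W, p.Prime) (d : ℕ) (S : Finset ℕ) :
    Om (ParS W lam c0 xi eta D0 E1 Mm) d S ≤ xi * W.card := by
  unfold Om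
  show ∑ p ∈ W, omS xi p (rs S p) ≤ xi * W.card
  have h1 : ∀ p ∈ W, omS xi p (rs S p) ≤ xi := by
    intro p hp
    unfold omS
    have hp0 : (0 : ℝ) < p := by exact_mod_cast (hW p hp).pos
    have h2 : ((((range p).filter (fun a => a ∉ rs S p)).card : ℕ) : ℝ) ≤ p := by
      have := Finset.card_filter_le (range p) (fun a => a ∉ rs S p)
      rw [card_range] at this
      exact_mod_cast this
    have h3 : ((((range p).filter (fun a => a ∉ rs S p)).card : ℕ) : ℝ) / p ≤ 1 := by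
      rw [div_le_one hp0]; exact h2
    nlinarith
  refine (Finset.sum_le_sum h1).trans ?_
  rw [Finset.sum_const, nsmul_eq_mul]
  linarith

/-- **the inequality for an event in a cell** -/
theorem event_ineq (hW : ∀ p ∈ W, p.Prime) (hxi : 0 ≤ xi)
    (hm : Mx (ParS W lam c0 xi eta D0 E1 Mm) N A0 d a M x L) {D w u v : ℕ} (hD : 1 ≤ D)
    (hu : 1 ≤ u) (hv : v ≤ M) (huv : 2 * Mm * lam D ≤ v + 1 - u) {S : ℕ → Prop}
    (hS : ∀ n, S n → x n ≠ 0 → M * x n ≤ Real.exp (D0 / 2) ∧ u ≤ n ∧ n ≤ v ∧ n % D = w)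
    (hpos : 0 < ms x M S)
    (hfat : Real.exp (-(D0 / 4)) * ((v + 1 - u : ℕ) : ℝ) ≤ D * ms x M S * M) :
    Real.log (D * ms x M S * M / ((v + 1 - u : ℕ) : ℝ)) +
      c0 * ∑ p ∈ W with ¬ p ∣ D, klc (rst x M S) x M p +
      ∑ p ∈ W with ¬ p ∣ D, omS xi p (rs (sp (rst x M S) M) p) ≤
    eta * Real.log (lam D) + eta * (Real.log M - Real.log ((v + 1 - u : ℕ) : ℝ)) +
      c0 * ∑ p ∈ W with p ∣ D, Real.log (p * cm x 1 M p (w % p)) + xi * ∑ p ∈ W, zc x M p +
      Err (ParS W lam c0 xi eta D0 E1 Mm) M L (xi * W.card) (1 / ms x M S)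
        (lam D / ((v + 1 - u : ℕ) : ℝ)) := by
  classical
  have hQ := hm.ok
  have hA := hm.mx.1
  have hlaw := hA.law
  have hxn := law_nonneg hA
  have hMm2 : 2 ≤ Mm := hQ.Mm1
  have hΛ : 0 < lam D := hQ.lam0 D hD
  have hVΛ : 4 * lam D ≤ v + 1 - u := by nlinarith
  have hVpos : 0 < v + 1 - u := by omega
  have hV' : (0 : ℝ) < ((v + 1 - u : ℕ) : ℝ) := by exact_mod_cast hVpos
  have hM' : (0 : ℝ) < M := by exact_mod_cast hlaw.pos
  have hD' : (0 : ℝ) < D := by exact_mod_cast hD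
  have hms1 := ms_le_one hlaw S
  have hylaw := rst_law hlaw hpos
  -- the competitor
  have hsupp : ∀ n, rst x M S n ≠ 0 → x n ≠ 0 ∧ u ≤ n ∧ n ≤ v ∧ n % D = w := by
    intro n hn
    by_cases h : S n
    · rw [rst_val h] at hn
      have h0 : x n ≠ 0 := fun h0 => hn (by rw [h0, zero_div])
      exact ⟨h0, (hS n h h0).2⟩
    · rw [rst_val0 h] at hn
      exact absurd rfl hn
  have hcap : ∀ n, rst x M S n ≤ Real.exp (3 / 4 * D0) * D / ((v + 1 - u : ℕ) : ℝ) := by
    intro n
    by_cases h : S n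
    · rw [rst_val h, div_le_div_iff₀ hpos hV']
      have h2 : x n ≤ Real.exp (D0 / 2) / M := by
        rw [le_div_iff₀ hM']
        rcases eq_or_ne (x n) 0 with h0 | h0
        · rw [h0, zero_mul]; exact (Real.exp_pos _).le
        · have h1 := (hS n h h0).1
          linarith
      have h3 : Real.exp (D0 / 2) = Real.exp (3 / 4 * D0) * Real.exp (-(D0 / 4)) := by
        rw [← Real.exp_add]; congr 1; ring
      calc x n * ((v + 1 - u : ℕ) : ℝ) ≤ Real.exp (D0 / 2) / M * ((v + 1 - u : ℕ) : ℝ) :=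
            mul_le_mul_of_nonneg_right h2 hV'.le
        _ = Real.exp (3 / 4 * D0) * (Real.exp (-(D0 / 4)) * ((v + 1 - u : ℕ) : ℝ)) / M := by
            rw [h3]; ring
        _ ≤ Real.exp (3 / 4 * D0) * (D * ms x M S * M) / M := by gcongr
        _ = Real.exp (3 / 4 * D0) * D * ms x M S := by field_simp
    · rw [rst_val0 h]; positivity
  have hcomp : Comp (ParS W lam c0 xi eta D0 E1 Mm) M x D w u v (rst x M S) :=
    ⟨hD, hu, hv, huv, hylaw, hsupp, hcap⟩
  have hK : ∀ n, rst x M S n ≤ 1 / ms x M S * x n := by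
    intro n
    by_cases h : S n
    · rw [rst_val h]; exact le_of_eq (by ring)
    · rw [rst_val0 h]
      have := hxn n
      positivity
  have hK1 : 1 ≤ 1 / ms x M S := by rw [le_div_iff₀ hpos]; linarith
  have hmp : ∀ p ∈ (ParS W lam c0 xi eta D0 E1 Mm).I, 0 < (if p ∣ D then 1 else p) ∧
      (if p ∣ D then 1 else p) ∣ (ParS W lam c0 xi eta D0 E1 Mm).m p ∧
      Nat.Coprime (if p ∣ D then 1 else p) D := by
    intro p hp
    have hp' := hW p hp
    split_ifs with h
    · exact ⟨one_pos, one_dvd _, Nat.coprime_one_left D⟩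
    · exact ⟨hp'.pos, dvd_rfl, (Nat.Prime.coprime_iff_not_dvd hp').2 h⟩
  have hmain := master hm hcomp hK1 hK (Om_le_ParS hxi hW d) (fun p => if p ∣ D then 1 else p) hmp
  rw [kl2_rst hlaw hpos] at hmain
  -- KC
  have hKC : KC (ParS W lam c0 xi eta D0 E1 Mm) M x (fun p => if p ∣ D then 1 else p)
      (rst x M S) = c0 * ∑ p ∈ W with ¬ p ∣ D, klc (rst x M S) x M p := by
    unfold KC
    show ∑ p ∈ W, c0 * klc (rst x M S) x M (if p ∣ D then 1 else p) = _
    rw [← Finset.mul_sum, Finset.sum_filter]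
    congr 1
    refine Finset.sum_congr rfl fun p _ => ?_
    by_cases h : p ∣ D
    · rw [if_pos h, if_neg (not_not.2 h)]
      unfold klc
      rw [Finset.sum_range_one]
      have e1 : ∀ z : ℕ → ℝ, Law z 1 M → cm z 1 M 1 0 = 1 := by
        intro z hz
        have := sum_cm hz.sum (p := 1) one_pos
        rwa [Finset.sum_range_one] at this
      rw [e1 _ hylaw, e1 _ hlaw]
      simp
    · rw [if_neg h, if_pos h]
  -- SC
  have hSC : SC (ParS W lam c0 xi eta D0 E1 Mm) M x (fun p => if p ∣ D then 1 else p)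
      (rst x M S) = c0 * ∑ p ∈ W with p ∣ D, Real.log (p * cm x 1 M p (w % p)) := by
    unfold SC
    show ∑ p ∈ W, c0 * SM M (fun n => rst x M S n *
      (lc x M p n - lc x M (if p ∣ D then 1 else p) n)) = _
    rw [← Finset.mul_sum, Finset.sum_filter]
    congr 1
    refine Finset.sum_congr rfl fun p _ => ?_
    by_cases h : p ∣ D
    · simp only [if_pos h]
      have e2 : SM M (fun n => rst x M S n * (lc x M p n - lc x M 1 n)) =
          SM M (fun n => rst x M S n * Real.log (p * cm x 1 M p (w % p))) := by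
        refine SM_congr fun i _ => ?_
        rcases eq_or_ne (rst x M S (1 + i)) 0 with h0 | h0
        · rw [h0, zero_mul, zero_mul]
        · have h1 := (hsupp _ h0).2.2.2
          have e3 : lc x M 1 (1 + i) = 0 := by
            unfold lc
            have e4 : cm x 1 M 1 ((1 + i) % 1) = 1 := by
              rw [Nat.mod_one]
              have := sum_cm hlaw.sum (p := 1) one_pos
              rwa [Finset.sum_range_one] at this
            rw [e4]; simp
          have e5 : (1 + i) % p = w % p := by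
            rw [← h1, Nat.mod_mod_of_dvd _ h]
          rw [e3, sub_zero]
          unfold lc
          rw [e5]
      rw [e2, SM_const_mul, law_one hylaw, one_mul]
    · simp only [if_neg h, sub_self, mul_zero]
      unfold SM
      exact Finset.sum_const_zero
  have hOmc : Omc (ParS W lam c0 xi eta D0 E1 Mm) d D M (rst x M S) =
      ∑ p ∈ W with ¬ p ∣ D, omS xi p (rs (sp (rst x M S) M) p) := by
    unfold Omc
    show ∑ p ∈ W with Nat.Coprime p D, omS xi p (rs (sp (rst x M S) M) p) = _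
    refine Finset.sum_congr ?_ fun _ _ => rfl
    ext p
    simp only [Finset.mem_filter]
    constructor
    · rintro ⟨h1, h2⟩
      exact ⟨h1, (Nat.Prime.coprime_iff_not_dvd (hW p h1)).1 h2⟩
    · rintro ⟨h1, h2⟩
      exact ⟨h1, (Nat.Prime.coprime_iff_not_dvd (hW p h1)).2 h2⟩
  have hOm : Om (ParS W lam c0 xi eta D0 E1 Mm) d (sp x M) = xi * ∑ p ∈ W, zc x M p := by
    unfold Om
    rw [Finset.mul_sum]
    exact Finset.sum_congr rfl fun p _ => omS_sp hlaw xi p
  rw [hKC, hSC, hOmc, hOm] at hmain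
  have hlog : Real.log (D * ms x M S * M / ((v + 1 - u : ℕ) : ℝ)) = Real.log D +
      Real.log (ms x M S) + Real.log M - Real.log ((v + 1 - u : ℕ) : ℝ) := by
    rw [Real.log_div (by positivity) hV'.ne', Real.log_mul (by positivity) hM'.ne',
      Real.log_mul hD'.ne' hpos.ne']
  have he1 : (ParS W lam c0 xi eta D0 E1 Mm).eta = eta := rfl
  have he2 : (ParS W lam c0 xi eta D0 E1 Mm).lam = lam := rfl
  rw [he1, he2] at hmain
  rw [hlog]
  linarith

end Vale.Agent.P042.H945
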