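import Vale.Agent.P042.H945.State7
set_option autoImplicit false

/-!
P042 [D], the extremal state, part 8 (target S): densities of the classes of one prime, small
atoms, and the cell inequality for the law without the part close to the cap.
-/

namespace Vale.Agent.P042.H945

open Finset Vale.Agent.P042.H599

/-- everything that is fixed for target S -/
structure SS0 (W : Finset ℕ) (lam : ℕ → ℕ) (k : ℕ) (c0 xi eta D0 E1 : ℝ) (Mm N : ℕ)
    (A0 : Finset ℤ) (d : ℕ) (a : ℤ) (M : ℕ) (x : ℕ → ℝ) (L Pm K0 r0 tt : ℝ) : Prop where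
  hW : ∀ p ∈ W, p.Prime
  hl : LamOk lam k
  mx : Mx (ParS W lam c0 xi eta D0 E1 Mm) N A0 d a M x L
  hc0 : 0 ≤ c0
  hxi : 0 < xi
  hcx : c0 + xi ≤ 1 / 2
  hPm : ∀ p ∈ W, (p : ℝ) ≤ Pm
  hPm1 : 1 ≤ Pm
  hMm : 4 * (Mm : ℝ) * Pm ^ k ≤ M
  hK0 : 4 * Pm ≤ K0
  hr0 : Pm ^ k / M ≤ r0
  tt0 : 0 ≤ tt
  hE : Err (ParS W lam c0 xi eta D0 E1 Mm) M L (xi * W.card) K0 r0 ≤ tt
  hsm : 6 * Pm * (tt / 2 + Real.exp (-(D0 / 4))) ≤ xi
  hsm2 : 12 * Pm * Real.exp (-(D0 / 4)) ≤ xi

variable {W : Finset ℕ} {lam : ℕ → ℕ} {k : ℕ} {c0 xi eta D0 E1 : ℝ} {Mm : ℕ} {N d M : ℕ}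
  {A0 : Finset ℤ} {a : ℤ} {x : ℕ → ℝ} {L Pm K0 r0 tt : ℝ}

theorem Err_mono {ι : Type} {Q : Par ι} (hQ : Ok Q) {M : ℕ} (L OB : ℝ) {K K' r r' : ℝ}
    (h0 : 0 < K) (h1 : K ≤ K') (h2 : r ≤ r') : Err Q M L OB K r ≤ Err Q M L OB K' r' := by
  unfold Err
  have h3 := Real.log_le_log h0 h1
  have h4 := C1_nonneg hQ
  have h5 := Real.exp_pos (-(Q.D0 / 4))
  have h6 : 2 * C1 Q * Real.log K ≤ 2 * C1 Q * Real.log K' :=
    mul_le_mul_of_nonneg_left h3 (by positivity)
  have h7 : 2 * Real.exp (-(Q.D0 / 4)) * (2 * Real.log M + OB + 2 * C1 Q * Real.log K +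
      2 * C1 Q * (1 + Q.D0 / 4 + Real.log M)) ≤
      2 * Real.exp (-(Q.D0 / 4)) * (2 * Real.log M + OB + 2 * C1 Q * Real.log K' +
      2 * C1 Q * (1 + Q.D0 / 4 + Real.log M)) :=
    mul_le_mul_of_nonneg_left (by linarith) (by positivity)
  linarith

theorem SS0.cut (h : SS0 W lam k c0 xi eta D0 E1 Mm N A0 d a M x L Pm K0 r0 tt) :
    ms x M (fun n => Real.exp (D0 / 2) < M * x n) ≤ Real.exp (-(D0 / 4)) :=
  cut_small h.mx.ok h.mx.mx h.mx.base h.mx.hD0

theorem SS0.law (h : SS0 W lam k c0 xi eta D0 E1 Mm N A0 d a M x L Pm K0 r0 tt) : Law x 1 M :=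
  h.mx.mx.1.law

theorem SS0.e0small (h : SS0 W lam k c0 xi eta D0 E1 Mm N A0 d a M x L Pm K0 r0 tt) :
    Pm * Real.exp (-(D0 / 4)) ≤ 1 / 24 ∧ Real.exp (-(D0 / 4)) ≤ 1 / 24 := by
  have h1 := h.hsm2
  have h2 := h.hcx
  have h3 := h.hc0
  have h4 := h.hPm1
  have h5 := Real.exp_pos (-(D0 / 4))
  constructor
  · nlinarith
  · nlinarith

theorem ms_le_of (hx : Law x 1 M) {S T : ℕ → Prop} (h : ∀ n, S n → T n) :
    ms x M S ≤ ms x M T := by
  classical
  unfold ms
  refine SM_le fun i hi => ?_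
  by_cases h1 : S (1 + i)
  · rw [if_pos h1, if_pos (h _ h1)]
  · rw [if_neg h1]
    split_ifs
    · exact hx.nonneg i hi
    · exact le_rfl

theorem ms_split (hx : Law x 1 M) (S T : ℕ → Prop) :
    ms x M S ≤ ms x M (fun n => S n ∧ T n) + ms x M (fun n => ¬ T n) := by
  classical
  unfold ms
  rw [← SM_add]
  refine SM_le fun i hi => ?_
  have h0 := hx.nonneg i hi
  by_cases h1 : S (1 + i) <;> by_cases h2 : T (1 + i) <;> simp [h1, h2, h0]

theorem ms_class (p a : ℕ) : ms x M (fun n => n % p = a) = cm x 1 M p a := by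
  classical
  unfold ms cm SM
  refine Finset.sum_congr rfl fun i _ => ?_
  by_cases h : (1 + i) % p = a <;> simp [h]

theorem zc_le {p : ℕ} (hp : 0 < p) (hx : Law x 1 M) {s : ℝ}
    (h : ∀ a, p * cm x 1 M p a ≤ Real.exp s) : zc x M p ≤ s := by
  classical
  have hp' : (0 : ℝ) < p := by exact_mod_cast hp
  have h1 : (1 : ℝ) ≤ (1 - zc x M p) * Real.exp s := by
    have h2 : ∑ a ∈ range p, (p : ℝ) * cm x 1 M p a = p := by
      rw [← Finset.mul_sum, sum_cm hx.sum hp, mul_one]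
    have h3 : ∑ a ∈ range p, (p : ℝ) * cm x 1 M p a ≤
        ∑ a ∈ range p, (if cm x 1 M p a = 0 then 0 else Real.exp s) := by
      refine Finset.sum_le_sum fun a _ => ?_
      split_ifs with h4
      · rw [h4, mul_zero]
      · exact h a
    rw [h2, ← Finset.sum_filter_add_sum_filter_not (range p) (fun a => cm x 1 M p a = 0)] at h3
    have h5 : ∑ a ∈ (range p).filter (fun a => cm x 1 M p a = 0),
        (if cm x 1 M p a = 0 then 0 else Real.exp s) = 0 :=
      Finset.sum_eq_zero fun a ha => if_pos (Finset.mem_filter.1 ha).2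
    have h6 : ∑ a ∈ (range p).filter (fun a => ¬ cm x 1 M p a = 0),
        (if cm x 1 M p a = 0 then 0 else Real.exp s) =
        (((range p).filter (fun a => ¬ cm x 1 M p a = 0)).card : ℝ) * Real.exp s := by
      rw [Finset.sum_congr rfl (fun a ha => if_neg (Finset.mem_filter.1 ha).2), Finset.sum_const,
        nsmul_eq_mul]
    rw [h5, h6, zero_add] at h3
    have h7 : ((((range p).filter (fun a => cm x 1 M p a = 0)).card : ℕ) : ℝ) +
        (((range p).filter (fun a => ¬ cm x 1 M p a = 0)).card : ℕ) = p := by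
      have h8 := Finset.card_filter_add_card_filter_not (s := range p)
        (fun a => cm x 1 M p a = 0)
      rw [card_range] at h8
      exact_mod_cast h8
    have h8 : (1 - zc x M p) * p =
        (((range p).filter (fun a => ¬ cm x 1 M p a = 0)).card : ℕ) := by
      unfold zc
      field_simp
      linarith
    rw [← h8] at h3
    have h9 : p * 1 ≤ p * ((1 - zc x M p) * Real.exp s) := by linarith
    exact le_of_mul_le_mul_left h9 hp'
  have h2 : Real.exp (-s) ≤ 1 - zc x M p := by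
    rw [Real.exp_neg, inv_le_iff_one_le_mul₀ (Real.exp_pos s)]
    exact h1
  have h3 := Real.one_sub_le_exp_neg s
  linarith

/-- mass of the event without the part close to the cap -/
theorem SS0.mass (h : SS0 W lam k c0 xi eta D0 E1 Mm N A0 d a M x L Pm K0 r0 tt)
    (S : ℕ → Prop) : ms x M S - Real.exp (-(D0 / 4)) ≤
      ms x M (fun n => S n ∧ M * x n ≤ Real.exp (D0 / 2)) := by
  have h1 := ms_split h.law S (fun n => M * x n ≤ Real.exp (D0 / 2))
  have h2 := ms_le_of h.law (S := fun n => ¬ (M * x n ≤ Real.exp (D0 / 2)))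
    (T := fun n => Real.exp (D0 / 2) < M * x n) (fun n hn => not_le.1 hn)
  have h3 := h.cut
  linarith

theorem omS_mono (hxi : 0 ≤ xi) {p : ℕ} {S S' : Finset ℕ} (hS : S' ⊆ S) :
    omS xi p S ≤ omS xi p S' := by
  unfold omS
  have h1 : ((range p).filter (fun a => a ∉ S)).card ≤
      ((range p).filter (fun a => a ∉ S')).card := by
    refine Finset.card_le_card fun a ha => ?_
    obtain ⟨h2, h3⟩ := Finset.mem_filter.1 ha
    exact Finset.mem_filter.2 ⟨h2, fun h4 => h3 (hS h4)⟩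
  have h2 : (((range p).filter (fun a => a ∉ S)).card : ℝ) ≤
      ((range p).filter (fun a => a ∉ S')).card := by exact_mod_cast h1
  have : (0 : ℝ) ≤ p := by positivity
  gcongr

theorem rs_sub {y : ℕ → ℝ} (h : ∀ n, y n ≠ 0 → x n ≠ 0) (p : ℕ) :
    rs (sp y M) p ⊆ rs (sp x M) p := by
  classical
  unfold rs sp
  refine Finset.image_subset_image fun n hn => ?_
  obtain ⟨h1, h2⟩ := Finset.mem_filter.1 hn
  exact Finset.mem_filter.2 ⟨h1, h n h2⟩

theorem rst_ne {S : ℕ → Prop} {n : ℕ} (h : rst x M S n ≠ 0) : S n ∧ x n ≠ 0 := by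
  by_cases h1 : S n
  · refine ⟨h1, fun h2 => h ?_⟩
    rw [rst_val h1, h2, zero_div]
  · exact absurd (rst_val0 h1) h

theorem log_lam_le {k : ℕ} {lam : ℕ → ℕ} (hl : LamOk lam k) {D : ℕ} (hD : 1 ≤ D) :
    Real.log (lam D) ≤ k * Real.log D := by
  have h1 : lam D ≤ D ^ k := Nat.le_of_dvd (Nat.pow_pos hD) (hl.dvdk D hD)
  have h2 : (0 : ℝ) < lam D := by exact_mod_cast hl.pos hD
  have h3 := Real.log_le_log h2 (show (lam D : ℝ) ≤ (D : ℝ) ^ k by exact_mod_cast h1)
  rwa [Real.log_pow] at h3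

/-- tiny constant of the one prime density -/
noncomputable def t2 (D0 Pm tt : ℝ) : ℝ := 2 * (tt + 2 * Pm * Real.exp (-(D0 / 4)))

/-- densities of the classes modulo one prime -/
theorem SS0.dens (h : SS0 W lam k c0 xi eta D0 E1 Mm N A0 d a M x L Pm K0 r0 tt) {p : ℕ}
    (hp : p ∈ W) (b : ℕ) :
    p * cm x 1 M p b ≤ Real.exp (2 * (eta * (k * Real.log p)) + t2 D0 Pm tt) := by
  classical
  have hpp := h.hW p hp
  have hp0 : (0 : ℝ) < p := by exact_mod_cast hpp.pos
  have hx := h.law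
  have hQ := h.mx.ok
  obtain ⟨he1, he2⟩ := h.e0small
  have hE0 := Real.exp_pos (-(D0 / 4))
  have hη : 0 < eta := hQ.eta0
  have hlogp : 0 ≤ Real.log p := Real.log_nonneg (by exact_mod_cast hpp.one_lt.le)
  -- the largest class
  obtain ⟨b0, hb0, hmax⟩ := Finset.exists_max_image (range p) (fun c => cm x 1 M p c)
    ⟨0, mem_range.2 hpp.pos⟩
  have hall : ∀ c, cm x 1 M p c ≤ cm x 1 M p b0 := by
    intro c
    by_cases hc : c < p
    · exact hmax c (mem_range.2 hc)
    · have : cm x 1 M p c = 0 := by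
        unfold cm
        refine Finset.sum_eq_zero fun i _ => ?_
        rw [if_neg]
        intro h1
        exact hc (h1 ▸ Nat.mod_lt _ hpp.pos)
      rw [this]
      exact cm_nonneg hx.nonneg _ _
  have hge : 1 ≤ p * cm x 1 M p b0 := by
    have h1 : ∑ c ∈ range p, cm x 1 M p c ≤ ∑ _c ∈ range p, cm x 1 M p b0 :=
      Finset.sum_le_sum fun c _ => hall c
    rw [sum_cm hx.sum hpp.pos, Finset.sum_const, card_range, nsmul_eq_mul] at h1
    exact h1
  obtain ⟨s, hs⟩ : ∃ s, s = Real.log (p * cm x 1 M p b0) := ⟨_, rfl⟩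
  have hs0 : 0 ≤ s := by rw [hs]; exact Real.log_nonneg hge
  have hexps : Real.exp s = p * cm x 1 M p b0 := by rw [hs, Real.exp_log (by linarith)]
  have hzc : zc x M p ≤ s := zc_le hpp.pos hx (fun c => by
    rw [hexps]; exact mul_le_mul_of_nonneg_left (hall c) hp0.le)
  -- the event
  obtain ⟨m, hm⟩ : ∃ m, m = ms x M (fun n => n % p = b0 ∧ M * x n ≤ Real.exp (D0 / 2)) :=
    ⟨_, rfl⟩
  have hmass := h.mass (fun n => n % p = b0)
  rw [ms_class, ← hm] at hmass
  have hPp := h.hPm p hp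
  have hpm : (p * cm x 1 M p b0) * (1 - Pm * Real.exp (-(D0 / 4))) ≤ p * m := by
    have h1 : p * (cm x 1 M p b0 - Real.exp (-(D0 / 4))) ≤ p * m :=
      mul_le_mul_of_nonneg_left hmass hp0.le
    have h2 : p * Real.exp (-(D0 / 4)) ≤ Pm * Real.exp (-(D0 / 4)) :=
      mul_le_mul_of_nonneg_right hPp hE0.le
    have hPE : 0 ≤ Pm * Real.exp (-(D0 / 4)) := by have := h.hPm1; positivity
    have h3 : 1 * (Pm * Real.exp (-(D0 / 4))) ≤
      (p * cm x 1 M p b0) * (Pm * Real.exp (-(D0 / 4))) := mul_le_mul_of_nonneg_right hge hPE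
    linarith
  have hpm2 : 1 / 2 ≤ p * m := by nlinarith
  have hmpos : 0 < m := by
    by_contra h1
    have : p * m ≤ 0 := mul_nonpos_of_nonneg_of_nonpos hp0.le (not_lt.1 h1)
    linarith
  have hMpos : (0 : ℝ) < M := by exact_mod_cast hx.pos
  have hV : M + 1 - 1 = M := by omega
  have hlamP : (lam p : ℝ) ≤ Pm ^ k := by
    have h1 : lam p ≤ p ^ k :=
      Nat.le_of_dvd (Nat.pow_pos hpp.pos) (h.hl.dvdk p hpp.one_lt.le)
    have h2 : (lam p : ℝ) ≤ (p : ℝ) ^ k := by exact_mod_cast h1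
    exact h2.trans (pow_le_pow_left₀ hp0.le hPp k)
  have huv : 2 * Mm * lam p ≤ M + 1 - 1 := by
    rw [hV]
    have h1 : (2 * Mm * lam p : ℝ) ≤ M := by
      have h2 := h.hMm
      have h3 : (0 : ℝ) ≤ Mm := by positivity
      have h4 : (Mm : ℝ) * lam p ≤ Mm * Pm ^ k := mul_le_mul_of_nonneg_left hlamP h3
      have h5 : (0 : ℝ) ≤ Mm * Pm ^ k := by
        have := h.hPm1
        positivity
      linarith
    exact_mod_cast h1
  have hev := event_ineq (S := fun n => n % p = b0 ∧ M * x n ≤ Real.exp (D0 / 2)) h.hW h.hxi.le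
    h.mx (D := p) (w := b0) (u := 1) (v := M) hpp.one_lt.le le_rfl le_rfl huv
    (fun n hn hxn => ⟨hn.2, (h.mx.mx.1.supp n hxn).1, (h.mx.mx.1.supp n hxn).2.1, hn.1⟩)
    (by rw [← hm]; exact hmpos) (by
      rw [← hm, hV]
      nlinarith)
  rw [← hm, hV] at hev
  have hfil : W.filter (fun q => q ∣ p) = {p} := by
    ext q
    simp only [Finset.mem_filter, Finset.mem_singleton]
    constructor
    · rintro ⟨h1, h2⟩
      exact (Nat.prime_dvd_prime_iff_eq (h.hW q h1) hpp).1 h2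
    · rintro rfl
      exact ⟨hp, dvd_rfl⟩
  have hb0' : b0 % p = b0 := Nat.mod_eq_of_lt (mem_range.1 hb0)
  rw [hfil, Finset.sum_singleton, hb0', ← hs, sub_self, mul_zero, add_zero] at hev
  have hy := rst_law hx (show 0 < ms x M (fun n => n % p = b0 ∧ M * x n ≤ Real.exp (D0 / 2)) by
    rw [← hm]; exact hmpos)
  have hac : AC (rst x M (fun n => n % p = b0 ∧ M * x n ≤ Real.exp (D0 / 2))) x M :=
    fun i _ h0 => by
      by_contra h1
      exact (rst_ne h1).2 h0
  have hk0 : 0 ≤ c0 * ∑ q ∈ W with ¬ q ∣ p, klc (rst x M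
      (fun n => n % p = b0 ∧ M * x n ≤ Real.exp (D0 / 2))) x M q :=
    mul_nonneg h.hc0 (Finset.sum_nonneg fun q hq =>
      klc_nonneg hy hx hac (h.hW q (Finset.mem_filter.1 hq).1).pos)
  have hom : xi * ∑ q ∈ W, zc x M q - xi * zc x M p ≤ ∑ q ∈ W with ¬ q ∣ p, omS xi q (rs (sp
      (rst x M (fun n => n % p = b0 ∧ M * x n ≤ Real.exp (D0 / 2))) M) q) := by
    have h1 : xi * ∑ q ∈ W, zc x M q - xi * zc x M p = ∑ q ∈ W with ¬ q ∣ p, xi * zc x M q := by
      rw [← Finset.sum_filter_add_sum_filter_not W (fun q => q ∣ p), hfil,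
        Finset.sum_singleton, mul_add, Finset.mul_sum]
      ring
    rw [h1]
    refine Finset.sum_le_sum fun q hq => ?_
    rw [← omS_sp hx]
    exact omS_mono h.hxi.le (rs_sub (fun n hn => (rst_ne hn).2) q)
  have hErr := (Err_mono hQ L (xi * W.card) (K := 1 / m) (K' := K0)
    (r := lam p / ((M : ℕ) : ℝ)) (r' := r0) (M := M) (by positivity) (by
      rw [div_le_iff₀ hmpos]
      have h1 := h.hK0
      have h2 : Pm * m ≥ p * m := mul_le_mul_of_nonneg_right hPp hmpos.le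
      have h3 : 4 * Pm * m ≤ K0 * m := mul_le_mul_of_nonneg_right h1 hmpos.le
      linarith) (by
      refine le_trans ?_ h.hr0
      gcongr)).trans h.hE
  have hlogpm : s - 2 * (Pm * Real.exp (-(D0 / 4))) ≤ Real.log (p * m * M / M) := by
    have h1 : p * m * M / M = (p * m : ℝ) := by field_simp
    rw [h1]
    have h2 := Real.log_le_log (by nlinarith) hpm
    rw [Real.log_mul (by linarith) (by linarith), ← hs] at h2
    have h3 : -(2 * (Pm * Real.exp (-(D0 / 4)))) ≤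
        Real.log (1 - Pm * Real.exp (-(D0 / 4))) := by
      have hPE : 0 ≤ Pm * Real.exp (-(D0 / 4)) := by have := h.hPm1; positivity
      have h4 : (0 : ℝ) < 1 - Pm * Real.exp (-(D0 / 4)) := by linarith
      have h5 := Real.one_sub_inv_le_log_of_pos h4
      have h6 : -(2 * (Pm * Real.exp (-(D0 / 4)))) ≤ 1 - (1 - Pm * Real.exp (-(D0 / 4)))⁻¹ := by
        have h7 : (1 - Pm * Real.exp (-(D0 / 4)))⁻¹ ≤ 1 + 2 * (Pm * Real.exp (-(D0 / 4))) := by
          rw [inv_le_iff_one_le_mul₀ h4]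
          nlinarith
        linarith
      linarith
    linarith
  have hlam : eta * Real.log (lam p) ≤ eta * (k * Real.log p) :=
    mul_le_mul_of_nonneg_left (log_lam_le h.hl hpp.one_lt.le) hη.le
  have hxz : xi * zc x M p ≤ xi * s := mul_le_mul_of_nonneg_left hzc h.hxi.le
  have hfin : s ≤ 2 * (eta * (k * Real.log p)) + t2 D0 Pm tt := by
    have h1 : s * (1 - (c0 + xi)) ≤ eta * (k * Real.log p) + tt +
        2 * (Pm * Real.exp (-(D0 / 4))) := by
      have := hev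
      linarith
    have h2 := h.hcx
    unfold t2
    nlinarith
  calc p * cm x 1 M p b ≤ p * cm x 1 M p b0 := mul_le_mul_of_nonneg_left (hall b) hp0.le
    _ = Real.exp s := hexps.symm
    _ ≤ _ := Real.exp_le_exp.2 hfin

end Vale.Agent.P042.H945
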