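import Vale.Agent.P042.H945.State8
set_option autoImplicit false

/-!
P042 [D], the extremal state, part 9 (target S): small atoms; the law without the part close to the
cap; the cell inequality for it.
-/

namespace Vale.Agent.P042.H945

open Finset Vale.Agent.P042.H599

variable {W : Finset ℕ} {lam : ℕ → ℕ} {k : ℕ} {c0 xi eta D0 E1 : ℝ} {Mm : ℕ} {N d M : ℕ}
  {A0 : Finset ℤ} {a : ℤ} {x : ℕ → ℝ} {L Pm K0 r0 tt : ℝ}

/-- a class modulo a prime is empty or has mass at least `xi / (3p)` -/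
theorem SS0.atom (h : SS0 W lam k c0 xi eta D0 E1 Mm N A0 d a M x L Pm K0 r0 tt) {p : ℕ}
    (hp : p ∈ W) {b : ℕ} (hb : cm x 1 M p b ≠ 0) : xi / 3 ≤ p * cm x 1 M p b := by
  classical
  have hpp := h.hW p hp
  have hp0 : (0 : ℝ) < p := by exact_mod_cast hpp.pos
  have hx := h.law
  have hQ := h.mx.ok
  obtain ⟨he1, he2⟩ := h.e0small
  have hE0 := Real.exp_pos (-(D0 / 4))
  have hη : 0 < eta := hQ.eta0
  have hcx := h.hcx
  have hc0 := h.hc0
  have hxi := h.hxi
  have hPp := h.hPm p hp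
  have hPm1 := h.hPm1
  have hp1 : (1 : ℝ) ≤ p := by exact_mod_cast hpp.one_lt.le
  by_contra hcon
  rw [not_le] at hcon
  have hα0 : 0 ≤ cm x 1 M p b := cm_nonneg hx.nonneg _ _
  have hα1 : cm x 1 M p b ≤ 1 / 6 := by nlinarith
  have hbp : b < p := by
    by_contra h1
    refine hb ?_
    unfold cm
    refine Finset.sum_eq_zero fun i _ => ?_
    rw [if_neg]
    intro h2
    exact h1 (h2 ▸ Nat.mod_lt _ hpp.pos)
  obtain ⟨m, hm⟩ : ∃ m, m = ms x M (fun n => (¬ n % p = b) ∧ M * x n ≤ Real.exp (D0 / 2)) :=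
    ⟨_, rfl⟩
  have hmass := h.mass (fun n => ¬ n % p = b)
  have hcomp := ms_compl hx (fun n => n % p = b)
  rw [ms_class] at hcomp
  rw [← hm] at hmass
  have hm1 : 1 - (cm x 1 M p b + Real.exp (-(D0 / 4))) ≤ m := by linarith
  have hm2 : 1 / 2 ≤ m := by linarith
  have hmpos : 0 < m := by linarith
  have hMpos : (0 : ℝ) < M := by exact_mod_cast hx.pos
  have hV : M + 1 - 1 = M := by omega
  have hl1 : lam 1 = 1 := h.hl.one
  have huv : 2 * Mm * lam 1 ≤ M + 1 - 1 := by
    rw [hV, hl1, mul_one]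
    have h1 : (2 * Mm : ℝ) ≤ M := by
      have h2 := h.hMm
      have h3 : (1 : ℝ) ≤ Pm ^ k := one_le_pow₀ hPm1
      have h4 : (0 : ℝ) ≤ Mm := by positivity
      nlinarith
    exact_mod_cast h1
  have hev := event_ineq (S := fun n => (¬ n % p = b) ∧ M * x n ≤ Real.exp (D0 / 2)) h.hW h.hxi.le
    h.mx (D := 1) (w := 0) (u := 1) (v := M) le_rfl le_rfl le_rfl huv
    (fun n hn hxn => ⟨hn.2, (h.mx.mx.1.supp n hxn).1, (h.mx.mx.1.supp n hxn).2.1, Nat.mod_one n⟩)
    (by rw [← hm]; exact hmpos) (by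
      rw [← hm, hV]
      push_cast
      nlinarith)
  rw [← hm, hV, hl1] at hev
  have hfil : W.filter (fun q => q ∣ 1) = ∅ := by
    rw [Finset.filter_eq_empty_iff]
    intro q hq h1
    exact (h.hW q hq).one_lt.ne' (Nat.dvd_one.1 h1)
  have hfil2 : W.filter (fun q => ¬ q ∣ 1) = W := by
    rw [Finset.filter_eq_self]
    intro q hq h1
    exact (h.hW q hq).one_lt.ne' (Nat.dvd_one.1 h1)
  rw [hfil, hfil2, Finset.sum_empty, sub_self, mul_zero, mul_zero] at hev
  have hy := rst_law hx (show 0 < ms x M (fun n => (¬ n % p = b) ∧ M * x n ≤ Real.exp (D0 / 2)) by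
    rw [← hm]; exact hmpos)
  have hac : AC (rst x M (fun n => (¬ n % p = b) ∧ M * x n ≤ Real.exp (D0 / 2))) x M :=
    fun i _ h0 => by
      by_contra h1
      exact (rst_ne h1).2 h0
  have hk0 : 0 ≤ c0 * ∑ q ∈ W, klc (rst x M
      (fun n => (¬ n % p = b) ∧ M * x n ≤ Real.exp (D0 / 2))) x M q :=
    mul_nonneg h.hc0 (Finset.sum_nonneg fun q hq => klc_nonneg hy hx hac (h.hW q hq).pos)
  have hom : xi * ∑ q ∈ W, zc x M q + xi / p ≤ ∑ q ∈ W, omS xi q (rs (sp
      (rst x M (fun n => (¬ n % p = b) ∧ M * x n ≤ Real.exp (D0 / 2))) M) q) := by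
    rw [← Finset.add_sum_erase W _ hp, ← Finset.add_sum_erase W
      (fun q => omS xi q (rs (sp (rst x M
        (fun n => (¬ n % p = b) ∧ M * x n ≤ Real.exp (D0 / 2))) M) q)) hp, mul_add,
      Finset.mul_sum]
    have h1 : ∑ q ∈ W.erase p, xi * zc x M q ≤ ∑ q ∈ W.erase p, omS xi q (rs (sp (rst x M
        (fun n => (¬ n % p = b) ∧ M * x n ≤ Real.exp (D0 / 2))) M) q) := by
      refine Finset.sum_le_sum fun q _ => ?_
      rw [← omS_sp hx]
      exact omS_mono h.hxi.le (rs_sub (fun n hn => (rst_ne hn).2) q)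
    have h2 : xi * zc x M p + xi / p ≤ omS xi p (rs (sp (rst x M
        (fun n => (¬ n % p = b) ∧ M * x n ≤ Real.exp (D0 / 2))) M) p) := by
      rw [← omS_sp hx]
      unfold omS
      have h3 : ((range p).filter (fun c => c ∉ rs (sp x M) p)).card + 1 ≤
          ((range p).filter (fun c => c ∉ rs (sp (rst x M
            (fun n => (¬ n % p = b) ∧ M * x n ≤ Real.exp (D0 / 2))) M) p)).card := by
        have hbm : b ∉ (range p).filter (fun c => c ∉ rs (sp x M) p) := by
          intro h4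
          have h5 := (Finset.mem_filter.1 h4).2
          rw [← cm_eq_zero_iff hx] at h5
          exact hb h5
        rw [← Finset.card_insert_of_notMem hbm]
        refine Finset.card_le_card fun c hc => ?_
        rcases Finset.mem_insert.1 hc with rfl | hc
        · refine Finset.mem_filter.2 ⟨mem_range.2 hbp, fun h4 => ?_⟩
          unfold rs sp at h4
          obtain ⟨n, hn, hnb⟩ := Finset.mem_image.1 h4
          exact (rst_ne (Finset.mem_filter.1 hn).2).1.1 hnb
        · obtain ⟨h4, h5⟩ := Finset.mem_filter.1 hc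
          exact Finset.mem_filter.2 ⟨h4, fun h6 => h5 (rs_sub (fun n hn => (rst_ne hn).2) p h6)⟩
      have h4 : ((((range p).filter (fun c => c ∉ rs (sp x M) p)).card : ℕ) : ℝ) + 1 ≤
          (((range p).filter (fun c => c ∉ rs (sp (rst x M
            (fun n => (¬ n % p = b) ∧ M * x n ≤ Real.exp (D0 / 2))) M) p)).card : ℕ) := by
        exact_mod_cast h3
      have h5 : xi * (((((range p).filter (fun c => c ∉ rs (sp x M) p)).card : ℕ) : ℝ) / p) +
          xi / p = xi * ((((((range p).filter (fun c => c ∉ rs (sp x M) p)).card : ℕ) : ℝ) + 1) /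
            p) := by ring
      rw [h5]
      gcongr
    linarith
  have hErr := (Err_mono hQ L (xi * W.card) (K := 1 / m) (K' := K0)
    (r := ((1 : ℕ) : ℝ) / ((M : ℕ) : ℝ)) (r' := r0) (M := M) (by positivity) (by
      rw [div_le_iff₀ hmpos]
      have h1 := h.hK0
      nlinarith) (by
      refine le_trans ?_ h.hr0
      have : (1 : ℝ) ≤ Pm ^ k := one_le_pow₀ hPm1
      push_cast
      gcongr)).trans h.hE
  have hlogm : -(2 * (cm x 1 M p b + Real.exp (-(D0 / 4)))) ≤
      Real.log (((1 : ℕ) : ℝ) * m * M / M) := by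
    have h1 : ((1 : ℕ) : ℝ) * m * M / M = m := by push_cast; field_simp
    rw [h1]
    have h4 : (0 : ℝ) < 1 - (cm x 1 M p b + Real.exp (-(D0 / 4))) := by linarith
    have h2 := Real.log_le_log h4 hm1
    have h5 := Real.one_sub_inv_le_log_of_pos h4
    have h6 : (1 - (cm x 1 M p b + Real.exp (-(D0 / 4))))⁻¹ ≤
        1 + 2 * (cm x 1 M p b + Real.exp (-(D0 / 4))) := by
      rw [inv_le_iff_one_le_mul₀ h4]
      nlinarith
    linarith
  have hlog1 : Real.log ((1 : ℕ) : ℝ) = 0 := by simp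
  rw [hlog1, mul_zero] at hev
  have h1 : xi / p ≤ tt + 2 * (cm x 1 M p b + Real.exp (-(D0 / 4))) := by linarith
  rw [div_le_iff₀ hp0] at h1
  have h2 := h.hsm
  have h3 : 6 * p * (tt / 2 + Real.exp (-(D0 / 4))) ≤ xi := by
    refine le_trans ?_ h2
    have : 0 ≤ tt / 2 + Real.exp (-(D0 / 4)) := by have := h.tt0; positivity
    nlinarith
  nlinarith

/-- the law without the part close to the cap -/
noncomputable def core (x : ℕ → ℝ) (M : ℕ) (D0 : ℝ) : ℕ → ℝ :=
  rst x M (fun n => M * x n ≤ Real.exp (D0 / 2))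

theorem SS0.beta (h : SS0 W lam k c0 xi eta D0 E1 Mm N A0 d a M x L Pm K0 r0 tt) :
    1 - Real.exp (-(D0 / 4)) ≤ ms x M (fun n => M * x n ≤ Real.exp (D0 / 2)) ∧
      ms x M (fun n => M * x n ≤ Real.exp (D0 / 2)) ≤ 1 ∧
      0 < ms x M (fun n => M * x n ≤ Real.exp (D0 / 2)) := by
  have h1 := ms_compl h.law (fun n => M * x n ≤ Real.exp (D0 / 2))
  have h2 := ms_le_of h.law (S := fun n => ¬ (M * x n ≤ Real.exp (D0 / 2)))
    (T := fun n => Real.exp (D0 / 2) < M * x n) (fun n hn => not_le.1 hn)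
  have h3 := h.cut
  have h4 := ms_le_one h.law (fun n => M * x n ≤ Real.exp (D0 / 2))
  obtain ⟨h5, h6⟩ := h.e0small
  exact ⟨by linarith, h4, by linarith⟩

theorem SS0.core_law (h : SS0 W lam k c0 xi eta D0 E1 Mm N A0 d a M x L Pm K0 r0 tt) :
    Law (core x M D0) 1 M := rst_law h.law h.beta.2.2

theorem ms_rst (S T : ℕ → Prop) :
    ms (rst x M S) M T = ms x M (fun n => T n ∧ S n) / ms x M S := by
  classical
  rw [div_eq_mul_inv]
  have h1 : ms x M (fun n => T n ∧ S n) * (ms x M S)⁻¹ =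
      SM M (fun n => (if T n ∧ S n then x n else 0) * (ms x M S)⁻¹) := by
    rw [SM_const_mul]
    unfold ms
    congr 1
    refine SM_congr fun i _ => ?_
    by_cases h2 : T (1 + i) ∧ S (1 + i) <;> simp [h2]
  rw [h1]
  unfold ms
  refine SM_congr fun i _ => ?_
  by_cases h2 : T (1 + i)
  · by_cases h3 : S (1 + i)
    · rw [if_pos h2, if_pos ⟨h2, h3⟩, rst_val h3, div_eq_mul_inv]
      rfl
    · rw [if_pos h2, if_neg (fun h4 => h3 h4.2), rst_val0 h3, zero_mul]
  · rw [if_neg h2, if_neg (fun h4 => h2 h4.1), zero_mul]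

theorem rst_rst {S T : ℕ → Prop} (hS : 0 < ms x M S) (n : ℕ) :
    rst (rst x M S) M T n = rst x M (fun n => T n ∧ S n) n := by
  by_cases h2 : T n
  · by_cases h3 : S n
    · rw [rst_val h2, rst_val h3, ms_rst, rst_val (S := fun n => T n ∧ S n) ⟨h2, h3⟩]
      rcases eq_or_ne (ms x M (fun n => T n ∧ S n)) 0 with h4 | h4
      · rw [h4, zero_div, div_zero, div_zero]
      · field_simp
    · rw [rst_val h2, rst_val0 h3, zero_div, rst_val0 (S := fun n => T n ∧ S n) (fun h4 => h3 h4.2)]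
  · rw [rst_val0 h2, rst_val0 (S := fun n => T n ∧ S n) (fun h4 => h2 h4.1)]

/-- comparison of the classes of the two laws -/
theorem SS0.core_cm (h : SS0 W lam k c0 xi eta D0 E1 Mm N A0 d a M x L Pm K0 r0 tt) (m b : ℕ) :
    cm x 1 M m b ≤ cm (core x M D0) 1 M m b + Real.exp (-(D0 / 4)) ∧
      cm (core x M D0) 1 M m b * ms x M (fun n => M * x n ≤ Real.exp (D0 / 2)) ≤
        cm x 1 M m b := by
  obtain ⟨h1, h2, h3⟩ := h.beta
  have h4 := h.mass (fun n => n % m = b)
  have h5 := ms_rst (x := x) (M := M) (fun n => M * x n ≤ Real.exp (D0 / 2)) (fun n => n % m = b)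
  rw [ms_class] at h4
  rw [ms_class] at h5
  have h6 : cm (core x M D0) 1 M m b * ms x M (fun n => M * x n ≤ Real.exp (D0 / 2)) =
      ms x M (fun n => n % m = b ∧ M * x n ≤ Real.exp (D0 / 2)) := by
    unfold core
    rw [h5, div_mul_cancel₀ _ h3.ne']
  have h7 := ms_le_of h.law (S := fun n => n % m = b ∧ M * x n ≤ Real.exp (D0 / 2))
    (T := fun n => n % m = b) (fun n hn => hn.1)
  rw [ms_class] at h7
  have h8 : 0 ≤ cm (core x M D0) 1 M m b := cm_nonneg h.core_law.nonneg _ _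
  refine ⟨?_, by linarith⟩
  nlinarith

/-- atoms of the core law -/
theorem SS0.core_atom (h : SS0 W lam k c0 xi eta D0 E1 Mm N A0 d a M x L Pm K0 r0 tt) {p : ℕ}
    (hp : p ∈ W) {b : ℕ} :
    (cm x 1 M p b ≠ 0 → xi / 4 ≤ p * cm (core x M D0) 1 M p b) ∧
      (cm (core x M D0) 1 M p b ≠ 0 → cm x 1 M p b ≠ 0) := by
  have hp0 : (0 : ℝ) < p := by exact_mod_cast (h.hW p hp).pos
  obtain ⟨h1, h2⟩ := h.core_cm p b
  have hPp := h.hPm p hp
  have hE0 := Real.exp_pos (-(D0 / 4))
  constructor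
  · intro h0
    have h3 := h.atom hp h0
    have h4 := h.hsm2
    have h5 : p * Real.exp (-(D0 / 4)) ≤ Pm * Real.exp (-(D0 / 4)) :=
      mul_le_mul_of_nonneg_right hPp hE0.le
    nlinarith
  · intro h0 h3
    rw [h3] at h2
    have h4 : 0 ≤ cm (core x M D0) 1 M p b := cm_nonneg h.core_law.nonneg _ _
    have h5 := h.beta.2.2
    have h6 : 0 < cm (core x M D0) 1 M p b := lt_of_le_of_ne h4 (Ne.symm h0)
    have := mul_pos h6 h5
    linarith

/-- comparison of the relative entropies -/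
theorem SS0.klc_core (h : SS0 W lam k c0 xi eta D0 E1 Mm N A0 d a M x L Pm K0 r0 tt) {p : ℕ}
    (hp : p ∈ W) {y : ℕ → ℝ} (hy : Law y 1 M) (hac : AC y x M) :
    klc y (core x M D0) M p ≤ klc y x M p + 4 * Pm * Real.exp (-(D0 / 4)) / xi := by
  have hp0 : (0 : ℝ) < p := by exact_mod_cast (h.hW p hp).pos
  have hE0 := Real.exp_pos (-(D0 / 4))
  have hxi := h.hxi
  have hPp := h.hPm p hp
  have h1 : klc y (core x M D0) M p ≤ ∑ b ∈ range p, (cm y 1 M p b *
      (Real.log (cm y 1 M p b) - Real.log (cm x 1 M p b)) +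
      cm y 1 M p b * (4 * Pm * Real.exp (-(D0 / 4)) / xi)) := by
    unfold klc
    refine Finset.sum_le_sum fun b _ => ?_
    rcases eq_or_ne (cm y 1 M p b) 0 with h0 | h0
    · rw [h0]; simp
    · have h2 : cm x 1 M p b ≠ 0 := fun h3 => h0 (cm_AC h.law hac h3)
      have h3 := (h.core_atom hp (b := b)).1 h2
      have h4 := (h.core_cm p b).1
      have h5 : 0 < cm (core x M D0) 1 M p b := by
        by_contra h6
        have := mul_nonpos_of_nonneg_of_nonpos hp0.le (not_lt.1 h6)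
        linarith
      have h6 : 0 < cm x 1 M p b := lt_of_le_of_ne (cm_nonneg h.law.nonneg _ _) (Ne.symm h2)
      have h7 : Real.log (cm x 1 M p b) - Real.log (cm (core x M D0) 1 M p b) ≤
          4 * Pm * Real.exp (-(D0 / 4)) / xi := by
        rw [← Real.log_div h6.ne' h5.ne']
        have h8 := Real.log_le_sub_one_of_pos (div_pos h6 h5)
        refine h8.trans ?_
        rw [sub_le_iff_le_add, div_le_iff₀ h5]
        have h9 : Real.exp (-(D0 / 4)) ≤
            4 * Pm * Real.exp (-(D0 / 4)) / xi * cm (core x M D0) 1 M p b := by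
          have e1 : 4 * Pm * Real.exp (-(D0 / 4)) / xi * cm (core x M D0) 1 M p b =
              Real.exp (-(D0 / 4)) * (4 * Pm * cm (core x M D0) 1 M p b / xi) := by ring
          rw [e1]
          have e2 : 1 ≤ 4 * Pm * cm (core x M D0) 1 M p b / xi := by
            rw [le_div_iff₀ hxi]
            nlinarith
          nlinarith
        nlinarith
      have h10 := cm_nonneg (p := p) (a := b) hy.nonneg
      nlinarith
  rw [Finset.sum_add_distrib, ← Finset.sum_mul, sum_cm hy.sum (h.hW p hp).pos, one_mul] at h1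
  exact h1

end Vale.Agent.P042.H945
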